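import Vale.Agent.P159.H889.RevP

/-!
P159 / H889: charge one functionals with densities, their transport through a Gaussian channel
`Pg F0 A G (a) = E G (F0 a + A g)`, composition of channels, and the reverse Poincare inequality for
the densities.
-/

namespace Vale.Agent.P159.H889

open MeasureTheory ProbabilityTheory Finset Matrix
open Vale.Agent.P159.H37 (gau gau_sum)
open Vale.Agent.P159.H363
open scoped Real

noncomputable section

variable {I I' J L Λ : Type*} [Fintype I] [Fintype I'] [Fintype J] [Fintype L] [Fintype Λ]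

/-- `Ψ` is differentiable with density `ψ`: `D_G Ψ = 2πi ∑ G_x ψ_x` -/
structure Dif (Ψ : (Λ → ℝ) → ℂ) (ψ : Λ → (Λ → ℝ) → ℂ) : Prop where
  m : Measurable Ψ
  mx : ∀ x, Measurable (ψ x)
  bd : ∃ K : ℝ, ∀ F, ‖Ψ F‖ ≤ K
  bdx : ∃ K : ℝ, ∀ x F, ‖ψ x F‖ ≤ K
  d : ∀ F G : Λ → ℝ, HasDerivAt (fun r : ℝ => Ψ (F + r • G))
    (2 * π * Complex.I * ∑ x, (G x : ℂ) * ψ x F) 0

/-- density of `Pg F0 A Ψ` -/
def dn (F0 : Matrix Λ J ℝ) (A : Matrix Λ I ℝ) (u : Λ → (Λ → ℝ) → ℂ) (X : J) (a : J → ℝ) : ℂ :=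
  ∑ y, (F0 y X : ℂ) * Pg F0 A (u y) a

section

variable {Ψ Ψ₁ Ψ₂ : (Λ → ℝ) → ℂ} {ψ ψ₁ ψ₂ : Λ → (Λ → ℝ) → ℂ}

lemma Dif.bd' (h : Dif Ψ ψ) : ∃ K : ℝ, 0 ≤ K ∧ ∀ F, ‖Ψ F‖ ≤ K := by
  obtain ⟨K, hK⟩ := h.bd
  exact ⟨K, (norm_nonneg _).trans (hK 0), hK⟩

lemma Dif.bdx' (h : Dif Ψ ψ) : ∃ K : ℝ, 0 ≤ K ∧ ∀ x F, ‖ψ x F‖ ≤ K := by
  obtain ⟨K, hK⟩ := h.bdx
  exact ⟨|K|, abs_nonneg K, fun x F => (hK x F).trans (le_abs_self K)⟩

/-- derivative at every point of a line -/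
lemma Dif.d_at (h : Dif Ψ ψ) (F G : Λ → ℝ) (r : ℝ) :
    HasDerivAt (fun r : ℝ => Ψ (F + r • G))
      (2 * π * Complex.I * ∑ x, (G x : ℂ) * ψ x (F + r • G)) r := by
  have h1 := h.d (F + r • G) G
  have h2 : HasDerivAt (fun s : ℝ => Ψ (F + r • G + s • G))
      (2 * π * Complex.I * ∑ x, (G x : ℂ) * ψ x (F + r • G)) (r - r) := by
    rw [sub_self]
    exact h1
  have h3 := HasDerivAt.comp_sub_const r r h2
  refine h3.congr_of_eventuallyEq (Filter.Eventually.of_forall fun s => ?_)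
  simp only
  congr 1
  rw [sub_smul]
  abel

lemma Dif.sub (h₁ : Dif Ψ₁ ψ₁) (h₂ : Dif Ψ₂ ψ₂) :
    Dif (fun F => Ψ₁ F - Ψ₂ F) fun x F => ψ₁ x F - ψ₂ x F := by
  obtain ⟨K1, hK1⟩ := h₁.bd
  obtain ⟨K2, hK2⟩ := h₂.bd
  obtain ⟨L1, hL1⟩ := h₁.bdx
  obtain ⟨L2, hL2⟩ := h₂.bdx
  refine ⟨h₁.m.sub h₂.m, fun x => (h₁.mx x).sub (h₂.mx x), ⟨K1 + K2, fun F => ?_⟩,
    ⟨L1 + L2, fun x F => ?_⟩, fun F G => ?_⟩
  · exact (norm_sub_le _ _).trans (add_le_add (hK1 F) (hK2 F))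
  · exact (norm_sub_le _ _).trans (add_le_add (hL1 x F) (hL2 x F))
  · refine ((h₁.d F G).sub (h₂.d F G)).congr_deriv ?_
    rw [← mul_sub, ← Finset.sum_sub_distrib]
    congr 1
    exact Finset.sum_congr rfl fun x _ => by ring

/-- the density is continuous along no line in general, but it is unique -/
lemma Dif.sum_unique (h₁ : Dif Ψ ψ₁) (h₂ : Dif Ψ ψ₂) (F G : Λ → ℝ) :
    ∑ x, (G x : ℂ) * ψ₁ x F = ∑ x, (G x : ℂ) * ψ₂ x F := by
  have h := (h₁.d F G).unique (h₂.d F G)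
  have h0 : (2 * π * Complex.I : ℂ) ≠ 0 := by
    have := Complex.I_ne_zero
    have hp : (π : ℂ) ≠ 0 := by exact_mod_cast Real.pi_ne_zero
    simp [hp, this]
  exact mul_left_cancel₀ h0 h

/-- derivative of the Gaussian operator on a functional with density -/
lemma Dif.hasDerivAt_Pg (h : Dif Ψ ψ) (F0 : Matrix Λ J ℝ) (A : Matrix Λ I ℝ) (a δ : J → ℝ) :
    HasDerivAt (fun r : ℝ => Pg F0 A Ψ (a + r • δ))
      (2 * π * Complex.I * ∑ x, ((F0 *ᵥ δ) x : ℂ) * Pg F0 A (ψ x) a) 0 := by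
  obtain ⟨K, hK0, hK⟩ := h.bd'
  obtain ⟨K', hK'0, hK'⟩ := h.bdx'
  set G : Λ → ℝ := F0 *ᵥ δ with hG
  set Fm : (I → ℝ) → Λ → ℝ := fun g => F0 *ᵥ a + A *ᵥ g with hFm
  have mF : Measurable Fm := measurable_const.add (measurable_mulVec A)
  set F : ℝ → (I → ℝ) → ℂ := fun r g => Ψ (Fm g + r • G) with hF
  set F' : ℝ → (I → ℝ) → ℂ := fun r g =>
    2 * π * Complex.I * ∑ x, (G x : ℂ) * ψ x (Fm g + r • G) with hF'
  have mr : ∀ r : ℝ, Measurable fun g => Fm g + r • G := fun r => mF.add_const _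
  have hb : ∀ r g, ‖F' r g‖ ≤ 2 * π * ∑ x, |G x| * K' := by
    intro r g
    rw [hF']
    simp only
    rw [norm_mul]
    have e1 : ‖(2 * π * Complex.I : ℂ)‖ = 2 * π := by
      rw [norm_mul, norm_mul, Complex.norm_I, Complex.norm_real, Real.norm_eq_abs,
        abs_of_pos Real.pi_pos]
      simp
    rw [e1]
    refine mul_le_mul_of_nonneg_left ?_ (by positivity)
    refine (norm_sum_le _ _).trans (Finset.sum_le_sum fun x _ => ?_)
    rw [norm_mul, Complex.norm_real, Real.norm_eq_abs]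
    exact mul_le_mul_of_nonneg_left (hK' x _) (abs_nonneg _)
  have key := hasDerivAt_integral_of_dominated_loc_of_deriv_le (μ := gau I) (F := F) (F' := F')
    (x₀ := (0 : ℝ)) (s := Set.univ) (bound := fun _ => 2 * π * ∑ x, |G x| * K')
    Filter.univ_mem
    (Filter.Eventually.of_forall fun r => (h.m.comp (mr r)).aestronglyMeasurable)
    (Integrable.of_bound (C := K) (h.m.comp (mr 0)).aestronglyMeasurable
      (Filter.Eventually.of_forall fun g => hK _))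
    (by
      apply Measurable.aestronglyMeasurable
      refine Measurable.const_mul (Finset.measurable_fun_sum _ fun x _ => ?_) _
      exact ((h.mx x).comp (mr 0)).const_mul _)
    (Filter.Eventually.of_forall fun g r _ => hb r g) (integrable_const _)
    (Filter.Eventually.of_forall fun g r _ => h.d_at (Fm g) G r)
  have h2 := key.2
  have e2 : ∫ g, F' 0 g ∂(gau I) = 2 * π * Complex.I * ∑ x, (G x : ℂ) * Pg F0 A (ψ x) a := by
    rw [hF']
    simp only [zero_smul, add_zero]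
    rw [integral_const_mul, integral_finsetSum]
    · congr 1
      refine Finset.sum_congr rfl fun x _ => ?_
      rw [integral_const_mul]
      rfl
    · intro x _
      refine Integrable.const_mul ?_ _
      exact Integrable.of_bound (C := K') ((h.mx x).comp mF).aestronglyMeasurable
        (Filter.Eventually.of_forall fun g => hK' x _)
  rw [e2] at h2
  refine h2.congr_of_eventuallyEq (Filter.Eventually.of_forall fun r => ?_)
  simp only
  unfold Pg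
  refine integral_congr_ae (Filter.Eventually.of_forall fun g => ?_)
  simp only
  rw [hF]
  simp only
  congr 1
  rw [hFm, hG]
  simp only
  rw [mulVec_add, mulVec_smul]
  abel

lemma sum_mulVec_dn (F0 : Matrix Λ J ℝ) (A : Matrix Λ I ℝ) (u : Λ → (Λ → ℝ) → ℂ) (a δ : J → ℝ) :
    ∑ x, ((F0 *ᵥ δ) x : ℂ) * Pg F0 A (u x) a = ∑ X, (δ X : ℂ) * dn F0 A u X a := by
  unfold dn
  simp only [Finset.mul_sum]
  rw [Finset.sum_comm]
  refine Finset.sum_congr rfl fun x _ => ?_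
  have e : ((F0 *ᵥ δ) x : ℂ) = ∑ X, (F0 x X : ℂ) * (δ X : ℂ) := by
    rw [mulVec, dotProduct]
    push_cast
    rfl
  rw [e, Finset.sum_mul]
  exact Finset.sum_congr rfl fun X _ => by ring

lemma measurable_dn {F0 : Matrix Λ J ℝ} {A : Matrix Λ I ℝ} {u : Λ → (Λ → ℝ) → ℂ}
    (hu : ∀ x, Measurable (u x)) (X : J) : Measurable (dn F0 A u X) := by
  unfold dn
  exact Finset.measurable_fun_sum _ fun y _ => (measurable_Pg (hu y)).const_mul _

lemma norm_dn_le {F0 : Matrix Λ J ℝ} {A : Matrix Λ I ℝ} {u : Λ → (Λ → ℝ) → ℂ} {K : ℝ}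
    (hu : ∀ x F, ‖u x F‖ ≤ K) (X : J) (a : J → ℝ) : ‖dn F0 A u X a‖ ≤ (∑ y, |F0 y X|) * K := by
  unfold dn
  refine (norm_sum_le _ _).trans ?_
  rw [Finset.sum_mul]
  refine Finset.sum_le_sum fun y _ => ?_
  rw [norm_mul, Complex.norm_real, Real.norm_eq_abs]
  exact mul_le_mul_of_nonneg_left (norm_Pg_le (hu y) a) (abs_nonneg _)

/-- **TRANSPORT OF THE DENSITY** through a Gaussian channel -/
theorem Dif.step (h : Dif Ψ ψ) (F0 : Matrix Λ J ℝ) (A : Matrix Λ I ℝ) :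
    Dif (Pg F0 A Ψ) (dn F0 A ψ) := by
  obtain ⟨K, hK0, hK⟩ := h.bd'
  obtain ⟨K', hK'0, hK'⟩ := h.bdx'
  refine ⟨measurable_Pg h.m, fun X => measurable_dn h.mx X, ⟨K, fun a => norm_Pg_le hK a⟩,
    ⟨(∑ X, ∑ y, |F0 y X|) * K', fun X a => ?_⟩, fun a δ => ?_⟩
  · refine (norm_dn_le hK' X a).trans (mul_le_mul_of_nonneg_right ?_ hK'0)
    exact Finset.single_le_sum (f := fun X => ∑ y, |F0 y X|)
      (fun i _ => Finset.sum_nonneg fun y _ => abs_nonneg _) (Finset.mem_univ X)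
  · have h1 := h.hasDerivAt_Pg F0 A a δ
    rw [sum_mulVec_dn] at h1
    exact h1

end

section rev

variable {G : (Λ → ℝ) → ℂ} {γ : Λ → (Λ → ℝ) → ℂ} [DecidableEq J]

/-- the density of `Pg G` is the Cameron-Martin derivative -/
lemma dn_eq_dP (h : Dif G γ) {F0 : Matrix Λ J ℝ} {A : Matrix Λ I ℝ} {W : Matrix I J ℝ}
    (hW : A * W = F0) (X : J) (a : J → ℝ) :
    2 * π * Complex.I * dn F0 A γ X a = dP F0 A G a fun i => W i X := by
  obtain ⟨K, hK0, hK⟩ := h.bd'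
  have h1 := (h.step F0 A).d a (Pi.single X 1)
  have hw : A *ᵥ (fun i => W i X) = F0 *ᵥ (Pi.single X 1) := by
    rw [mulVec_single_one]
    funext x
    rw [← hW]
    rfl
  have h2 := hasDerivAt_Pg h.m hK a (Pi.single X 1) _ hw
  have h3 := h1.unique h2
  rw [← h3]
  congr 1
  rw [Finset.sum_eq_single X]
  · simp
  · intro Y _ hY
    rw [Pi.single_eq_of_ne hY]
    simp
  · intro h0
    exact absurd (Finset.mem_univ X) h0

lemma norm_dn_eq (h : Dif G γ) {F0 : Matrix Λ J ℝ} {A : Matrix Λ I ℝ} {W : Matrix I J ℝ}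
    (hW : A * W = F0) (X : J) (a : J → ℝ) :
    ‖dn F0 A γ X a‖ = (2 * π)⁻¹ * ‖dP F0 A G a fun i => W i X‖ := by
  rw [← dn_eq_dP h hW X a, norm_mul]
  have e1 : ‖(2 * π * Complex.I : ℂ)‖ = 2 * π := by
    rw [norm_mul, norm_mul, Complex.norm_I, Complex.norm_real, Real.norm_eq_abs,
      abs_of_pos Real.pi_pos]
    simp
  rw [e1, ← mul_assoc, inv_mul_cancel₀ (by positivity), one_mul]

/-- **REVERSE POINCARE for the densities**, pointwise -/
theorem rev_dn (h : Dif G γ) {F0 : Matrix Λ J ℝ} {A : Matrix Λ I ℝ} {W : Matrix I J ℝ}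
    (hW : A * W = F0) {κ : ℝ} (hκ : 0 ≤ κ)
    (hb : ∀ v : I → ℝ, ∑ X, (v ᵥ* W) X ^ 2 ≤ κ * ∑ i, v i ^ 2) (a : J → ℝ) :
    ∑ X, ‖dn F0 A γ X a‖ ^ 2
      ≤ (2 * π)⁻¹ ^ 2 * κ * ∫ g, ‖G (F0 *ᵥ a + A *ᵥ g)‖ ^ 2 ∂(gau I) := by
  obtain ⟨K, hK0, hK⟩ := h.bd'
  simp only [norm_dn_eq h hW, mul_pow]
  rw [← Finset.mul_sum, mul_assoc]
  exact mul_le_mul_of_nonneg_left (revP h.m hK a W hκ hb) (by positivity)

/-- **REVERSE POINCARE for the densities**, in `L²` of the law of `a = C' b` -/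
theorem rev_dn_int (h : Dif G γ) {F0 : Matrix Λ J ℝ} {A : Matrix Λ I ℝ} {W : Matrix I J ℝ}
    (hW : A * W = F0) {κ : ℝ} (hκ : 0 ≤ κ)
    (hb : ∀ v : I → ℝ, ∑ X, (v ᵥ* W) X ^ 2 ≤ κ * ∑ i, v i ^ 2) (C' : Matrix J L ℝ) :
    ∑ X, ∫ b, ‖dn F0 A γ X (C' *ᵥ b)‖ ^ 2 ∂(gau L)
      ≤ (2 * π)⁻¹ ^ 2 * κ
        * ∫ b, ∫ g, ‖G (F0 *ᵥ (C' *ᵥ b) + A *ᵥ g)‖ ^ 2 ∂(gau I) ∂(gau L) := by
  obtain ⟨K, hK0, hK⟩ := h.bd'
  have e : ∀ X, ∫ b, ‖dn F0 A γ X (C' *ᵥ b)‖ ^ 2 ∂(gau L)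
      = (2 * π)⁻¹ ^ 2 * ∫ b, ‖dP F0 A G (C' *ᵥ b) (fun i => W i X)‖ ^ 2 ∂(gau L) := by
    intro X
    rw [← integral_const_mul]
    refine integral_congr_ae (Filter.Eventually.of_forall fun b => ?_)
    simp only
    rw [norm_dn_eq h hW, mul_pow]
  simp only [e]
  rw [← Finset.mul_sum, mul_assoc]
  exact mul_le_mul_of_nonneg_left (revP_int h.m hK C' W hκ hb) (by positivity)

end rev

section comp

/-- composition of two Gaussian channels -/
theorem Pg_comp (F1 : Matrix J L ℝ) (B : Matrix J I' ℝ) (F0 : Matrix Λ J ℝ) (A : Matrix Λ I ℝ)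
    {G : (Λ → ℝ) → ℂ} (hG : Measurable G) {C : ℝ} (hC : ∀ F, ‖G F‖ ≤ C) (a : L → ℝ) :
    Pg F1 B (Pg F0 A G) a = Pg (F0 * F1) (fromCols (F0 * B) A) G a := by
  unfold Pg
  rw [integral_gau_sum (fun g => G ((F0 * F1) *ᵥ a + fromCols (F0 * B) A *ᵥ g))]
  · refine integral_congr_ae (Filter.Eventually.of_forall fun g => ?_)
    refine integral_congr_ae (Filter.Eventually.of_forall fun η => ?_)
    simp only
    congr 1
    rw [fromCols_mulVec_sumElim, mulVec_add, mulVec_mulVec, mulVec_mulVec, add_assoc]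
  · refine Integrable.of_bound (C := C) ?_ (Filter.Eventually.of_forall fun g => hC _)
    exact (hG.comp (measurable_const.add (measurable_mulVec _))).aestronglyMeasurable

/-- composition of the densities -/
theorem dn_comp (F1 : Matrix J L ℝ) (B : Matrix J I' ℝ) (F0 : Matrix Λ J ℝ) (A : Matrix Λ I ℝ)
    {u : Λ → (Λ → ℝ) → ℂ} (hm : ∀ x, Measurable (u x)) {C : ℝ} (hC : ∀ x F, ‖u x F‖ ≤ C)
    (X : L) (a : L → ℝ) :
    dn F1 B (dn F0 A u) X a = dn (F0 * F1) (fromCols (F0 * B) A) u X a := by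
  have e2 : ∀ y, Pg (F0 * F1) (fromCols (F0 * B) A) (u y) a = Pg F1 B (Pg F0 A (u y)) a :=
    fun y => (Pg_comp F1 B F0 A (hm y) (hC y) a).symm
  have e1 : ∀ Y : J, Pg F1 B (dn F0 A u Y) a
      = ∑ y, (F0 y Y : ℂ) * Pg F1 B (Pg F0 A (u y)) a := by
    intro Y
    have h0 : Pg F1 B (dn F0 A u Y) a
        = ∫ g, ∑ y, (F0 y Y : ℂ) * Pg F0 A (u y) (F1 *ᵥ a + B *ᵥ g) ∂(gau I') := rfl
    rw [h0, integral_finsetSum]
    · refine Finset.sum_congr rfl fun y _ => ?_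
      rw [integral_const_mul]
      rfl
    · intro y _
      refine Integrable.const_mul ?_ _
      exact integrable_Pg (measurable_Pg (hm y)) (fun f => norm_Pg_le (hC y) f) a
  have h1 : dn F1 B (dn F0 A u) X a = ∑ Y, (F1 Y X : ℂ) * Pg F1 B (dn F0 A u Y) a := rfl
  have h2 : dn (F0 * F1) (fromCols (F0 * B) A) u X a
      = ∑ y, (((F0 * F1) y X : ℝ) : ℂ) * Pg (F0 * F1) (fromCols (F0 * B) A) (u y) a := rfl
  have e3 : ∀ y, (((F0 * F1) y X : ℝ) : ℂ) = ∑ Y, (F0 y Y : ℂ) * (F1 Y X : ℂ) := by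
    intro y
    rw [Matrix.mul_apply]
    push_cast
    rfl
  rw [h1, h2]
  simp only [e1, e2, e3, Finset.mul_sum, Finset.sum_mul]
  rw [Finset.sum_comm]
  refine Finset.sum_congr rfl fun y _ => Finset.sum_congr rfl fun Y _ => by ring

end comp

end

end Vale.Agent.P159.H889
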