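import Vale.Agent.P159.H889.Vloc
import Vale.Agent.P159.H552.In5d
import Vale.Agent.P159.H43.YcanT
import Vale.Agent.P159.H43.Num2
import Vale.Agent.P159.H363.Acl

/-!
P159 / H889: the real first harmonic `Wc` of `log Z` on cell fields of the torus and its cell
densities `uc`: `Dif`, charge one, translation covariance, local approximants.
-/

namespace Vale.Agent.P159.H889

open MeasureTheory ProbabilityTheory Finset Matrix
open Vale.Agent.P159.TM.Spec (V)
open Vale.Agent.P159.TM.SpecC (Tor wT)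
open Vale.Agent.P159.H37 (gau gau_sum qf wt)
open Vale.Agent.P159.H145 (mt)
open Vale.Agent.P159.H363
open Vale.Agent.P159.H864 (TI CT cl up tra)
open Vale.Agent.P159.H552 (ut uq lft idc cutB nc)
open Vale.Agent.P159.H43 (Wq dW)
open scoped Real

noncomputable section

variable {N l : ℕ} [NeZero N] [NeZero (N / l)] {b t : ℝ}

/-- first harmonic of `log Z` at mass `t`, on cell fields -/
def Wc (N l : ℕ) [NeZero N] [NeZero (N / l)] (b t : ℝ) (F : V (N / l) → ℝ) : ℂ :=
  Wq (wT b N) (mt N t) 1 (lf N l F)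

/-- its cell densities -/
def uc (N l : ℕ) [NeZero N] [NeZero (N / l)] (b t : ℝ) (x : V (N / l)) (F : V (N / l) → ℝ) : ℂ :=
  ut N b t (cl : V N → V (N / l)) x F

lemma mt_eq (N : ℕ) [NeZero N] (t : ℝ) : mt N t = t • (1 : Matrix (Tor N) (Tor N) ℝ) := rfl

lemma wm_mt (hb : 0 ≤ b) (ht : 0 < t) : H896.WM (wT b N) (mt N t) := H896.wm_t hb ht

lemma lf_eq_lft (F : V (N / l) → ℝ) : lf N l F = lft (cl : V N → V (N / l)) F := rfl

lemma lf_eq_sum (G : V (N / l) → ℝ) :
    lf N l G = ∑ x, G x • idc (cl : V N → V (N / l)) x := by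
  funext v
  rw [Finset.sum_apply]
  unfold lf idc
  simp

lemma dW_lf (hb : 0 ≤ b) (ht : 0 < t) (F : V N → ℝ) (G : V (N / l) → ℝ) :
    dW (wT b N) (mt N t) 1 F (lf N l G)
      = ∑ x, (G x : ℂ) * dW (wT b N) (mt N t) 1 F (idc (cl : V N → V (N / l)) x) := by
  have hw := wm_mt (N := N) hb ht
  rw [lf_eq_sum, H43.dW_sum_dir hw.sym hw.em]
  refine Finset.sum_congr rfl fun x _ => ?_
  unfold H43.dW
  rw [← intervalIntegral.integral_const_mul]
  refine intervalIntegral.integral_congr fun c _ => ?_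
  have h1 : ∀ (F' g : V N → ℝ) (a : ℝ), H43.dL (wT b N) (mt N t) F' (a • g)
      = a * H43.dL (wT b N) (mt N t) F' g := by
    intro F' g a
    have h2 := (H43.hasDerivAt_LM hw.sym hw.em F' (a • g) 0)
    have h3 : HasDerivAt (fun r : ℝ => H145.LM (wT b N) (mt N t) (F' + (a * r) • g))
        (H43.dL (wT b N) (mt N t) (F' + (a * 0) • g) g * a) 0 := by
      have h4 := H43.hasDerivAt_LM hw.sym hw.em F' g (a * 0)
      have h5 : HasDerivAt (fun r : ℝ => a * r) a 0 := by
        simpa using (hasDerivAt_id (0 : ℝ)).const_mul a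
      exact HasDerivAt.comp (h₂ := fun r : ℝ => H145.LM (wT b N) (mt N t) (F' + r • g))
        (0 : ℝ) h4 h5
    have h6 : (fun r : ℝ => H145.LM (wT b N) (mt N t) (F' + r • (a • g)))
        = fun r : ℝ => H145.LM (wT b N) (mt N t) (F' + (a * r) • g) := by
      funext r
      rw [smul_smul, mul_comm r a]
    rw [h6] at h2
    have h7 := h2.unique h3
    simp only [zero_smul, add_zero, mul_zero] at h7
    rw [h7, mul_comm]
  rw [h1]
  push_cast
  ring

/-- sup bound of the densities -/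
theorem norm_uc_le (hb : 0 ≤ b) (ht : 0 < t) (hl : l ∣ N) (x : V (N / l)) (F : V (N / l) → ℝ) :
    ‖uc N l b t x F‖ ≤ (2 * π)⁻¹ * (t * (l : ℝ) ^ 2) := by
  have h := H552.ut_le (cl := (cl : V N → V (N / l))) hb ht x F
  have e : nc (cl : V N → V (N / l)) x = (l : ℝ) ^ 2 := by
    rw [H552.nc_eq]
    exact H864.card_cell hl x
  rw [e] at h
  exact h

lemma sum_uc (hb : 0 ≤ b) (ht : 0 < t) (F : V (N / l) → ℝ) :
    ∑ x, uc N l b t x F = Wc N l b t F :=
  H43.sum_uq (cl := (cl : V N → V (N / l))) (wm_mt hb ht) F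

lemma continuous_uc (hb : 0 ≤ b) (ht : 0 < t) (x : V (N / l)) : Continuous (uc N l b t x) :=
  H552.ut_cont hb ht x

lemma ch_uc (hb : 0 ≤ b) (ht : 0 < t) (x : V (N / l)) : Ch (uc N l b t x) := H552.ut_ch hb ht x

lemma continuous_Wc (hb : 0 ≤ b) (ht : 0 < t) : Continuous (Wc N l b t) := by
  have h : Wc N l b t = fun F => ∑ x, uc N l b t x F := by
    funext F
    exact (sum_uc hb ht F).symm
  rw [h]
  exact continuous_finsetSum _ fun x _ => continuous_uc hb ht x

lemma ch_Wc (hb : 0 ≤ b) (ht : 0 < t) : Ch (Wc N l b t) := by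
  intro F c
  rw [← sum_uc hb ht, ← sum_uc hb ht, Finset.mul_sum]
  exact Finset.sum_congr rfl fun x _ => ch_uc hb ht x F c

/-- **the first harmonic is a functional with density** -/
theorem dif_Wc (hb : 0 ≤ b) (ht : 0 < t) (hl : l ∣ N) : Dif (Wc N l b t) (uc N l b t) := by
  have hw := wm_mt (N := N) hb ht
  refine ⟨(continuous_Wc hb ht).measurable, fun x => (continuous_uc hb ht x).measurable,
    ⟨∑ _x : V (N / l), (2 * π)⁻¹ * (t * (l : ℝ) ^ 2), fun F => ?_⟩,
    ⟨_, fun x F => norm_uc_le hb ht hl x F⟩, fun F G => ?_⟩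
  · rw [← sum_uc hb ht]
    exact (norm_sum_le _ _).trans (Finset.sum_le_sum fun x _ => norm_uc_le hb ht hl x F)
  · have h1 := H43.hasDerivAt_Wq hw.sym hw.em 1 (lf N l F) (lf N l G) 0
    have e1 : (fun r : ℝ => Wc N l b t (F + r • G))
        = fun r : ℝ => Wq (wT b N) (mt N t) 1 (lf N l F + r • lf N l G) := by
      funext r
      unfold Wc
      rw [lf_add, lf_smul]
    rw [e1]
    refine h1.congr_deriv ?_
    rw [zero_smul, add_zero, dW_lf hb ht, Finset.mul_sum]
    refine Finset.sum_congr rfl fun x _ => ?_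
    unfold uc ut uq
    have h0 : (2 * π * Complex.I : ℂ) ≠ 0 := by simp [Real.pi_ne_zero, Complex.I_ne_zero]
    rw [← lf_eq_lft]
    field_simp

/-- covariance -/
theorem cov_uc (hb : 0 ≤ b) (ht : 0 < t) (hl : l ∣ N) : Cov (uc N l b t) := by
  intro a x F
  have hw := wm_mt (N := N) hb ht
  have h := H43.uq_sym (cl := (cl : V N → V (N / l))) hw (tra (up a)) (tra a)
    (fun v => H864.cl_tra hl a v) (fun h => H864.tinv_wT b (up a) h) (fun y z => by
      rw [mt_eq, H864.tra_apply, H864.tra_apply]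
      simp [Matrix.smul_apply, Matrix.one_apply]) x F
  rw [H864.tra_apply] at h
  exact h

/-- the densities of the cut field -/
def mc (N l : ℕ) [NeZero N] [NeZero (N / l)] (b t : ℝ) (D0 : ℕ) (x : V (N / l))
    (F : V (N / l) → ℝ) : ℂ := uc N l b t x (cutx D0 x F)

/-- **local approximants of the real densities** -/
theorem lcl_uc (hb : 0 ≤ b) (ht : 0 < t) (hl : l ∣ N) {A : Matrix (V (N / l)) (V (N / l)) ℝ}
    {D0 : ℕ} {η : ℝ} (h : ∀ x, tn2 A (fun F => uc N l b t x F - uc N l b t x (cutx D0 x F)) ≤ η) :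
    Lcl A D0 η (π⁻¹ * (t * (l : ℝ) ^ 2)) (uc N l b t) (mc N l b t D0) := by
  have mcut : ∀ x, Measurable (cutx D0 x : (V (N / l) → ℝ) → V (N / l) → ℝ) := fun x =>
    H552.measurable_cutB (H462.box x D0) x
  refine ⟨fun x => ?_, ⟨_, fun x F => norm_uc_le hb ht hl x _⟩, fun x => ?_, fun a x F => ?_,
    fun x F F' hF => ?_, fun x F F' r hr => ?_, h⟩
  · unfold mc
    exact (continuous_uc hb ht x).measurable.comp (mcut x)
  · exact H552.ch_cut (ch_uc hb ht x) (H462.box x D0) x
  · unfold mc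
    rw [cov_uc hb ht hl a x, sh_cutx]
  · unfold mc
    have e1 : cutx D0 x F = cutx D0 x F' := H552.cutB_congr (self_mem_box x D0) hF
    rw [e1]
  · unfold mc uc
    have e : nc (cl : V N → V (N / l)) x = (l : ℝ) ^ 2 := by
      rw [H552.nc_eq]
      exact H864.card_cell hl x
    rw [← e]
    refine H552.ut_lip hb ht x _ _ r fun v => ?_
    unfold cutx cutB
    by_cases hv : v ∈ H462.box x D0
    · rw [if_pos hv, if_pos hv]
      exact hr v hv
    · rw [if_neg hv, if_neg hv]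
      exact hr x (self_mem_box x D0)

/-- closeness of the densities to their cut version from a good set -/
theorem uc_good (hb : 0 ≤ b) (ht : 0 < t) (hl : l ∣ N) {A : Matrix (V (N / l)) (V (N / l)) ℝ}
    {D0 : ℕ} {x : V (N / l)} {G : Set (V (N / l) → ℝ)} (hG : MeasurableSet G) {r p : ℝ}
    (hr : 0 ≤ r) (hp0 : 0 ≤ p)
    (hg : ∀ F ∈ G, ‖uc N l b t x F - uc N l b t x (cutx D0 x F)‖ ≤ r)
    (hp : (gau (V (N / l))).real {g | pin A *ᵥ g ∉ G} ≤ p ^ 2) :
    tn2 A (fun F => uc N l b t x F - uc N l b t x (cutx D0 x F))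
      ≤ r + π⁻¹ * (t * (l : ℝ) ^ 2) * p := by
  have mcut : Measurable (cutx D0 x : (V (N / l) → ℝ) → V (N / l) → ℝ) :=
    H552.measurable_cutB (H462.box x D0) x
  have mu := (continuous_uc (l := l) hb ht x).measurable
  have mm : Measurable fun F => uc N l b t x F - uc N l b t x (cutx D0 x F) :=
    mu.sub (mu.comp mcut)
  have hB : ∀ F, ‖uc N l b t x F - uc N l b t x (cutx D0 x F)‖ ≤ π⁻¹ * (t * (l : ℝ) ^ 2) := by
    intro F
    refine (norm_sub_le _ _).trans ((add_le_add (norm_uc_le hb ht hl x F)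
      (norm_uc_le hb ht hl x _)).trans (le_of_eq ?_))
    have := Real.pi_pos
    field_simp
    ring
  have h := H552.l2_good (P := gau (V (N / l))) (X := fun g => pin A *ᵥ g)
    (measurable_mulVec (pin A)) mm hG hg hB hp
  have hb0 : 0 ≤ π⁻¹ * (t * (l : ℝ) ^ 2) := (norm_nonneg _).trans (hB 0)
  rw [← tn2_sq mm hB A] at h
  refine le_of_sq_le_sq (h.trans ?_) (by positivity)
  nlinarith [mul_nonneg hr (mul_nonneg hb0 hp0)]

end

end Vale.Agent.P159.H889
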