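import Vale.Agent.P159.H889.Vctx

/-!
P159 / H889: algebra of the context of the V step.
-/

namespace Vale.Agent.P159.H889

open Vale.Agent.P159.H972 (tn)
open Vale.Agent.P159.H640 (sm_rpow sm_exp)

noncomputable section

section lam

variable {n m s s' : ℕ}

lemma lam_pos (n s : ℕ) : 0 < lam n s := by
  unfold lam
  positivity

lemma nu_eq (n s : ℕ) : nu n s = lam n s ^ 2 := by
  have h4 : (4 : ℝ) ^ n = (2 ^ n) ^ 2 := by
    rw [← pow_mul, mul_comm, pow_mul]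
    norm_num
  unfold nu lam tn
  rw [div_pow, h4]
  push_cast
  field_simp

lemma nu_pos (n s : ℕ) : 0 < nu n s := by
  rw [nu_eq]
  exact pow_pos (lam_pos n s) 2

lemma lam_exp (n s : ℕ) : lam n s = Real.exp (-(Lg n s)) := by
  unfold lam Lg
  rw [← Real.rpow_natCast, ← Real.rpow_natCast, ← Real.rpow_sub two_pos,
    Real.rpow_def_of_pos two_pos]
  congr 1
  ring

lemma Lg_eq (n s : ℕ) : Lg n s = -Real.log (lam n s) := by
  rw [lam_exp, Real.log_exp, neg_neg]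

lemma Mw_pos (n m : ℕ) : 0 < Mw n m := by
  unfold Mw
  positivity

lemma tn_mul (n m : ℕ) : tn n = Mw n m ^ 2 * tn m := by
  have h4 : ∀ j : ℕ, (4 : ℝ) ^ j = (2 ^ j) ^ 2 := by
    intro j
    rw [← pow_mul, mul_comm, pow_mul]
    norm_num
  unfold Mw tn
  rw [h4, h4, div_pow]
  field_simp

lemma Mw_pow (h : n ≤ m) : Mw n m = 2 ^ (m - n) := by
  unfold Mw
  rw [div_eq_iff (by positivity), ← pow_add, Nat.sub_add_cancel h]

/-- new cells -/
lemma lam_next (h : s ≤ s') (n m : ℕ) : lam m s' = lam n s * 2 ^ (s' - s) / Mw n m := by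
  have h1 : (2 : ℝ) ^ s' = 2 ^ s * 2 ^ (s' - s) := by rw [← pow_add, Nat.add_sub_cancel' h]
  unfold lam Mw
  rw [h1]
  field_simp

end lam

section cx

variable {P : H972.Par} {b C1 c1 : ℝ} {n m s s' : ℕ} {e e' y y' : ℝ}

lemma Cx.e1 (h : Cx P b C1 c1 n s e y) : e ≤ 1 / 2 := h.es.trans P.es1

lemma Cx.yle (h : Cx P b C1 c1 n s e y) : y ≤ e ^ (20 / 39 : ℝ) := by
  have h1 := Real.rpow_le_rpow (Real.rpow_nonneg h.y0.le _) h.y1 (show (0 : ℝ) ≤ 20 / 39 by norm_num)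
  rwa [← Real.rpow_mul h.y0.le, show (39 / 20 * (20 / 39) : ℝ) = 1 by norm_num,
    Real.rpow_one] at h1

lemma Cx.ylt (h : Cx P b C1 c1 n s e y) : y < 1 :=
  h.yle.trans_lt (Real.rpow_lt_one h.e0.le (by linarith [h.e1]) (by norm_num))

lemma Cx.x0 (h : Cx P b C1 c1 n s e y) : 0 < e * y := mul_pos h.e0 h.y0

lemma Cx.xle (h : Cx P b C1 c1 n s e y) : e * y ≤ e :=
  mul_le_of_le_one_right h.e0.le h.ylt.le

lemma Cx.up (h : Cx P b C1 c1 n s e y) (hC : 0 ≤ C1) : lam n s ≤ e ^ C1 :=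
  h.s2.trans (Real.rpow_le_rpow h.x0.le h.xle hC)

lemma Cx.lam1 (h : Cx P b C1 c1 n s e y) (hC : 0 < C1) : lam n s < 1 :=
  (h.up hC.le).trans_lt (Real.rpow_lt_one h.e0.le (by linarith [h.e1]) hC)

lemma Cx.sn (h : Cx P b C1 c1 n s e y) (hC : 0 < C1) : s < n := by
  have h1 := h.lam1 hC
  unfold lam at h1
  rw [div_lt_one (by positivity)] at h1
  exact (pow_lt_pow_iff_right₀ one_lt_two).1 h1

lemma Cx.Lg_lo (h : Cx P b C1 c1 n s e y) : C1 * (-Real.log (e * y)) ≤ Lg n s := by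
  have h1 := Real.log_le_log (lam_pos n s) h.s2
  rw [Real.log_rpow h.x0] at h1
  rw [Lg_eq]
  linarith

lemma Cx.Lg_hi (h : Cx P b C1 c1 n s e y) : Lg n s ≤ 9 / 8 * C1 * (-Real.log (e * y)) := by
  have h1 := Real.log_le_log (Real.rpow_pos_of_pos h.x0 _) h.s1
  rw [Real.log_rpow h.x0] at h1
  rw [Lg_eq]
  linarith

lemma Cx.logx (h : Cx P b C1 c1 n s e y) :
    -Real.log (e * y) = Real.log (1 / e) + Real.log (1 / y) := by
  rw [Real.log_mul h.e0.ne' h.y0.ne', one_div, one_div, Real.log_inv, Real.log_inv]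
  ring

/-- `log (1/e) ≤ e^(-c)/c` -/
lemma log_le_rpow {c e : ℝ} (hc : 0 < c) (he : 0 < e) : Real.log (1 / e) ≤ e ^ (-c) / c := by
  have h1 := Real.add_one_le_exp (c * Real.log (1 / e))
  have h2 : Real.exp (c * Real.log (1 / e)) = e ^ (-c) := by
    rw [Real.rpow_def_of_pos he, one_div, Real.log_inv]
    congr 1
    ring
  rw [h2] at h1
  rw [le_div_iff₀ hc]
  linarith

/-- the logarithm of the cells, uniformly in the exponent -/
theorem Cx.loC {Cm c1 : ℝ} (hCm : 0 < Cm) (hc : 0 < c1) : ∃ E0 : ℝ, 0 < E0 ∧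
    ∀ (C1 : ℝ), 0 < C1 → C1 ≤ Cm → ∀ (P : H972.Par) (b : ℝ) (n s : ℕ) (e y : ℝ), e ≤ E0 →
      Cx P b C1 c1 n s e y →
      Lg n s ≤ e ^ (-(2 * c1)) * Real.log 2 ∧ ((n - s : ℕ) : ℝ) ≤ e ^ (-(2 * c1)) ∧ s < n := by
  have hl2 := Real.log_pos one_lt_two
  obtain ⟨E0, hE0, hE⟩ := sm_rpow (s := c1) (A := 9 / 8 * Cm * (1 / c1 + 1) / Real.log 2) hc one_pos
  refine ⟨E0, hE0, fun C1 hC hCC P b n s e y he h => ?_⟩
  have f1 := hE e h.e0 he
  have hsn := h.sn hC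
  have h1 := h.Lg_hi
  rw [h.logx] at h1
  have h2 := log_le_rpow hc h.e0
  have h3 := h.yL
  have h4 : Real.log (1 / e) + Real.log (1 / y) ≤ (1 / c1 + 1) * e ^ (-c1) := by
    have : (1 / c1 + 1) * e ^ (-c1) = e ^ (-c1) / c1 + e ^ (-c1) := by ring
    rw [this]
    exact add_le_add h2 h3
  have h5 : Lg n s ≤ e ^ (-(2 * c1)) * Real.log 2 := by
    calc Lg n s ≤ 9 / 8 * C1 * ((1 / c1 + 1) * e ^ (-c1)) :=
          h1.trans (mul_le_mul_of_nonneg_left h4 (by positivity))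
      _ ≤ 9 / 8 * Cm * ((1 / c1 + 1) * e ^ (-c1)) :=
          mul_le_mul_of_nonneg_right (by linarith)
            (mul_nonneg (by positivity) (Real.rpow_nonneg h.e0.le _))
      _ = (9 / 8 * Cm * (1 / c1 + 1) / Real.log 2 * e ^ c1) * e ^ (-(2 * c1)) * Real.log 2 := by
          have e2 : e ^ (-c1) = e ^ c1 * e ^ (-(2 * c1)) := by
            rw [← Real.rpow_add h.e0]
            congr 1
            ring
          rw [e2]
          field_simp
      _ ≤ 1 * e ^ (-(2 * c1)) * Real.log 2 := by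
          refine mul_le_mul_of_nonneg_right ?_ hl2.le
          exact mul_le_mul_of_nonneg_right f1 (Real.rpow_nonneg h.e0.le _)
      _ = _ := by ring
  refine ⟨h5, ?_, hsn⟩
  have h6 : ((n - s : ℕ) : ℝ) * Real.log 2 = Lg n s := by
    unfold Lg
    rw [Nat.cast_sub hsn.le]
  rw [← h6] at h5
  exact le_of_mul_le_mul_right h5 hl2

/-- the logarithm of the cells -/
theorem Cx.lo {C1 c1 : ℝ} (hC : 0 < C1) (hc : 0 < c1) : ∃ E0 : ℝ, 0 < E0 ∧
    ∀ (P : H972.Par) (b : ℝ) (n s : ℕ) (e y : ℝ), e ≤ E0 → Cx P b C1 c1 n s e y →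
      Lg n s ≤ e ^ (-(2 * c1)) * Real.log 2 ∧ ((n - s : ℕ) : ℝ) ≤ e ^ (-(2 * c1)) ∧ s < n := by
  obtain ⟨E0, h0, h⟩ := Cx.loC hC hc
  exact ⟨E0, h0, fun P b n s e y => h C1 hC le_rfl P b n s e y⟩

end cx

end

end Vale.Agent.P159.H889
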