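import Vale.Agent.P159.H889.Vstp

/-!
P159 / H889: THE PIECES OF THE V STEP, as statements in the order of constants (helper801's `Ev`).
-/

namespace Vale.Agent.P159.H889

open MeasureTheory ProbabilityTheory Finset Matrix
open Vale.Agent.P159.TM.H859 (dirE)
open Vale.Agent.P159.TM.Spec (V)
open Vale.Agent.P159.TM.SpecC (wT)
open Vale.Agent.P159.H145 (mt)
open Vale.Agent.P159.H363
open Vale.Agent.P159.H462 (Dom ahat)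
open Vale.Agent.P159.H896 (Ph om WM Ah Acx Pc lf2 tcf)
open Vale.Agent.P159.H340 (anw)
open Vale.Agent.P159.H733.Torg (pz Two)
open Vale.Agent.P159.H733.Vt (lft)
open Vale.Agent.P159.H767 (A3)
open Vale.Agent.P159.H972 (tn Good RNG FL)
open Vale.Agent.P159.H801 (Ev)
open scoped Real

noncomputable section

/-- the level with its flat profile -/
structure CxF (P : H972.Par) (b a C1 c1 : ℝ) (n s : ℕ) (e y : ℝ) : Prop where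
  cx : Cx P b C1 c1 n s e y
  a1 : 1 ≤ a
  a2 : a ≤ 8 / 5
  fl : ∀ r, P.TT n e r → FL b (tn n) a (17 * e ^ P.pf) (2 ^ r)

/-- the next level -/
structure Cy (P : H972.Par) (b C1 c1 : ℝ) (m s s' : ℕ) (e e' y y' : ℝ) : Prop where
  cx : Cx P b C1 c1 m s' e' y'
  h1 : e ^ (1 / 100 : ℝ) * y ≤ y'
  h2 : e ^ (1 / 100 : ℝ) * y' ≤ y
  ss : s ≤ s'

/-- (P1), helper767: the reference forms -/
def PcB (b1 b2 pf : ℝ) (Q : ℕ) (C1 k0 c0 Cm : ℝ) : Prop :=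
  Ev b1 b2 pf Q fun P c1 => ∀ (b a : ℝ) (n s : ℕ) (e y : ℝ), CxF P b a C1 c1 n s e y →
    ∀ r, P.TT n e r → ∀ [NeZero (2 ^ r / 2 ^ s)] [NeZero (2 ^ (top P n e) / 2 ^ s)]
      (h : 2 ^ r / 2 ^ s ∣ 2 ^ (top P n e) / 2 ^ s), BR b n s r (top P n e) e a k0 c0 Cm h

/-- the window data in a reference law (helper733) -/
structure WPar (N1 l : ℕ) [NeZero N1] [NeZero (N1 / l)] (b t t' M : ℝ)
    (B1 : Matrix (V (N1 / l)) (V (N1 / l)) ℝ) (D : ℕ) (CC γr τ0 : ℝ) : Prop where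
  par : ∃ c a r₀ L r ρp, Par (N1 / l) B1 (t * (l : ℝ) ^ 2) c (sn l t t') a D r₀ L r γr ρp ∧
    γr * (π * ρp + 2 / (M ^ 2 - 1)) ≤ CC
  CC0 : 0 ≤ CC
  γ0 : 0 ≤ γr
  p1 : ∀ x y, 0 ≤ (1 - (t * (l : ℝ) ^ 2)⁻¹ • B1) x y
  size : 1 ≤ t * (N1 : ℝ) ^ 2
  tail : ∀ x, tn2 B1 (fun F => mainf (1 - (t * (l : ℝ) ^ 2)⁻¹ • B1) x F
      - mainf (1 - (t * (l : ℝ) ^ 2)⁻¹ • B1) x (cutx D x F)) ≤ τ0
  g1 : M ^ 2 * γr ≤ M ^ (1 / 10 : ℝ)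
  g2 : M ^ 2 * CC ≤ M ^ (-(4 / 5) : ℝ)

/-- (P2) (i), helper733 -/
def PcW (b1 b2 pf : ℝ) (Q : ℕ) (C1 k0 c0 Cm A1 : ℝ) : Prop :=
  Ev b1 b2 pf Q fun P c1 => ∀ (b a : ℝ) (n m s : ℕ) (e e' y : ℝ), CxF P b a C1 c1 n s e y →
    Cw P n m e e' → ∀ r, P.TT n e r → m + P.kE e' ≤ r →
    ∀ [NeZero (2 ^ r / 2 ^ s)] [NeZero (2 ^ (top P n e) / 2 ^ s)]
      (h : 2 ^ r / 2 ^ s ∣ 2 ^ (top P n e) / 2 ^ s), BR b n s r (top P n e) e a k0 c0 Cm h →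
      ∃ CC γr, WPar (2 ^ r) (2 ^ s) b (tn n) (tn m) (Mw n m) (Bq b n s r (top P n e) h)
        (Dc A1 n s) CC γr (t0 n s)

/-- (P3), helper358: the local approximants, tori `2 ^ r`, `2 ^ r'` -/
structure MuR (b : ℝ) (n s r r' D0 : ℕ) (B : ℝ) [NeZero (2 ^ r / 2 ^ s)] [NeZero (2 ^ r' / 2 ^ s)]
    (B1 : Matrix (V (2 ^ r / 2 ^ s)) (V (2 ^ r / 2 ^ s)) ℝ)
    (B2 : Matrix (V (2 ^ r' / 2 ^ s)) (V (2 ^ r' / 2 ^ s)) ℝ) : Prop where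
  ex : ∃ mu : V (2 ^ r / 2 ^ s) → (V (2 ^ r / 2 ^ s) → ℝ) → ℂ,
    Lcl B1 D0 (Real.exp (-(3 * B * Lg n s))) (π⁻¹ * (tn n * ((2 ^ s : ℕ) : ℝ) ^ 2))
      (uc (2 ^ r) (2 ^ s) b (tn n)) mu ∧
    (∀ x F, ‖mu x F‖ ≤ π⁻¹ * (tn n * ((2 ^ s : ℕ) : ℝ) ^ 2)) ∧
    Lcl B2 D0 (Real.exp (-(3 * B * Lg n s))) (π⁻¹ * (tn n * ((2 ^ s : ℕ) : ℝ) ^ 2))
      (uc (2 ^ r') (2 ^ s) b (tn n)) (lft D0 mu)

/-- (P3), helper358 -/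
def PcM (b1 b2 pf : ℝ) (Q : ℕ) (C1 k0 c0 Cm A0 B : ℝ) : Prop :=
  Ev b1 b2 pf Q fun P c1 => ∀ (b a : ℝ) (n s : ℕ) (e y : ℝ), CxF P b a C1 c1 n s e y →
    ∀ r r', P.TT n e r → P.TT n e r' →
    ∀ [NeZero (2 ^ r / 2 ^ s)] [NeZero (2 ^ r' / 2 ^ s)] [NeZero (2 ^ (top P n e) / 2 ^ s)]
      (h : 2 ^ r / 2 ^ s ∣ 2 ^ (top P n e) / 2 ^ s) (h' : 2 ^ r' / 2 ^ s ∣ 2 ^ (top P n e) / 2 ^ s),
      BR b n s r (top P n e) e a k0 c0 Cm h → BR b n s r' (top P n e) e a k0 c0 Cm h' →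
      MuR b n s r r' ⌊A0 * Lg n s / lam n s⌋₊ B (Bq b n s r (top P n e) h)
        (Bq b n s r' (top P n e) h')

/-- (P2) (ii), helper733: the transfer between two tori, from the local approximants -/
def PcT (b1 b2 pf : ℝ) (Q : ℕ) (C1 k0 c0 Cm A0 A' : ℝ) : Prop :=
  Ev b1 b2 pf Q fun P c1 => ∀ (b a : ℝ) (n m s : ℕ) (e e' y : ℝ), CxF P b a C1 c1 n s e y →
    Cw P n m e e' → ∀ r r', P.TT n e r → m + P.kE e' ≤ r → P.TT n e r' → m + P.kE e' ≤ r' →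
    ∀ [NeZero (2 ^ r / 2 ^ s)] [NeZero (2 ^ r' / 2 ^ s)] [NeZero (2 ^ (top P n e) / 2 ^ s)]
      (h : 2 ^ r / 2 ^ s ∣ 2 ^ (top P n e) / 2 ^ s) (h' : 2 ^ r' / 2 ^ s ∣ 2 ^ (top P n e) / 2 ^ s),
      BR b n s r (top P n e) e a k0 c0 Cm h → BR b n s r' (top P n e) e a k0 c0 Cm h' →
      MuR b n s r r' ⌊A0 * Lg n s / lam n s⌋₊ 4 (Bq b n s r (top P n e) h)
        (Bq b n s r' (top P n e) h') →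
      ∃ D1 R : ℕ, TorIn (2 ^ r) (2 ^ r') (2 ^ s) b (tn n) (tn m) (t0 n s)
        (Bq b n s r (top P n e) h) (Bq b n s r' (top P n e) h') R ⌊A0 * Lg n s / lam n s⌋₊ D1 R ∧
        (D1 : ℝ) * lam n s ≤ A' * (Mw n m * Lg n s)

/-- (P4), helper375 -/
def PcH (b1 b2 pf : ℝ) (Q : ℕ) (C1 : ℝ) : Prop :=
  Ev b1 b2 pf Q fun P c1 => ∀ (b a : ℝ) (n m s s' : ℕ) (e e' y y' : ℝ), CxF P b a C1 c1 n s e y →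
    Cw P n m e e' → Cy P b C1 c1 m s s' e e' y y' → ∀ r, P.TT n e r → m + P.kE e' ≤ r →
    ∀ [NeZero (2 ^ r / 2 ^ s)] [NeZero (2 ^ r / 2 ^ s / 2 ^ (s' - s))]
      [NeZero (2 ^ r / (2 ^ s * 2 ^ (s' - s)))],
      ∑ k, rel (Acx (2 ^ r) (2 ^ s) (2 ^ (s' - s)) b (tn n) (tn n) (tn m))
        (anw (2 ^ r) (2 ^ s) (2 ^ (s' - s)) b (tn m)) k ^ 2 ≤ hS e ^ 2

/-- (P5), helper640 -/
def PcN (b1 b2 pf : ℝ) (Q : ℕ) (C1 A' : ℝ) : Prop :=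
  Ev b1 b2 pf Q fun P c1 => ∀ (b a : ℝ) (n m s s' : ℕ) (e e' y y' : ℝ), CxF P b a C1 c1 n s e y →
    Cw P n m e e' → Cy P b C1 c1 m s s' e e' y y' → ∀ r, P.TT n e r → m + P.kE e' ≤ r →
    ∀ D1 : ℕ, (D1 : ℝ) * lam n s ≤ A' * (Mw n m * Lg n s) → ∀ [NeZero (2 ^ r / 2 ^ s)],
    ∃ c s₀ : ℝ, Dom (acl (2 ^ r) (2 ^ s) b (tn n) (tn n)) (tn n * ((2 ^ s : ℕ) : ℝ) ^ 2) c ∧
      16 * ((2 ^ (s' - s) : ℕ) : ℝ) ^ 2 * (tn m * ((2 ^ s : ℕ) : ℝ) ^ 2) / c ≤ 1 / 2 ∧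
      (1 - (tn m * ((2 ^ s : ℕ) : ℝ) ^ 2)⁻¹ • Ah (2 ^ r) (2 ^ s) b (tn n) (tn n) (tn m)) 0 0 ≤ s₀ ∧
      2 * (2 ^ r / 2 ^ s : ℕ) * (16 * ((2 ^ (s' - s) : ℕ) : ℝ) ^ 2 *
        (tn m * ((2 ^ s : ℕ) : ℝ) ^ 2) / c) * √s₀ ≤ 1 ∧
      2 * (2 ^ r / 2 ^ s : ℕ) * √(16 * ((2 ^ (s' - s) : ℕ) : ℝ) ^ 2 *
        (tn m * ((2 ^ s : ℕ) : ℝ) ^ 2) / c * s₀) ≤ 1 ∧
      gce (2 ^ r / 2 ^ s) (2 ^ (s' - s)) (tn m * ((2 ^ s : ℕ) : ℝ) ^ 2) c s₀ ≤ tA n s ∧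
      2 * π ^ 2 * (32 * ((2 ^ (s' - s) : ℕ) : ℝ) ^ 2 / c * s₀) ≤ tA n s ∧
      4 * (t0 n s * Mw n m ^ 2 / (tn n * ((2 ^ s : ℕ) : ℝ) ^ 2))
        + Mw n m ^ 2 * (2 * ((2 ^ r / 2 ^ s : ℕ) * √(16 * ((2 ^ (s' - s) : ℕ) : ℝ) ^ 2 *
            (tn m * ((2 ^ s : ℕ) : ℝ) ^ 2) / c * s₀)))
        + Mw n m ^ 2 * (√(2 * (2 * (D1 : ℝ) + 1)) * (((2 ^ (s' - s) : ℕ) : ℝ) ^ 2 * √(c⁻¹ * s₀)))
        + 3 * Mw n m ^ 2 * tQ e ≤ tA m s'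

/-- (P6), helper197 -/
def PcG (b1 b2 pf : ℝ) (Q : ℕ) (C1 k0 c0 Cm : ℝ) : Prop :=
  Ev b1 b2 pf Q fun P c1 => ∀ (b a : ℝ) (n m s : ℕ) (e e' y : ℝ), CxF P b a C1 c1 n s e y →
    Cw P n m e e' → ∀ r, P.TT n e r → m + P.kE e' ≤ r →
    ∀ [NeZero (2 ^ r / 2 ^ s)] [NeZero (2 ^ (top P n e) / 2 ^ s)]
      (h : 2 ^ r / 2 ^ s ∣ 2 ^ (top P n e) / 2 ^ s), BR b n s r (top P n e) e a k0 c0 Cm h →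
      |Real.log (GF (Mw n m) (sn (2 ^ s) (tn n) (tn m)) (nu n s) (Bq b n s r (top P n e) h)) -
        (2 - π / a) * ((m : ℝ) - n) * Real.log 2| ≤ e ^ (87 / 100 : ℝ)

/-- the second harmonic (helper415) -/
def CH2 (P : H972.Par) (b : ℝ) (n : ℕ) (e Z : ℝ) : Prop :=
  ∀ r, P.TT n e r → H43.ch2 (wT b (2 ^ r)) ((4 * tn n) • (1 : Matrix (V (2 ^ r)) (V (2 ^ r)) ℝ)) 0 ≤
    (2 ^ (r - n)) ^ 2 * Z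

/-- (P7), helper43 -/
def PcO (b1 b2 pf : ℝ) (Q : ℕ) (C1 : ℝ) : Prop :=
  Ev b1 b2 pf Q fun P c1 => ∀ (b a : ℝ) (n m s : ℕ) (e e' y g : ℝ), CxF P b a C1 c1 n s e y →
    Cw P n m e e' → 0 ≤ g → g ≤ 1 / 2 → CH2 P b n e (y * e ^ g) → ∀ r, P.TT n e r →
      (∀ [NeZero (2 ^ r / 2 ^ s)] (F : V (2 ^ r / 2 ^ s) → ℝ),
        ‖Ph (wT b (2 ^ r)) (mt (2 ^ r) (tn n)) 1 (lf (2 ^ r) (2 ^ s) F)
          - Wc (2 ^ r) (2 ^ s) b (tn n) F‖ ≤ y * e ^ (1 / 2 + g)) ∧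
      om (wT b (2 ^ r)) (mt (2 ^ r) (tn n)) 1 ≤ y * QP P e ^ 3 ∧
      om (wT b (2 ^ r)) (mt (2 ^ r) (tn m)) 1 ≤ y * QP P e ^ 3

/-- (P8), helper896: the functional of the next level on the typical fields -/
def PcE (b1 b2 pf : ℝ) (Q : ℕ) (C1 : ℝ) : Prop :=
  Ev b1 b2 pf Q fun P c1 => ∀ (b a : ℝ) (n m s s' : ℕ) (e e' y y' : ℝ), CxF P b a C1 c1 n s e y →
    Cw P n m e e' → Cy P b C1 c1 m s s' e e' y y' → ∀ r, P.TT n e r → m + P.kE e' ≤ r →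
    ∀ [NeZero (2 ^ r / 2 ^ s)] [NeZero (2 ^ r / 2 ^ s / 2 ^ (s' - s))]
      [NeZero (2 ^ r / (2 ^ s * 2 ^ (s' - s)))],
      tn2 (Acx (2 ^ r) (2 ^ s) (2 ^ (s' - s)) b (tn n) (tn n) (tn m)) (fun f' =>
        Ph (wT b (2 ^ r)) (mt (2 ^ r) (tn m)) 1 (lf2 (2 ^ r) (2 ^ s) (2 ^ (s' - s)) f')
          - Pc (2 ^ r) (2 ^ s) (2 ^ (s' - s)) b (tn n) (tn n) (tn m)
            (Wc (2 ^ r) (2 ^ s) b (tn n)) f') ≤ y * e ^ (9 / 10 : ℝ)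

end

end Vale.Agent.P159.H889
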