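import Vale.Agent.P159.H889.Vst
import Vale.Agent.P159.H363.Vb8
import Vale.Agent.P159.H363.ParS
import Vale.Agent.P159.H552.In5c

/-!
P159 / H889: step (W) of the charged sector: one window on the cell torus for the densities of
`Ψ' = P W`, in absolute form (no smallness of the deviation is assumed).
-/

namespace Vale.Agent.P159.H889

open MeasureTheory ProbabilityTheory Finset Matrix
open Vale.Agent.P159.TM.Spec (V)
open Vale.Agent.P159.H37 (gau gau_sum qf)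
open Vale.Agent.P159.H363
open Vale.Agent.P159.H864 (TI sym fc mlt)
open Vale.Agent.P159.H462 (Dom ahat Gam Spr Cpr ti_ahat ti_Gam ti_Spr ti_Cpr sym_ahat
  ahat_mul)
open Vale.Agent.P159.H552 (cutB dlq erq)
open scoped Real

noncomputable section

variable {N : ℕ} [NeZero N] {A : Matrix (V N) (V N) ℝ}

/-- `L²` norm in the typical law of the form `A` -/
def tn2 (A : Matrix (V N) (V N) ℝ) (u : (V N → ℝ) → ℂ) : ℝ :=
  n2 (gau (V N)) fun g => u (pin A *ᵥ g)

/-- cut field around `x` -/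
def cutx (D : ℕ) (x : V N) (F : V N → ℝ) : V N → ℝ := cutB (H462.box x D) x F

/-- densities of a state on the cell torus, absolute deviation from the main function -/
structure Den (A : Matrix (V N) (V N) ℝ) (ν : ℝ) (z : ℂ) (d : ℝ)
    (ψ : V N → (V N → ℝ) → ℂ) : Prop where
  m : ∀ x, Measurable (ψ x)
  bd : ∃ K : ℝ, ∀ x F, ‖ψ x F‖ ≤ K
  ch : ∀ x, Ch (ψ x)
  cov : Cov ψ
  dev : ∀ x, tn2 A (fun F => ψ x F - z * mainf (1 - ν⁻¹ • A) x F) ≤ d

/-- local approximants of a family of densities: `lam x` depends on the field in `box x D` only, is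
Lipschitz for the sup norm, and is close to `ψ x` in the typical law of `A` -/
structure Lcl (A : Matrix (V N) (V N) ℝ) (D : ℕ) (η Lp : ℝ)
    (ψ lam : V N → (V N → ℝ) → ℂ) : Prop where
  m : ∀ x, Measurable (lam x)
  bd : ∃ K : ℝ, ∀ x F, ‖lam x F‖ ≤ K
  ch : ∀ x, Ch (lam x)
  cov : Cov lam
  loc : ∀ x, Loc (H462.box x D) (lam x)
  lip : ∀ (x : V N) (F F' : V N → ℝ) (r : ℝ), (∀ y ∈ H462.box x D, |F y - F' y| ≤ r) →
    ‖lam x F - lam x F'‖ ≤ Lp * r
  near : ∀ x, tn2 A (fun F => ψ x F - lam x F) ≤ η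

/-! ### translations -/

lemma mem_box_add {x y a : V N} {D : ℕ} : y + a ∈ H462.box (x + a) D ↔ y ∈ H462.box x D := by
  rw [H462.mem_box, H462.mem_box, add_sub_add_right_eq_sub]

lemma sh_cutx (D : ℕ) (a x : V N) (F : V N → ℝ) :
    sh a (cutx D (x + a) F) = cutx D x (sh a F) := by
  funext y
  unfold sh cutx cutB
  by_cases h : y ∈ H462.box x D
  · rw [if_pos h, if_pos (mem_box_add.2 h)]
  · rw [if_neg h, if_neg (fun h' => h (mem_box_add.1 h'))]

lemma mainf_sh {S : Matrix (V N) (V N) ℝ} (hS : TI S) (a x : V N) (F : V N → ℝ) :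
    mainf S (x + a) F = mainf S x (sh a F) := by
  unfold mainf
  rw [← Equiv.sum_comp (Equiv.addRight a)]
  refine Finset.sum_congr rfl fun w _ => ?_
  rw [Equiv.coe_addRight, hS.tr]
  have h := congrFun (sh_mulVec hS a F) w
  unfold sh at h
  rw [h]
  rfl

lemma ch_mainf' {ν c : ℝ} (h : Dom A ν c) (x : V N) : Ch (mainf (1 - ν⁻¹ • A) x) := by
  refine H552.ch_mainf (fun y => ?_) x
  rw [row_sum (ti_S h), H864.sym_sub, H864.sym_smul, H864.sym_one, h.zero]
  ring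

/-- a crude bound of the main function -/
lemma norm_mainf_bdd (S : Matrix (V N) (V N) ℝ) (x : V N) (F : V N → ℝ) :
    ‖mainf S x F‖ ≤ ∑ y, ∑ w, |S y w| :=
  (norm_mainf_le S x F).trans (Finset.single_le_sum (f := fun y => ∑ w, |S y w|)
    (fun _ _ => Finset.sum_nonneg fun _ _ => abs_nonneg _) (Finset.mem_univ x))

/-! ### the typical norm -/

lemma memLp_tn {u : (V N → ℝ) → ℂ} (hu : Measurable u) {K : ℝ} (hK : ∀ F, ‖u F‖ ≤ K)
    (A : Matrix (V N) (V N) ℝ) : MemLp (fun g => u (pin A *ᵥ g)) 2 (gau (V N)) :=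
  memLp_bdd (hu.comp (measurable_mulVec _)).aestronglyMeasurable fun _ => hK _

lemma tn2_nonneg (A : Matrix (V N) (V N) ℝ) (u : (V N → ℝ) → ℂ) : 0 ≤ tn2 A u := n2_nonneg _

lemma tn2_sq {u : (V N → ℝ) → ℂ} (hu : Measurable u) {K : ℝ} (hK : ∀ F, ‖u F‖ ≤ K)
    (A : Matrix (V N) (V N) ℝ) : tn2 A u ^ 2 = ∫ g, ‖u (pin A *ᵥ g)‖ ^ 2 ∂(gau (V N)) :=
  n2_sq (memLp_tn hu hK A)

lemma tn2_add_le {u v : (V N → ℝ) → ℂ} (hu : Measurable u) (hv : Measurable v) {K L : ℝ}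
    (hK : ∀ F, ‖u F‖ ≤ K) (hL : ∀ F, ‖v F‖ ≤ L) (A : Matrix (V N) (V N) ℝ) :
    tn2 A (fun F => u F + v F) ≤ tn2 A u + tn2 A v :=
  n2_add_le (memLp_tn hu hK A) (memLp_tn hv hL A)

lemma tn2_sub_le {u v : (V N → ℝ) → ℂ} (hu : Measurable u) (hv : Measurable v) {K L : ℝ}
    (hK : ∀ F, ‖u F‖ ≤ K) (hL : ∀ F, ‖v F‖ ≤ L) (A : Matrix (V N) (V N) ℝ) :
    tn2 A (fun F => u F - v F) ≤ tn2 A u + tn2 A v :=
  n2_sub_le (memLp_tn hu hK A) (memLp_tn hv hL A)

lemma tn2_const_mul (c : ℂ) (u : (V N → ℝ) → ℂ) (A : Matrix (V N) (V N) ℝ) :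
    tn2 A (fun F => c * u F) = ‖c‖ * tn2 A u := n2_const_mul c _

lemma tn2_congr {u v : (V N → ℝ) → ℂ} (h : ∀ F, u F = v F) (A : Matrix (V N) (V N) ℝ) :
    tn2 A u = tn2 A v := n2_congr fun _ => h _

/-- the typical norm is the norm in the two stage law of one window -/
lemma tn2_window {ν c s : ℝ} (h : Dom A ν c) (hs : 0 < s) {u : (V N → ℝ) → ℂ} (hch : Ch u)
    (hm : Measurable u) {K : ℝ} (hK : ∀ F, ‖u F‖ ≤ K) :
    ∫ b, ∫ g, ‖u ((ahat s A * cgm s A) *ᵥ b + gm s A *ᵥ g)‖ ^ 2 ∂(gau (V N)) ∂(gau (V N))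
      = tn2 A u ^ 2 := by
  rw [tn2_sq hm hK, typ_transport h hs hch hm hK 2]

/-! ### reverse Poincare on the torus -/

/-- translation covariance of the transported density -/
lemma dn_sh {F0 M : Matrix (V N) (V N) ℝ} (hF : TI F0) (hM : TI M) {u : V N → (V N → ℝ) → ℂ}
    (hu : Cov u) (a x : V N) (f : V N → ℝ) : dn F0 M u (x + a) f = dn F0 M u x (sh a f) := by
  unfold dn
  rw [← Equiv.sum_comp (Equiv.addRight a)]
  refine Finset.sum_congr rfl fun y _ => ?_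
  rw [Equiv.coe_addRight, hF.tr, Pg_sh hF hM hu]

lemma cov_dn {F0 M : Matrix (V N) (V N) ℝ} (hF : TI F0) (hM : TI M) {u : V N → (V N → ℝ) → ℂ}
    (hu : Cov u) : Cov (dn F0 M u) := fun a x f => dn_sh hF hM hu a x f

/-- a covariant family has site independent norms -/
lemma int_cov {B : Matrix (V N) (V N) ℝ} (hB : TI B) {u : V N → (V N → ℝ) → ℂ} (hu : Cov u)
    (x y : V N) :
    ∫ b, ‖u x (B *ᵥ b)‖ ^ 2 ∂(gau (V N)) = ∫ b, ‖u y (B *ᵥ b)‖ ^ 2 ∂(gau (V N)) := by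
  have h1 : ∀ b : V N → ℝ, u x (B *ᵥ b) = u y (B *ᵥ sh (x - y) b) := by
    intro b
    have h2 := hu (x - y) y (B *ᵥ b)
    rw [show y + (x - y) = x by abel] at h2
    rw [h2, sh_mulVec hB]
  simp only [h1]
  exact gau_permE (Equiv.addRight (x - y)) fun b : V N → ℝ => ‖u y (B *ᵥ b)‖ ^ 2

lemma int_gm_sq {ν c s : ℝ} (h : Dom A ν c) (hs : 0 < s) (v : V N → ℝ) :
    ∑ X, (v ᵥ* (s⁻¹ • gm s A)) X ^ 2 ≤ s⁻¹ * ∑ i, v i ^ 2 := by
  have h1 : ∑ X, (v ᵥ* (s⁻¹ • gm s A)) X ^ 2 = s⁻¹ ^ 2 * qf (Gam s A) v := by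
    have e1 : ∀ X, (v ᵥ* (s⁻¹ • gm s A)) X ^ 2 = s⁻¹ ^ 2 * (v ᵥ* gm s A) X ^ 2 := by
      intro X
      rw [vecMul_smul, Pi.smul_apply, smul_eq_mul, mul_pow]
    simp only [e1]
    rw [← Finset.mul_sum, vecMul_sq, gm_mul h hs, H37.qf_eq]
  rw [h1]
  have h2 : qf (Gam s A) v ≤ s * ∑ i, v i ^ 2 := by
    have hle : ∀ k, sym (Gam s A) k ≤ s := by
      intro k
      rw [H462.sym_Gam]
      have h0 := h.nn k
      have : (1 + s * sym A k)⁻¹ ≤ 1 := by
        apply inv_le_one_of_one_le₀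
        have := mul_nonneg hs.le h0
        linarith
      calc s * (1 + s * sym A k)⁻¹ ≤ s * 1 := mul_le_mul_of_nonneg_left this hs.le
        _ = s := mul_one s
    have h3 := (H864.qf_le_iff (ti_Gam s A) (TI.one.smul s)).2 (fun k => by
      rw [H864.sym_smul, H864.sym_one, mul_one]
      exact hle k) v
    refine h3.trans (le_of_eq ?_)
    rw [H37.qf_eq, smul_mulVec, one_mulVec, dotProduct_smul, smul_eq_mul]
    congr 1
    exact Finset.sum_congr rfl fun i _ => (pow_two _).symm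
  calc s⁻¹ ^ 2 * qf (Gam s A) v ≤ s⁻¹ ^ 2 * (s * ∑ i, v i ^ 2) :=
        mul_le_mul_of_nonneg_left h2 (by positivity)
    _ = s⁻¹ * ∑ i, v i ^ 2 := by
        field_simp

/-- `gm (s⁻¹ gm) = ahat` -/
lemma gm_W {ν c s : ℝ} (h : Dom A ν c) (hs : 0 < s) : gm s A * (s⁻¹ • gm s A) = ahat s A := by
  have h1 := gm_mul h hs
  rw [(ti_gm s A).transpose] at h1
  rw [mul_smul_comm, h1]
  refine H864.sym_inj ((ti_Gam s A).smul _) (ti_ahat s A) fun k => ?_
  rw [H864.sym_smul, H462.sym_Gam, sym_ahat]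
  field_simp

/-- **REVERSE POINCARE ON THE CELL TORUS**: one density of `Pg G`, relative to the number of cells -/
theorem rev_tor {ν c s : ℝ} (h : Dom A ν c) (hs : 0 < s) {G : (V N → ℝ) → ℂ}
    {γ : V N → (V N → ℝ) → ℂ} (hG : Dif G γ) (hch : Ch G) (hcov : Cov γ) (x : V N) :
    n2 (gau (V N)) (fun b => dn (ahat s A) (gm s A) γ x (cgm s A *ᵥ b))
      ≤ (2 * π)⁻¹ * (√(s * (N : ℝ) ^ 2))⁻¹ * tn2 A G := by
  classical
  obtain ⟨K, hK0, hK⟩ := hG.bd'
  obtain ⟨K', hK'0, hK'⟩ := hG.bdx'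
  have hN := H864.N_pos (N := N)
  have h1 := rev_dn_int hG (gm_W h hs) (inv_nonneg.2 hs.le) (int_gm_sq h hs) (cgm s A)
  have hm : ∀ y, Measurable (dn (ahat s A) (gm s A) γ y) := fun y => measurable_dn hG.mx y
  have e1 : ∀ y, ∫ b, ‖dn (ahat s A) (gm s A) γ y (cgm s A *ᵥ b)‖ ^ 2 ∂(gau (V N))
      = ∫ b, ‖dn (ahat s A) (gm s A) γ x (cgm s A *ᵥ b)‖ ^ 2 ∂(gau (V N)) := fun y =>
    int_cov (ti_cgm s A) (cov_dn (ti_ahat s A) (ti_gm s A) hcov) y x
  rw [Finset.sum_congr rfl fun y _ => e1 y, Finset.sum_const, Finset.card_univ, nsmul_eq_mul,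
    TM.H764.card_V] at h1
  have e2 : ∫ b, ∫ g, ‖G (ahat s A *ᵥ (cgm s A *ᵥ b) + gm s A *ᵥ g)‖ ^ 2 ∂(gau (V N)) ∂(gau (V N))
      = tn2 A G ^ 2 := by
    rw [← tn2_window h hs hch hG.m hK]
    simp only [mulVec_mulVec]
  rw [e2] at h1
  have hmem : MemLp (fun b => dn (ahat s A) (gm s A) γ x (cgm s A *ᵥ b)) 2 (gau (V N)) :=
    memLp_bdd ((hm x).comp (measurable_mulVec _)).aestronglyMeasurable fun b => norm_dn_le hK' x _
  have hpos : 0 ≤ (2 * π)⁻¹ * (√(s * (N : ℝ) ^ 2))⁻¹ * tn2 A G := by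
    have := tn2_nonneg A G
    positivity
  rw [n2_le hmem hpos]
  have h3 : ((2 * π)⁻¹ * (√(s * (N : ℝ) ^ 2))⁻¹ * tn2 A G) ^ 2
      = ((N : ℝ) ^ 2)⁻¹ * ((2 * π)⁻¹ ^ 2 * s⁻¹ * tn2 A G ^ 2) := by
    rw [mul_pow, mul_pow, inv_pow (√_), Real.sq_sqrt (by positivity)]
    field_simp
  rw [h3, ← div_eq_inv_mul, le_div_iff₀ (by positivity), mul_comm]
  exact h1

lemma dn_sub {I J Λ : Type*} [Fintype I] [Fintype J] [Fintype Λ] (F0 : Matrix Λ J ℝ)
    (M : Matrix Λ I ℝ) {u v : Λ → (Λ → ℝ) → ℂ} (hu : ∀ x, Measurable (u x))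
    (hv : ∀ x, Measurable (v x)) {K L : ℝ} (hK : ∀ x F, ‖u x F‖ ≤ K) (hL : ∀ x F, ‖v x F‖ ≤ L)
    (X : J) (f : J → ℝ) :
    dn F0 M (fun x F => u x F - v x F) X f = dn F0 M u X f - dn F0 M v X f := by
  unfold dn
  rw [← Finset.sum_sub_distrib]
  refine Finset.sum_congr rfl fun y _ => ?_
  rw [← mul_sub]
  congr 1
  exact integral_sub (integrable_Pg (hu y) (hK y) f) (integrable_Pg (hv y) (hL y) f)

lemma Pg_mulVec {I J L Λ : Type*} [Fintype I] [Fintype J] [Fintype L] (F0 : Matrix Λ J ℝ)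
    (C : Matrix J L ℝ) (M : Matrix Λ I ℝ) (ψ : (Λ → ℝ) → ℂ) (b : L → ℝ) :
    Pg (F0 * C) M ψ b = Pg F0 M ψ (C *ᵥ b) := by
  unfold Pg
  simp only [mulVec_mulVec]

/-- **(W) ONE WINDOW** for the densities of `P W` -/
theorem vwin {ν c s a : ℝ} {D : ℕ} {r₀ L r γr ρ : ℝ} (hP : Par N A ν c s a D r₀ L r γr ρ)
    {z : ℂ} (hz : z ≠ 0) {d η ηm e Lp : ℝ} {Ψ W : (V N → ℝ) → ℂ}
    {ψ u lam : V N → (V N → ℝ) → ℂ} (hΨ : Dif Ψ ψ) (hW : Dif W u) (cΨ : Ch Ψ) (cW : Ch W)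
    (hψ : Den A ν z d ψ) (hl : Lcl A D η Lp ψ lam) (hu : Cov u)
    (hm : ∀ x, tn2 A (fun F => mainf (1 - ν⁻¹ • A) x F - mainf (1 - ν⁻¹ • A) x (cutx D x F)) ≤ ηm)
    (he : tn2 A (fun F => W F - Ψ F) ≤ e) :
    ∃ κ : ℂ, ‖z‖ * ‖κ‖ ≤ γr * (d + (η + ‖z‖ * ηm)) ∧
      ∀ x, n2 (gau (V N)) (fun b => dn (ahat s A) (gm s A) u x (cgm s A *ᵥ b)
          - z * ((Real.exp (-(2 * π ^ 2 * H363.vv s ν A)) : ℝ) + κ)
            * mainf ((1 - ν⁻¹ • A) * ahat s A) x (cgm s A *ᵥ b))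
        ≤ γr * (π * ρ + 2 / (s * ν)) * (d + (η + ‖z‖ * ηm)) + (η + ‖z‖ * ηm)
          + (2 * π)⁻¹ * (√(s * (N : ℝ) ^ 2))⁻¹ * e := by
  classical
  have hs := hP.s_pos
  have hν := hP.dom.hν
  set S : Matrix (V N) (V N) ℝ := 1 - ν⁻¹ • A with hS
  have tS : TI S := ti_S hP.dom
  have hxB : ∀ x : V N, x ∈ H462.box x D := fun x => H462.mem_box.2 (by
    rw [sub_self]
    simp)
  have hS1 : ∀ x, ∑ y, S x y = 1 := fun y => by
    rw [row_sum tS, hS, H864.sym_sub, H864.sym_smul, H864.sym_one, hP.dom.zero]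
    ring
  obtain ⟨K, hK⟩ := hψ.bd
  obtain ⟨Kl, hKl⟩ := hl.bd
  have hK0 : 0 ≤ K := (norm_nonneg _).trans (hK 0 0)
  have hKl0 : 0 ≤ Kl := (norm_nonneg _).trans (hKl 0 0)
  set M0 : ℝ := ∑ y, ∑ w, |S y w| with hM0
  have hM00 : 0 ≤ M0 := Finset.sum_nonneg fun _ _ => Finset.sum_nonneg fun _ _ => abs_nonneg _
  have hmb : ∀ x F, ‖mainf S x F‖ ≤ M0 := fun x F => norm_mainf_bdd S x F
  have hzn : 0 < ‖z‖ := norm_pos_iff.2 hz
  have mcut : ∀ x, Measurable (cutx D x : (V N → ℝ) → V N → ℝ) := fun x =>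
    H552.measurable_cutB (H462.box x D) x
  have cmain : ∀ x, Ch (mainf S x) := H552.ch_mainf hS1
  have cmcut : ∀ x, Ch (fun F => mainf S x (cutx D x F)) := fun x =>
    H552.ch_cut (cmain x) (H462.box x D) x
  set dl : V N → (V N → ℝ) → ℂ := fun x F => z⁻¹ * lam x F - mainf S x (cutx D x F) with hdl
  set er : V N → (V N → ℝ) → ℂ := fun x F =>
    z⁻¹ * (ψ x F - lam x F) - (mainf S x F - mainf S x (cutx D x F)) with her
  have mdl : ∀ x, Measurable (dl x) := fun x =>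
    ((hl.m x).const_mul _).sub ((measurable_mainf S x).comp (mcut x))
  have mer : ∀ x, Measurable (er x) := fun x =>
    (((hψ.m x).sub (hl.m x)).const_mul _).sub
      ((measurable_mainf S x).sub ((measurable_mainf S x).comp (mcut x)))
  have bdl : ∀ x F, ‖dl x F‖ ≤ 2 * (‖z⁻¹‖ * (K + Kl) + M0) := by
    intro x F
    rw [hdl]
    simp only
    refine (norm_sub_le _ _).trans ?_
    rw [norm_mul]
    have a1 := mul_le_mul_of_nonneg_left (hKl x F) (norm_nonneg z⁻¹)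
    have a2 := hmb x (cutx D x F)
    have a3 : 0 ≤ ‖z⁻¹‖ * K := by positivity
    have a4 : 0 ≤ ‖z⁻¹‖ * Kl := by positivity
    linarith
  have ber : ∀ x F, ‖er x F‖ ≤ 2 * (‖z⁻¹‖ * (K + Kl) + M0) := by
    intro x F
    rw [her]
    simp only
    refine (norm_sub_le _ _).trans ?_
    rw [norm_mul]
    have a1 := (norm_sub_le (ψ x F) (lam x F)).trans (add_le_add (hK x F) (hKl x F))
    have a2 := (norm_sub_le (mainf S x F) (mainf S x (cutx D x F))).trans
      (add_le_add (hmb x F) (hmb x _))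
    have a3 := mul_le_mul_of_nonneg_left a1 (norm_nonneg z⁻¹)
    have a4 : 0 ≤ ‖z⁻¹‖ * (K + Kl) := by positivity
    linarith
  have cdl : ∀ x, Ch (dl x) := by
    intro x F t
    have a1 := hl.ch x F t
    have a3 := cmcut x F t
    simp only at a1 a3
    rw [hdl]
    simp only
    rw [a1, a3]
    ring
  have cer : ∀ x, Ch (er x) := by
    intro x F t
    have a0 := hψ.ch x F t
    have a1 := hl.ch x F t
    have a2 := cmain x F t
    have a3 := cmcut x F t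
    simp only at a1 a3
    rw [her]
    simp only
    rw [a0, a1, a2, a3]
    ring
  have ldl : ∀ x, Loc (H462.box x D) (dl x) := by
    intro x F F' h
    rw [hdl]
    simp only
    have e1 : cutx D x F = cutx D x F' := H552.cutB_congr (hxB x) h
    rw [hl.loc x F F' h, e1]
  have covdl : Cov dl := by
    intro t x F
    rw [hdl]
    simp only
    rw [hl.cov t x, mainf_sh tS t x, sh_cutx]
  set ηt : ℝ := η + ‖z‖ * ηm with hηt
  have n_er : ∀ x, tn2 A (er x) ≤ ηt / ‖z‖ := by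
    intro x
    have m1 : Measurable fun F => z⁻¹ * (ψ x F - lam x F) :=
      ((hψ.m x).sub (hl.m x)).const_mul _
    have m2 : Measurable fun F => mainf S x F - mainf S x (cutx D x F) :=
      (measurable_mainf S x).sub ((measurable_mainf S x).comp (mcut x))
    refine (tn2_sub_le m1 m2 (K := ‖z⁻¹‖ * (K + Kl)) (L := M0 + M0) (fun F => ?_) (fun F => ?_)
      A).trans ?_
    · rw [norm_mul]
      exact mul_le_mul_of_nonneg_left ((norm_sub_le _ _).trans (add_le_add (hK x F) (hKl x F)))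
        (norm_nonneg _)
    · exact (norm_sub_le _ _).trans (add_le_add (hmb x F) (hmb x _))
    · rw [tn2_const_mul, norm_inv]
      have h1 := mul_le_mul_of_nonneg_left (hl.near x) (inv_nonneg.2 hzn.le)
      have h2 := hm x
      rw [hηt, add_div, mul_div_cancel_left₀ _ hzn.ne', div_eq_inv_mul]
      exact add_le_add h1 h2
  have n_dl : ∀ x, tn2 A (dl x) ≤ (d + ηt) / ‖z‖ := by
    intro x
    have e0 : tn2 A (dl x) = tn2 A (fun F => z⁻¹ * (ψ x F - z * mainf S x F) - er x F) := by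
      refine tn2_congr (fun F => ?_) A
      rw [hdl, her]
      simp only
      field_simp
      ring
    rw [e0]
    have m1 : Measurable fun F => z⁻¹ * (ψ x F - z * mainf S x F) :=
      ((hψ.m x).sub ((measurable_mainf S x).const_mul _)).const_mul _
    refine (tn2_sub_le m1 (mer x) (K := ‖z⁻¹‖ * (K + ‖z‖ * M0)) (fun F => ?_) (ber x) A).trans ?_
    · rw [norm_mul]
      refine mul_le_mul_of_nonneg_left ((norm_sub_le _ _).trans (add_le_add (hK x F) ?_))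
        (norm_nonneg _)
      rw [norm_mul]
      exact mul_le_mul_of_nonneg_left (hmb x F) hzn.le
    · rw [tn2_const_mul, norm_inv, add_div]
      have h1 := mul_le_mul_of_nonneg_left (hψ.dev x) (inv_nonneg.2 hzn.le)
      rw [div_eq_inv_mul]
      exact add_le_add h1 (n_er x)
  have hd0 : 0 ≤ (d + ηt) / ‖z‖ := (tn2_nonneg A (dl 0)).trans (n_dl 0)
  have hη0 : 0 ≤ ηt / ‖z‖ := (tn2_nonneg A (er 0)).trans (n_er 0)
  obtain ⟨κ, hκ, hmain⟩ := one_window_torus hP ψ (dn (ahat s A) (gm s A) ψ) z dl er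
    (fun _ _ => 0) (fun x F => by
      have e3 : ψ x F = z * (mainf S x F + dl x F + er x F) := by
        rw [hdl, her]
        simp only
        field_simp
        ring
      exact e3)
    (fun x b => by
      unfold dn
      refine Finset.sum_congr rfl fun y _ => ?_
      rw [mul_zero, add_zero, Pg_mulVec, (ti_ahat s A).sy y x])
    mdl bdl mer ber (fun _ => measurable_const)
    (fun _ _ => by
      rw [norm_zero]
      have : 0 ≤ ‖z⁻¹‖ * (K + Kl) := by positivity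
      linarith)
    cdl ldl covdl hd0 hη0 (le_refl (0 : ℝ))
    (fun x => by
      rw [tn2_window hP.dom hs (cdl x) (mdl x) (bdl x)]
      exact pow_le_pow_left₀ (tn2_nonneg _ _) (n_dl x) 2)
    (fun x => by
      rw [tn2_window hP.dom hs (cer x) (mer x) (ber x)]
      exact pow_le_pow_left₀ (tn2_nonneg _ _) (n_er x) 2)
    (fun x => by simp)
  refine ⟨κ, ?_, fun x => ?_⟩
  · have h1 := mul_le_mul_of_nonneg_left hκ hzn.le
    refine h1.trans (le_of_eq ?_)
    field_simp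
  · -- the deviation from the densities of `P Ψ`
    obtain ⟨Ku, hKu0, hKu⟩ := hW.bdx'
    obtain ⟨Kp, hKp0, hKp⟩ := hΨ.bdx'
    have hG : Dif (fun F => W F - Ψ F) fun x F => u x F - ψ x F := hW.sub hΨ
    have cG : Ch (fun F => W F - Ψ F) := by
      intro F t
      simp only
      rw [cW F t, cΨ F t]
      ring
    have covG : Cov (fun x F => u x F - ψ x F) := by
      intro t y F
      simp only
      rw [hu t y, hψ.cov t y]
    have hrev := rev_tor hP.dom hs hG cG covG x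
    have h1 := hmain x
    set M1 : ℂ := z * ((Real.exp (-(2 * π ^ 2 * H363.vv s ν A)) : ℝ) + κ) with hM1
    have e1 : ∀ b : V N → ℝ, dn (ahat s A) (gm s A) u x (cgm s A *ᵥ b)
          - M1 * mainf (S * ahat s A) x (cgm s A *ᵥ b)
        = (dn (ahat s A) (gm s A) ψ x (cgm s A *ᵥ b)
            - M1 * mainf (S * ahat s A) x (cgm s A *ᵥ b))
          + dn (ahat s A) (gm s A) (fun x F => u x F - ψ x F) x (cgm s A *ᵥ b) := by
      intro b
      rw [dn_sub (ahat s A) (gm s A) hW.mx hψ.m hKu hK]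
      ring
    rw [n2_congr e1]
    have mem1 : MemLp (fun b => dn (ahat s A) (gm s A) ψ x (cgm s A *ᵥ b)
        - M1 * mainf (S * ahat s A) x (cgm s A *ᵥ b)) 2 (gau (V N)) := by
      refine (memLp_bdd ((measurable_dn hψ.m x).comp (measurable_mulVec _)).aestronglyMeasurable
        fun b => norm_dn_le hK x _).sub ?_
      refine MemLp.const_mul ?_ _
      exact memLp_bdd ((measurable_mainf _ x).comp (measurable_mulVec _)).aestronglyMeasurable
        fun b => norm_mainf_le _ x _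
    have mem2 : MemLp (fun b => dn (ahat s A) (gm s A) (fun x F => u x F - ψ x F) x
        (cgm s A *ᵥ b)) 2 (gau (V N)) := by
      refine memLp_bdd ((measurable_dn (fun y => (hW.mx y).sub (hψ.m y)) x).comp
        (measurable_mulVec _)).aestronglyMeasurable fun b => norm_dn_le (K := Ku + K) (fun y F => ?_)
          x _
      exact (norm_sub_le _ _).trans (add_le_add (hKu y F) (hK y F))
    refine (n2_add_le mem1 mem2).trans (add_le_add ?_ ?_)
    · refine h1.trans (le_of_eq ?_)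
      field_simp
      ring
    · refine hrev.trans (mul_le_mul_of_nonneg_left he (by positivity))

end

end Vale.Agent.P159.H889
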