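import Vale.Agent.P159.H889.Vnum

/-!
P159 / H889: THE STEP OF THE CHARGED SECTOR IN NATURAL UNITS, all errors as numbers.
-/

namespace Vale.Agent.P159.H889

open MeasureTheory ProbabilityTheory Finset Matrix
open Vale.Agent.P159.TM.Spec (V)
open Vale.Agent.P159.TM.SpecC (wT)
open Vale.Agent.P159.H37 (gau gau_sum qf)
open Vale.Agent.P159.H145 (mt)
open Vale.Agent.P159.H363
open Vale.Agent.P159.H864 (TI sym fc mlt cl up)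
open Vale.Agent.P159.H462 (Dom ahat ti_ahat sym_ahat)
open Vale.Agent.P159.H708 (lfM avM m2 Ac Bm Sg)
open Vale.Agent.P159.H963 (CG GC vC)
open Vale.Agent.P159.H896 (Ph om WM Ah Acx Pc lf2 tcf)
open Vale.Agent.P159.H340 (tce anw)
open Vale.Agent.P159.H733.Torg (ip)
open Vale.Agent.P159.H733.Vt (zb lft)
open scoped Real

noncomputable section

variable {N1 N2 l ρ : ℕ} [NeZero N1] [NeZero N2] [NeZero (N1 / l)] [NeZero (N2 / l)]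
  [NeZero (N2 / l / ρ)] [NeZero (N2 / (l * ρ))] {b t t' : ℝ}

/-- the inputs of the window on the torus `N1` in the law `B1` -/
structure WinIn (N1 l : ℕ) [NeZero N1] [NeZero (N1 / l)] (b t t' M Q h τ : ℝ)
    (B1 : Matrix (V (N1 / l)) (V (N1 / l)) ℝ) (D : ℕ) (CC γr e1 : ℝ) : Prop where
  par : ∃ c a r₀ L r ρp, Par (N1 / l) B1 (t * (l : ℝ) ^ 2) c (sn l t t') a D r₀ L r γr ρp ∧
    γr * (π * ρp + 2 / (M ^ 2 - 1)) ≤ CC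
  CC0 : 0 ≤ CC
  γ0 : 0 ≤ γr
  p1 : ∀ x y, 0 ≤ (1 - (t * (l : ℝ) ^ 2)⁻¹ • B1) x y
  pA : ∀ x y, 0 ≤ (1 - (t * (l : ℝ) ^ 2)⁻¹ • acl N1 l b t t) x y
  nf : Nf (acl N1 l b t t)
  HS : ∑ k, rel (acl N1 l b t t) B1 k ^ 2 ≤ h ^ 2
  size : 1 ≤ t * (N1 : ℝ) ^ 2
  om : om (wT b N1) (mt N1 t) 1 ≤ Q ^ 4
  tail : ∀ x, tn2 B1 (fun F => mainf (1 - (t * (l : ℝ) ^ 2)⁻¹ • B1) x F
      - mainf (1 - (t * (l : ℝ) ^ 2)⁻¹ • B1) x (cutx D x F)) ≤ τ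
  e10 : 0 ≤ e1
  e1 : ∀ F, ‖Ph (wT b N1) (mt N1 t) 1 (lf N1 l F) - Wc N1 l b t F‖ ≤ e1

/-- the inputs of the transfer from the torus `N1` to the torus `N2`, all errors `≤ τ0` -/
structure TorIn (N1 N2 l : ℕ) [NeZero N1] [NeZero N2] [NeZero (N1 / l)] [NeZero (N2 / l)]
    (b t t' τ0 : ℝ) (B1 : Matrix (V (N1 / l)) (V (N1 / l)) ℝ)
    (B2 : Matrix (V (N2 / l)) (V (N2 / l)) ℝ) (R0 D0 D1 R : ℕ) : Prop where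
  D2 : ∃ c2, Dom B2 (t * (l : ℝ) ^ 2) c2
  p2 : ∀ x y, 0 ≤ (1 - (t * (l : ℝ) ^ 2)⁻¹ • B2) x y
  hD : R0 + D0 + R ≤ D1
  hN1 : 4 * D1 < N1 / l
  hN2 : 4 * D1 < N2 / l
  ex : ∃ (ee eK ηn η' η1 r2 : ℝ) (mu : V (N1 / l) → (V (N1 / l) → ℝ) → ℂ),
    (∀ ζ ∈ zb (2 * D1), |ahat (sn l t t') B2 0 (ip (N2 / l) ζ)
      - ahat (sn l t t') B1 0 (ip (N1 / l) ζ)| ≤ ee) ∧
    (∀ ζ ∈ zb (2 * D1), |((pin B2 * (pin B2)ᵀ) 0 (ip (N2 / l) ζ) - (pin B2 * (pin B2)ᵀ) 0 0)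
      - ((pin B1 * (pin B1)ᵀ) 0 (ip (N1 / l) ζ) - (pin B1 * (pin B1)ᵀ) 0 0)| ≤ eK) ∧
    ηn ≤ 1 / 2 ∧ (1 + sn l t t' * (t * (l : ℝ) ^ 2)) * (2 * D0 + 1) ^ 2 * ee ≤ ηn ∧
    0 < η' ∧ η' ≤ 1 / 2 ∧ 3 * (t' * (l : ℝ) ^ 2) * (2 * D1 + 1) ^ 2 * eK ≤ η' ∧
    tk 4 η' ≤ τ0 ∧
    Lcl B1 D0 η1 (π⁻¹ * (t * (l : ℝ) ^ 2)) (uc N1 l b t) mu ∧
    (∀ x F, ‖mu x F‖ ≤ π⁻¹ * (t * (l : ℝ) ^ 2)) ∧
    Lcl B2 D0 r2 (π⁻¹ * (t * (l : ℝ) ^ 2)) (uc N2 l b t) (lft D0 mu) ∧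
    lW (N1 / l) B1 (sn l t t') R0 D0 R η1 ((2 * π)⁻¹ * (t * (l : ℝ) ^ 2))
      (π⁻¹ * (t * (l : ℝ) ^ 2)) ≤ τ0 ∧
    H733.Vt.rT (sn l t t') B2 R0 D0 D1 R ((2 * π)⁻¹ * (t * (l : ℝ) ^ 2))
      (π⁻¹ * (t * (l : ℝ) ^ 2)) (π⁻¹ * (t * (l : ℝ) ^ 2)) r2 ee ηn ≤ τ0 ∧
    tl (H733.Vt.St (t' * (l : ℝ) ^ 2) (B1 * ahat (sn l t t') B1)
      * H733.Vt.St (t' * (l : ℝ) ^ 2) (B1 * ahat (sn l t t') B1)) D1
      * (2 * H889.sg (B1 * ahat (sn l t t') B1)) ≤ τ0 ∧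
    H733.Vt.mT (t' * (l : ℝ) ^ 2) (B1 * ahat (sn l t t') B1) (B2 * ahat (sn l t t') B2) R0 D1
      ((1 + (sn l t t' * (t * (l : ℝ) ^ 2))⁻¹) * ee) ≤ τ0

/-- the inputs of the change of cells on the torus `N2` -/
structure CellIn (N l ρ : ℕ) [NeZero N] [NeZero (N / l)] [NeZero (N / l / ρ)]
    [NeZero (N / (l * ρ))] (b t t' M Q h τ τq τ' ηw : ℝ) (B : Matrix (V (N / l)) (V (N / l)) ℝ)
    (D1 D' : ℕ) (eE ef : ℝ) : Prop where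
  pA : ∀ x y, 0 ≤ (1 - (t * (l : ℝ) ^ 2)⁻¹ • acl N l b t t) x y
  pn : ∀ x y, 0 ≤ (1 - (t' * ((l * ρ : ℕ) : ℝ) ^ 2)⁻¹ • acl N (l * ρ) b t' t') x y
  HS1 : ∑ k, rel B (acl N l b t t) k ^ 2 ≤ h ^ 2
  HS2 : ∑ k, rel (Acx N l ρ b t t t') (anw N l ρ b t') k ^ 2 ≤ h ^ 2
  hD' : D1 + ρ ≤ ρ * D'
  size : 1 ≤ t' * (N : ℝ) ^ 2
  sizeQ : t * (N : ℝ) ^ 2 ≤ Q ^ 4
  om : H896.om (wT b N) (mt N t') 1 ≤ Q ^ 4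
  num : ∃ c s₀ : ℝ, Dom (acl N l b t t) (t * (l : ℝ) ^ 2) c ∧
    16 * (ρ : ℝ) ^ 2 * (t' * (l : ℝ) ^ 2) / c ≤ 1 / 2 ∧
    (1 - (t' * (l : ℝ) ^ 2)⁻¹ • Ah N l b t t t') 0 0 ≤ s₀ ∧
    2 * (N / l : ℕ) * (16 * (ρ : ℝ) ^ 2 * (t' * (l : ℝ) ^ 2) / c) * √s₀ ≤ 1 ∧
    2 * (N / l : ℕ) * √(16 * (ρ : ℝ) ^ 2 * (t' * (l : ℝ) ^ 2) / c * s₀) ≤ 1 ∧
    gce (N / l) ρ (t' * (l : ℝ) ^ 2) c s₀ ≤ τ ∧
    2 * π ^ 2 * (32 * (ρ : ℝ) ^ 2 / c * s₀) ≤ τ ∧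
    4 * (ηw * M ^ 2 / (t * (l : ℝ) ^ 2))
      + M ^ 2 * (2 * ((N / l : ℕ) * √(16 * (ρ : ℝ) ^ 2 * (t' * (l : ℝ) ^ 2) / c * s₀)))
      + M ^ 2 * (√(2 * (2 * (D1 : ℝ) + 1)) * ((ρ : ℝ) ^ 2 * √(c⁻¹ * s₀))) + 3 * M ^ 2 * τq ≤ τ'
  eE : tn2 (Acx N l ρ b t t t') (fun f' => Ph (wT b N) (mt N t') 1 (lf2 N l ρ f')
      - Pc N l ρ b t t t' (Wc N l b t) f') ≤ eE
  ef : tn2 (Ah N l b t t t') (fun f => Pg (ahat (sn l t t') (acl N l b t t))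
        (gm (sn l t t') (acl N l b t t)) (Wc N l b t) f
      - Pg (ahat (sn l t t') B) (gm (sn l t t') B) (Wc N l b t) f) ≤ ef

/-- the window number -/
def WX (Q h τ nz Δ : ℝ) : ℝ := 2 * Δ + 8 * (nz * h) + 7 * (Q ^ 2 * τ)

/-- the natural growth factor -/
def GF {n : ℕ} [NeZero n] (M s ν : ℝ) (B : Matrix (V n) (V n) ℝ) : ℝ :=
  M ^ 2 * Real.exp (-(2 * π ^ 2 * H363.vv s ν B))

lemma GF_pos {n : ℕ} [NeZero n] {M s ν : ℝ} (hM : 0 < M) (B : Matrix (V n) (V n) ℝ) :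
    0 < GF M s ν B := by
  unfold GF
  positivity

lemma norm_coef_le {z κ : ℂ} {G Q W : ℝ} (hG0 : 0 ≤ G) (hG : G ≤ Q ^ 2) (hz : ‖z‖ ≤ Q)
    (hQ : 2 ≤ Q) (hκ : ‖z‖ * ‖κ‖ ≤ W) (hW : W ≤ Q ^ 2) : ‖z * ((G : ℂ) + κ)‖ ≤ Q ^ 4 := by
  rw [norm_mul]
  have a1 : ‖(G : ℂ) + κ‖ ≤ Q ^ 2 + ‖κ‖ := by
    refine (norm_add_le _ _).trans (add_le_add ?_ le_rfl)
    rw [Complex.norm_real, Real.norm_eq_abs, abs_of_nonneg hG0]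
    exact hG
  calc ‖z‖ * ‖(G : ℂ) + κ‖ ≤ ‖z‖ * (Q ^ 2 + ‖κ‖) := mul_le_mul_of_nonneg_left a1 (norm_nonneg _)
    _ = ‖z‖ * Q ^ 2 + ‖z‖ * ‖κ‖ := by ring
    _ ≤ Q * Q ^ 2 + Q ^ 2 :=
        add_le_add (mul_le_mul_of_nonneg_right hz (by positivity)) (hκ.trans hW)
    _ ≤ Q ^ 4 := by nlinarith [sq_nonneg Q, mul_nonneg (sq_nonneg Q) (sub_nonneg.2 hQ)]

lemma coef_nat {z κz : ℂ} {ν M γ : ℝ} (hM : 0 < M) :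
    z * ((ν : ℝ) : ℂ) * ((γ : ℂ) + κz)
      = z * (((M ^ 2 * γ : ℝ) : ℂ) + ((M ^ 2 : ℝ) : ℂ) * κz) * ((ν / M ^ 2 : ℝ) : ℂ) := by
  have h9 : (M : ℂ) ≠ 0 := by exact_mod_cast hM.ne'
  push_cast
  field_simp

/-- sizes of one window -/
structure Sz (t t' ν M Q h τ : ℝ) (l : ℕ) : Prop where
  ht' : 0 < t'
  hM : 2 ≤ M
  hMQ : M ≤ Q
  hMt : t = M ^ 2 * t'
  hν : ν = t * (l : ℝ) ^ 2
  hl : 0 < l
  hν1 : ν ≤ 1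
  hh : 0 < h
  hh2 : h ≤ 1 / 2
  hτ : 0 ≤ τ
  hq : tq h ≤ τ

section sz

variable {ν M Q h τ : ℝ}

lemma Sz.t0 (S : Sz t t' ν M Q h τ l) : t' < t ∧ 0 < t := by
  have h1 := S.ht'
  have h2 := S.hM
  have h3 : 4 ≤ M ^ 2 := by nlinarith
  rw [S.hMt]
  constructor
  · nlinarith
  · positivity

lemma Sz.l0 (S : Sz t t' ν M Q h τ l) : (0 : ℝ) < l := by exact_mod_cast S.hl

lemma Sz.ν0 (S : Sz t t' ν M Q h τ l) : 0 < ν := by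
  rw [S.hν]
  have := S.t0.2
  have := S.l0
  positivity

lemma Sz.ν' (S : Sz t t' ν M Q h τ l) : t' * (l : ℝ) ^ 2 = ν / M ^ 2 := by
  have h2 := S.hM
  have h3 : 0 < M := by linarith
  rw [S.hν, S.hMt]
  field_simp

lemma Sz.sν (S : Sz t t' ν M Q h τ l) : sn l t t' * ν = M ^ 2 - 1 := by
  have h2 := S.hM
  have h3 : 0 < M := by linarith
  have := S.ht'
  have := S.l0
  rw [S.hν, S.hMt]
  unfold sn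
  field_simp

end sz

/-- the deviation after the window, all numbers -/
lemma num_win {n1 : ℕ} [NeZero n1] {ν M Q h τ CC γc e e1 Δ zn om s : ℝ}
    (hν : 0 < ν) (size1 : 1 ≤ (n1 : ℝ) ^ 2 * ν) (hh : 0 < h)
    (hQ : 1 ≤ Q) (hzn : 0 ≤ zn) (hz2 : zn ≤ Q ^ 2) (hτ : 0 ≤ τ) (hq : tq h ≤ τ)
    (hCC0 : 0 ≤ CC) (hCC : γc ≤ CC) (hM : 2 ≤ M) (hs : s * ν = M ^ 2 - 1) (he0 : 0 ≤ e)
    (he1 : 0 ≤ e1) (hom0 : 0 ≤ om) (hom : om ≤ Q ^ 4) (hΔ : 0 ≤ Δ) :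
    γc * (dB n1 ν h (zn * ν) (Q ^ 2 * ν) (Δ * ν)
        + ((2 * (τ * ν) + 2 * (Q ^ 2 * ν) * tq h) + zn * ν * τ))
      + ((2 * (τ * ν) + 2 * (Q ^ 2 * ν) * tq h) + zn * ν * τ)
      + (2 * π)⁻¹ * (√(s * (n1 : ℝ) ^ 2))⁻¹ * ((2 * e + (om + Q ^ 4) * tq h) + e1)
      ≤ ν * (CC * WX Q h τ zn Δ + 7 * (Q ^ 4 * τ) + 2 * e + e1) := by
  have hd1 := num_d1 (Δ := Δ) (n := n1) (s := s) (M := M) (CC := CC) (e := e)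
    (e1 := e1) hν size1 hh.le hQ hzn hz2 hτ hq (ηm := τ) le_rfl hCC0 hM hs he0 he1 hom0 hom
  have hS0 : 0 ≤ dB n1 ν h (zn * ν) (Q ^ 2 * ν) (Δ * ν)
      + ((2 * (τ * ν) + 2 * (Q ^ 2 * ν) * tq h) + zn * ν * τ) := by
    have a1 := qe_nonneg (x := (n1 : ℝ) ^ 2 * ν) hh.le
    have a2 := tq_nonneg h
    unfold dB
    positivity
  exact (add_le_add (add_le_add (mul_le_mul_of_nonneg_right hCC hS0) le_rfl) le_rfl).trans hd1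

/-- **the window** in natural units, torus `N1`, law `B1` -/
theorem VB.winN (hb : 0 < b) (hl1 : l ∣ N1) {ν M Q h τ : ℝ} (S : Sz t t' ν M Q h τ l)
    {B1 : Matrix (V (N1 / l)) (V (N1 / l)) ℝ} {D : ℕ} {CC γr e e1 Δ : ℝ}
    {z : ℂ} (hz : z ≠ 0) (hzQ : ‖z‖ ≤ Q) {Lp : ℝ}
    (hV : VB N1 l b t (z * (ν : ℂ)) (Δ * ν) D (τ * ν) Lp e (Q ^ 2 * ν) (Q ^ 4))
    (he0 : 0 ≤ e) (hW : WinIn N1 l b t t' M Q h τ B1 D CC γr e1)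
    (hG : GF M (sn l t t') ν B1 ≤ Q ^ 2) (hS : M ^ 2 * γr * WX Q h τ ‖z‖ Δ ≤ Q ^ 2) :
    ∃ κ : ℂ, ‖z‖ * ‖κ‖ ≤ M ^ 2 * γr * WX Q h τ ‖z‖ Δ ∧
      ‖z * ((GF M (sn l t t') ν B1 : ℂ) + κ)‖ ≤ Q ^ 4 ∧
      Den (B1 * ahat (sn l t t') B1) (ν / M ^ 2)
        (z * ((GF M (sn l t t') ν B1 : ℂ) + κ) * ((ν / M ^ 2 : ℝ) : ℂ))
        (ν * (CC * WX Q h τ ‖z‖ Δ + 7 * (Q ^ 4 * τ) + 2 * e + e1))
        (dn (ahat (sn l t t') B1) (gm (sn l t t') B1) (uc N1 l b t)) := by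
  obtain ⟨h1, ht⟩ := S.t0
  have hl0 := S.l0
  have hν := S.ν0
  have hν' := S.ν'
  have hs := S.sν
  have hM := S.hM
  have hMQ := S.hMQ
  have hM0 : 0 < M := by linarith
  have hQ : 1 ≤ Q := by linarith
  have eν := S.hν
  obtain ⟨c, a, r₀, L, r, ρp, hP, hCC⟩ := hW.par
  have hn1 : (((N1 / l : ℕ) : ℝ)) ^ 2 * ν = t * (N1 : ℝ) ^ 2 := by
    rw [Nat.cast_div hl1 hl0.ne', eν]
    field_simp
  have hνC : (z * (ν : ℂ)) ≠ 0 := mul_ne_zero hz (by exact_mod_cast hν.ne')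
  have nzν : ‖z * (ν : ℂ)‖ = ‖z‖ * ν := by
    rw [norm_mul, Complex.norm_real, Real.norm_eq_abs, abs_of_pos hν]
  have hΔ : 0 ≤ Δ := by
    obtain ⟨Ψ, ψ, lam, -, -, hden, -⟩ := hV.ex
    have := (tn2_nonneg _ _).trans (hden.dev 0)
    exact nonneg_of_mul_nonneg_left this hν
  obtain ⟨κz, k1, k2⟩ := VB.winB hb hl1 S.ht' h1 hP hW.p1 hW.nf hW.pA
    S.hh S.hh2 hW.HS hνC hV hW.tail hW.e1
  simp only [← eν] at k1 k2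
  rw [nzν] at k1 k2
  rw [hν'] at k2
  have size1 : 1 ≤ (((N1 / l : ℕ) : ℝ)) ^ 2 * ν := by rw [hn1]; exact hW.size
  have hz2 : ‖z‖ ≤ Q ^ 2 := hzQ.trans (by nlinarith)
  have hSX := num_S (Δ := Δ) (n := N1 / l) hν size1 S.hh.le hQ (norm_nonneg z) hz2 S.hτ S.hq
    (ηm := τ) le_rfl
  have hκ2 : ‖z‖ * ‖κz‖ ≤ γr * WX Q h τ ‖z‖ Δ := by
    have e1 := k1.trans (mul_le_mul_of_nonneg_left hSX hW.γ0)
    have e0 : ‖z‖ * ν * ‖κz‖ = ν * (‖z‖ * ‖κz‖) := by ring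
    have e2 : γr * (ν * (2 * Δ + 8 * (‖z‖ * h) + 7 * (Q ^ 2 * τ)))
        = ν * (γr * WX Q h τ ‖z‖ Δ) := by unfold WX; ring
    rw [e0, e2] at e1
    exact le_of_mul_le_mul_left e1 hν
  have nκ : ‖((M ^ 2 : ℝ) : ℂ) * κz‖ = M ^ 2 * ‖κz‖ := by
    rw [norm_mul, Complex.norm_real, Real.norm_eq_abs, abs_of_pos (by positivity)]
  have hκ3 : ‖z‖ * ‖((M ^ 2 : ℝ) : ℂ) * κz‖ ≤ M ^ 2 * γr * WX Q h τ ‖z‖ Δ := by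
    rw [nκ]
    calc ‖z‖ * (M ^ 2 * ‖κz‖) = M ^ 2 * (‖z‖ * ‖κz‖) := by ring
      _ ≤ M ^ 2 * (γr * WX Q h τ ‖z‖ Δ) := mul_le_mul_of_nonneg_left hκ2 (by positivity)
      _ = _ := by ring
  have hzn := norm_coef_le (GF_pos (s := sn l t t') (ν := ν) hM0 B1).le hG hzQ
    (by linarith) hκ3 hS
  rw [coef_nat hM0] at k2
  refine ⟨((M ^ 2 : ℝ) : ℂ) * κz, hκ3, hzn, k2.mono ?_⟩
  exact num_win hν size1 S.hh hQ (norm_nonneg z) hz2 S.hτ S.hq hW.CC0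
    (by rw [hs]; exact hCC) hM hs he0 hW.e10
    ((norm_nonneg _).trans (H896.norm_Ph_le (wm_mt (N := N1) hb.le ht) 1 (lf N1 l 0)))
    hW.om hΔ

/-- **the torus** in natural units -/
theorem torN (hb : 0 < b) (hl1 : l ∣ N1) (hl2 : l ∣ N2) {ν M Q h τ τ0 : ℝ}
    (S : Sz t t' ν M Q h τ l)
    {B1 : Matrix (V (N1 / l)) (V (N1 / l)) ℝ} {B2 : Matrix (V (N2 / l)) (V (N2 / l)) ℝ}
    {R0 D0 D1 R : ℕ} {c1 d : ℝ} (hτ0 : 20 * Q ^ 4 * τ0 ≤ ν / M ^ 2 * τ)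
    (hD1 : Dom B1 (t * (l : ℝ) ^ 2) c1) (p1 : ∀ x y, 0 ≤ (1 - (t * (l : ℝ) ^ 2)⁻¹ • B1) x y)
    {zn : ℂ} (hzn : ‖zn‖ ≤ Q ^ 4)
    (hden : Den (B1 * ahat (sn l t t') B1) (ν / M ^ 2) (zn * ((ν / M ^ 2 : ℝ) : ℂ)) d
      (dn (ahat (sn l t t') B1) (gm (sn l t t') B1) (uc N1 l b t)))
    (hT : TorIn N1 N2 l b t t' τ0 B1 B2 R0 D0 D1 R) :
    ∃ lam : V (N2 / l) → (V (N2 / l) → ℝ) → ℂ,
      Den (B2 * ahat (sn l t t') B2) (ν / M ^ 2) (zn * ((ν / M ^ 2 : ℝ) : ℂ))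
        (2 * d + ν / M ^ 2 * τ)
        (dn (ahat (sn l t t') B2) (gm (sn l t t') B2) (uc N2 l b t)) ∧
      Lcl (B2 * ahat (sn l t t') B2) D1 τ0 (π⁻¹ * ν)
        (dn (ahat (sn l t t') B2) (gm (sn l t t') B2) (uc N2 l b t)) lam ∧
      ∀ x F, ‖lam x F‖ ≤ π⁻¹ * ν := by
  obtain ⟨h1, ht⟩ := S.t0
  have hν := S.ν0
  have hν' := S.ν'
  have hM := S.hM
  have hMQ := S.hMQ
  have hM0 : 0 < M := by linarith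
  have hQ : 1 ≤ Q := by linarith
  have hπ3 := Real.pi_gt_three
  have eν := S.hν
  have hν'0 : 0 < ν / M ^ 2 := by positivity
  obtain ⟨c2, hD2⟩ := hT.D2
  obtain ⟨ee, eK, ηn, η', η1, r2, mu, t1, t2, t3, t4, t5, t6, t7, t8, t9, t10, t11, t12, t13, t14,
    t15⟩ := hT.ex
  have hτ00 : 0 ≤ τ0 := (tk_nonneg _ _).trans t8
  obtain ⟨k2, k3⟩ := den_torB (κ := 4) hb hl1 hl2 S.ht' h1 hD1 hD2 p1 hT.p2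
    (by rw [hν']; exact hden) hT.hD hT.hN1 hT.hN2 t1 t2 t3 t4 t5 t6 (by norm_num) t7 t9 t10 t11
  simp only [← eν] at t12 t13 t15 k2 k3
  rw [hν'] at k2 t14 t15
  refine ⟨lft D1 (lamw (sn l t t') B1 R0 D1 mu), k2.mono ?_, k3.mono le_rfl t13 (by rw [eν]), ?_⟩
  · unfold H733.Vt.dT
    have h4 : √(4 : ℝ) = 2 := by
      rw [show (4 : ℝ) = 2 ^ 2 by norm_num]
      exact Real.sqrt_sq (by norm_num)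
    rw [h4]
    refine num_dT t13 t12 t14 t8 t15 hτ00 hQ (norm_nonneg _) ?_
      (mul_le_one₀ (inv_le_one_of_one_le₀ (by linarith)) hν.le S.hν1) (by positivity) hτ0
    rw [norm_mul, Complex.norm_real, Real.norm_eq_abs, abs_of_pos hν'0]
    exact (mul_le_of_le_one_right (norm_nonneg _)
      (div_le_one_of_le₀ (by nlinarith [S.hν1]) (by positivity))).trans hzn
  · intro x F
    rw [eν]
    exact H733.Vt.norm_lft (fun x F => H733.Vt.norm_lamw hD1 (sn_pos hl1 S.ht' h1)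
      (H733.Vt.off_of_nn hD1.hν p1) t10 x F) x F

/-- change of the name of the mass in the coefficient -/
lemma nu_lr {ν M Q h τ : ℝ} (S : Sz t t' ν M Q h τ l) (ρ : ℕ) :
    t' * ((l * ρ : ℕ) : ℝ) ^ 2 = ν / M ^ 2 * (ρ : ℝ) ^ 2 := by
  rw [← S.ν']
  push_cast
  ring

/-- **cells, law and functional** in natural units -/
theorem VB.nextN {N : ℕ} [NeZero N] [NeZero (N / l)] [NeZero (N / l / ρ)] [NeZero (N / (l * ρ))]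
    (hb : 0 < b) (hl : l ∣ N) (hρ : ρ ∣ N / l) {ν M Q h τ : ℝ} (S : Sz t t' ν M Q h τ l)
    {B : Matrix (V (N / l)) (V (N / l)) ℝ} {D1 D' : ℕ} {τ0 τq τ' eE ef Y cB : ℝ}
    (hB : Dom B (t * (l : ℝ) ^ 2) cB) (pB : ∀ x y, 0 ≤ (1 - (t * (l : ℝ) ^ 2)⁻¹ • B) x y)
    (hC : CellIn N l ρ b t t' M Q h τ τq τ' τ0 B D1 D' eE ef) (hqq : tq h ≤ τq)
    {zn : ℂ} (hzn : ‖zn‖ ≤ Q ^ 4) {lam : V (N / l) → (V (N / l) → ℝ) → ℂ}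
    (hden : Den (B * ahat (sn l t t') B) (ν / M ^ 2) (zn * ((ν / M ^ 2 : ℝ) : ℂ))
      (2 * (ν * Y) + ν / M ^ 2 * τ) (dn (ahat (sn l t t') B) (gm (sn l t t') B) (uc N l b t)))
    (hlcl : Lcl (B * ahat (sn l t t') B) D1 τ0 (π⁻¹ * ν)
      (dn (ahat (sn l t t') B) (gm (sn l t t') B) (uc N l b t)) lam)
    (hlam : ∀ x F, ‖lam x F‖ ≤ π⁻¹ * ν) :
    VB N (l * ρ) b t' (zn * ((t' * ((l * ρ : ℕ) : ℝ) ^ 2 : ℝ) : ℂ))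
      ((16 * M ^ 2 * Y + 40 * (‖zn‖ * h) + 26 * (Q ^ 4 * τ)) * (t' * ((l * ρ : ℕ) : ℝ) ^ 2)) D'
      (τ' * (t' * ((l * ρ : ℕ) : ℝ) ^ 2)) ((ρ : ℝ) ^ 2 * (π⁻¹ * ν))
      (2 * (eE + ef) + 2 * Q ^ 4 * τq) (Q ^ 2 * (t' * ((l * ρ : ℕ) : ℝ) ^ 2)) (Q ^ 4) := by
  obtain ⟨h1, ht⟩ := S.t0
  have hl0 := S.l0
  have hν := S.ν0
  have hν' := S.ν'
  have hM := S.hM
  have hMQ := S.hMQ
  have hM0 : 0 < M := by linarith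
  have hν'0 : 0 < ν / M ^ 2 := by positivity
  have hQ : 1 ≤ Q := by linarith
  have hπ3 := Real.pi_gt_three
  have hπ0 := Real.pi_pos
  have eν := S.hν
  obtain ⟨c, s₀, n1, n2, n3, n4, n5, n6, n7, n8⟩ := hC.num
  have hρ0 := H708.rho_pos hρ
  have hlρ : l * ρ ∣ N := H340.dvd_lr hl hρ
  have hKu : (2 * π)⁻¹ * (t * (l : ℝ) ^ 2) ≤ π⁻¹ * ν := by
    rw [← eν, mul_inv]
    have : 0 ≤ π⁻¹ * ν := by positivity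
    linarith
  have hnext := VB.nextB (N := N) (ρ := ρ) hb hl hρ S.ht' h1 n1 hC.pA hC.pn n2 n3 n4 n5 hB pB S.hh
    S.hh2 hC.HS1 S.hh S.hh2 hC.HS2 hC.hD' (by rw [hν']; exact hden) (by exact hlcl) hKu hlam hC.eE
    hC.ef
  have hlρ2 := nu_lr S ρ
  have hN2 : (((N / l : ℕ) : ℝ)) ^ 2 * (ν / M ^ 2) = t' * (N : ℝ) ^ 2 := by
    rw [Nat.cast_div hl hl0.ne', ← hν']
    field_simp
  have nzn : ‖zn * ((ν / M ^ 2 : ℝ) : ℂ)‖ = ‖zn‖ * (ν / M ^ 2) := by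
    rw [norm_mul, Complex.norm_real, Real.norm_eq_abs, abs_of_pos hν'0]
  rw [hν'] at n2 n3 n4 n5 n6 n8
  rw [← eν] at n8
  rw [hν', nzn] at hnext
  -- the coefficient
  have hDh : Dom (Ah N l b t t t') (ν / M ^ 2) c := by
    have h9 := dom_Aahat n1 (sn_pos hl S.ht' h1)
    rw [nu_next (N := N) hl S.ht' h1, hν'] at h9
    exact h9
  have hGC := H708.GC_ge hρ hDh n2
  have hGC1 := H708.GC_le (A := Ah N l b t t t') (ν := ν / M ^ 2) hρ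
  have hδz : ‖zn * ((ν / M ^ 2 : ℝ) : ℂ) * (GC ρ (Ah N l b t t t') (ν / M ^ 2) : ℂ)
      - zn * ((t' * ((l * ρ : ℕ) : ℝ) ^ 2 : ℝ) : ℂ)‖ ≤ ‖zn‖ * (ν / M ^ 2) * ((ρ : ℝ) ^ 2 * τ) := by
    rw [hlρ2]
    have e1 : zn * ((ν / M ^ 2 : ℝ) : ℂ) * (GC ρ (Ah N l b t t t') (ν / M ^ 2) : ℂ)
        - zn * ((ν / M ^ 2 * (ρ : ℝ) ^ 2 : ℝ) : ℂ)
        = zn * ((ν / M ^ 2 : ℝ) : ℂ)
          * ((GC ρ (Ah N l b t t t') (ν / M ^ 2) - (ρ : ℝ) ^ 2 : ℝ) : ℂ) := by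
      push_cast
      ring
    rw [e1, norm_mul, nzn, Complex.norm_real, Real.norm_eq_abs, abs_sub_comm,
      abs_of_nonneg (by linarith)]
    refine mul_le_mul_of_nonneg_left ?_ (by positivity)
    have h6 : 2 * π ^ 2 * (32 * (ρ : ℝ) ^ 2 / c * (1 - (ν / M ^ 2)⁻¹ • Ah N l b t t t') 0 0)
        ≤ τ := by
      refine le_trans ?_ n7
      have hc := hDh.hc
      exact mul_le_mul_of_nonneg_left (mul_le_mul_of_nonneg_left n3 (by positivity))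
        (by positivity)
    have h7 := mul_le_mul_of_nonneg_left h6 (sq_nonneg (ρ : ℝ))
    linarith
  have hcoef := SB.coef (H340.nf_acl hb hlρ S.ht' le_rfl) hC.pn hnext hδz
  have hdC := num_dCS (n := N / l) (ρ := ρ) (c := c) (s₀ := s₀) (d1 := ν * Y) (gd := τ) hν hM hMQ
    (by rw [hN2]; exact hC.size) S.hh.le S.hτ (norm_nonneg zn) hzn le_rfl n6 S.hq le_rfl
  have hlC := num_lCS (n := N / l) (ρ := ρ) (D1 := D1) (c := c) (s₀ := s₀) (τ' := τ') (ηw := τ0)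
    hν hM hqq n8
  refine hcoef.mono ?_ le_rfl ?_ le_rfl ?_ ?_ ?_
  · rw [hlρ2]
    refine hdC.trans (le_of_eq ?_)
    rw [mul_div_cancel_left₀ _ hν.ne']
  · rw [hlρ2]
    exact hlC
  · have a1 : (H896.om (wT b N) (mt N t') 1 + (2 * π)⁻¹ * (t * (N : ℝ) ^ 2)) * tq h
        ≤ (2 * Q ^ 4) * τq := by
      have a2 : (2 * π)⁻¹ * (t * (N : ℝ) ^ 2) ≤ 1 * Q ^ 4 := by
        refine mul_le_mul (inv_le_one_of_one_le₀ (by linarith)) hC.sizeQ (by positivity) zero_le_one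
      exact mul_le_mul (by linarith [hC.om]) hqq (tq_nonneg _) (by positivity)
    linarith
  · rw [hlρ2]
    have a3 : M ^ 2 ≤ Q ^ 2 := pow_le_pow_left₀ hM0.le hMQ 2
    have a4 : 2 * π⁻¹ ≤ 1 := by
      rw [← div_eq_mul_inv, div_le_one hπ0]
      linarith
    have e4 : 2 * (ρ : ℝ) ^ 2 * (π⁻¹ * ν) = (2 * π⁻¹) * (M ^ 2 * (ν / M ^ 2 * (ρ : ℝ) ^ 2)) := by
      field_simp
    rw [e4]
    have a5 : 0 ≤ M ^ 2 * (ν / M ^ 2 * (ρ : ℝ) ^ 2) := by positivity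
    exact (mul_le_of_le_one_left a5 a4).trans (mul_le_mul_of_nonneg_right a3 (by positivity))
  · have a2 : (2 * π)⁻¹ * (t * (N : ℝ) ^ 2) ≤ 1 * Q ^ 4 :=
      mul_le_mul (inv_le_one_of_one_le₀ (by linarith)) hC.sizeQ (by positivity) zero_le_one
    linarith

/-- **THE STEP OF THE CHARGED SECTOR** in natural units: window on the torus `N1`, state on the torus
`N2`; the coefficient depends on `N1` only -/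
theorem VB.stepN (hb : 0 < b) (hl1 : l ∣ N1)
    {ν M Q h τ : ℝ} (S : Sz t t' ν M Q h τ l)
    {B1 : Matrix (V (N1 / l)) (V (N1 / l)) ℝ} {D : ℕ} {CC γr e e1 Δ : ℝ}
    {z : ℂ} (hz : z ≠ 0) (hzQ : ‖z‖ ≤ Q) {Lp : ℝ}
    (hV : VB N1 l b t (z * (ν : ℂ)) (Δ * ν) D (τ * ν) Lp e (Q ^ 2 * ν) (Q ^ 4)) (he0 : 0 ≤ e)
    (hW : WinIn N1 l b t t' M Q h τ B1 D CC γr e1)
    (hG : GF M (sn l t t') ν B1 ≤ Q ^ 2)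
    (hS : M ^ 2 * γr * WX Q h τ ‖z‖ Δ ≤ Q ^ 2) :
    ∃ κ : ℂ, ‖z‖ * ‖κ‖ ≤ M ^ 2 * γr * WX Q h τ ‖z‖ Δ ∧
      ‖z * ((GF M (sn l t t') ν B1 : ℂ) + κ)‖ ≤ Q ^ 4 ∧
      ∀ (N2 ρ : ℕ) [NeZero N2] [NeZero (N2 / l)] [NeZero (N2 / l / ρ)] [NeZero (N2 / (l * ρ))]
        (_ : l ∣ N2) (_ : ρ ∣ N2 / l) (τ0 τq τ' eE ef : ℝ) (D' R0 D0 D1 R : ℕ)
        (B2 : Matrix (V (N2 / l)) (V (N2 / l)) ℝ), tq h ≤ τq →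
        20 * Q ^ 4 * τ0 ≤ ν / M ^ 2 * τ →
        TorIn N1 N2 l b t t' τ0 B1 B2 R0 D0 D1 R →
        CellIn N2 l ρ b t t' M Q h τ τq τ' τ0 B2 D1 D' eE ef →
        VB N2 (l * ρ) b t'
        (z * ((GF M (sn l t t') ν B1 : ℂ) + κ) * ((t' * ((l * ρ : ℕ) : ℝ) ^ 2 : ℝ) : ℂ))
        ((16 * M ^ 2 * (CC * WX Q h τ ‖z‖ Δ + 7 * (Q ^ 4 * τ) + 2 * e + e1)
          + 40 * (‖z * ((GF M (sn l t t') ν B1 : ℂ) + κ)‖ * h) + 26 * (Q ^ 4 * τ))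
          * (t' * ((l * ρ : ℕ) : ℝ) ^ 2)) D'
        (τ' * (t' * ((l * ρ : ℕ) : ℝ) ^ 2)) ((ρ : ℝ) ^ 2 * (π⁻¹ * ν))
        (2 * (eE + ef) + 2 * Q ^ 4 * τq) (Q ^ 2 * (t' * ((l * ρ : ℕ) : ℝ) ^ 2)) (Q ^ 4) := by
  obtain ⟨κ, k1, k2, k3⟩ := VB.winN hb hl1 S hz hzQ hV he0 hW hG hS
  refine ⟨κ, k1, k2, ?_⟩
  intro N2 ρ _ _ _ _ hl2 hρ τ0 τq τ' eE ef D' R0 D0 D1 R B2 hqq hτ0 hT hC
  obtain ⟨c, a, r₀, L, r, ρp, hP, -⟩ := hW.par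
  obtain ⟨lam, k4, k5, k6⟩ := torN hb hl1 hl2 S hτ0 hP.dom hW.p1 k2 k3 hT
  obtain ⟨c2, hD2⟩ := hT.D2
  exact VB.nextN hb hl2 hρ S hD2 hT.p2 hC hqq k2 k4 k5 k6

end

end Vale.Agent.P159.H889
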