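import Vale.Agent.P159.H889.Vwin

/-!
P159 / H889: local approximants of the densities are carried through one window; locality of the
main function in the typical `L²` norm. Only `L²` closeness for the typical law and a sup norm
Lipschitz bound are used: no good set for cut fields.
-/

namespace Vale.Agent.P159.H889

open MeasureTheory ProbabilityTheory Finset Matrix
open Vale.Agent.P159.TM.Spec (V)
open Vale.Agent.P159.H37 (gau gau_sum qf)
open Vale.Agent.P159.H363
open Vale.Agent.P159.H864 (TI sym fc mlt)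
open Vale.Agent.P159.H462 (Dom ahat Gam Spr Cpr ti_ahat ti_Gam ti_Spr ti_Cpr sym_ahat ahat_mul)
open Vale.Agent.P159.H552 (cutB)
open scoped Real

noncomputable section

/-! ### typical size of increments -/

section dev

variable {I Λ : Type*} [Fintype I] [Fintype Λ]

lemma memLp_abs_dev (C : Matrix Λ I ℝ) (v x : Λ) :
    MemLp (fun b : I → ℝ => ((|(C *ᵥ b) v - (C *ᵥ b) x| : ℝ) : ℂ)) 2 (gau I) := by
  have h1 : MemLp (fun b : I → ℝ => (((C v ⬝ᵥ b : ℝ) : ℂ)) - ((C x ⬝ᵥ b : ℝ) : ℂ)) 2 (gau I) :=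
    (memLp_lin (C v)).sub (memLp_lin (C x))
  refine h1.of_le ?_ (Filter.Eventually.of_forall fun b => ?_)
  · apply Measurable.aestronglyMeasurable
    refine Complex.measurable_ofReal.comp ?_
    exact (((measurable_pi_apply v).comp (measurable_mulVec C)).sub
      ((measurable_pi_apply x).comp (measurable_mulVec C))).abs
  · rw [← Complex.ofReal_sub, Complex.norm_real, Complex.norm_real, Real.norm_eq_abs,
      Real.norm_eq_abs, abs_abs]
    exact le_refl _

omit [Fintype Λ] in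
lemma n2_dev (C : Matrix Λ I ℝ) {σ : ℝ} (hσ0 : 0 ≤ σ) (hσ : ∀ v, ∑ i, C v i ^ 2 ≤ σ ^ 2)
    (v x : Λ) : n2 (gau I) (fun b => ((|(C *ᵥ b) v - (C *ᵥ b) x| : ℝ) : ℂ)) ≤ 2 * σ := by
  have h1 : n2 (gau I) (fun b => ((|(C *ᵥ b) v - (C *ᵥ b) x| : ℝ) : ℂ))
      ≤ n2 (gau I) (fun b => (((C v ⬝ᵥ b : ℝ) : ℂ)) - ((C x ⬝ᵥ b : ℝ) : ℂ)) := by
    refine n2_mono ((memLp_lin (C v)).sub (memLp_lin (C x))) fun b => ?_
    rw [← Complex.ofReal_sub, Complex.norm_real, Complex.norm_real, Real.norm_eq_abs,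
      Real.norm_eq_abs, abs_abs]
    exact le_refl _
  refine h1.trans ((n2_sub_le (memLp_lin (C v)) (memLp_lin (C x))).trans ?_)
  have h2 : ∀ y, √(∑ i, C y i ^ 2) ≤ σ := fun y => by
    rw [← Real.sqrt_sq hσ0]
    exact Real.sqrt_le_sqrt (hσ y)
  rw [n2_lin, n2_lin]
  linarith [h2 v, h2 x]

/-- weighted sums of increments -/
lemma n2_wabs (C : Matrix Λ I ℝ) {σ : ℝ} (hσ0 : 0 ≤ σ) (hσ : ∀ v, ∑ i, C v i ^ 2 ≤ σ ^ 2)
    (T : Finset Λ) (c : Λ → ℝ) (hc : ∀ v, 0 ≤ c v) (x : Λ) :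
    n2 (gau I) (fun b => ((∑ v ∈ T, c v * |(C *ᵥ b) v - (C *ᵥ b) x| : ℝ) : ℂ))
      ≤ (∑ v ∈ T, c v) * (2 * σ) := by
  have h := n2_comb_le (μ := gau I) T
    (u := fun v b => ((|(C *ᵥ b) v - (C *ᵥ b) x| : ℝ) : ℂ)) (fun v _ => memLp_abs_dev C v x)
    (fun v => (c v : ℂ)) (K := 2 * σ) fun v _ => n2_dev C hσ0 hσ v x
  have e1 : ∀ b : I → ℝ, ((∑ v ∈ T, c v * |(C *ᵥ b) v - (C *ᵥ b) x| : ℝ) : ℂ)
      = ∑ v ∈ T, (c v : ℂ) * ((|(C *ᵥ b) v - (C *ᵥ b) x| : ℝ) : ℂ) := by
    intro b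
    push_cast
    rfl
  rw [n2_congr e1]
  refine h.trans (le_of_eq ?_)
  congr 1
  refine Finset.sum_congr rfl fun v _ => ?_
  rw [Complex.norm_real, Real.norm_eq_abs, abs_of_nonneg (hc v)]

lemma memLp_wabs (C : Matrix Λ I ℝ) (T : Finset Λ) (c : Λ → ℝ) (x : Λ) :
    MemLp (fun b : I → ℝ => ((∑ v ∈ T, c v * |(C *ᵥ b) v - (C *ᵥ b) x| : ℝ) : ℂ)) 2 (gau I) := by
  have e1 : (fun b : I → ℝ => ((∑ v ∈ T, c v * |(C *ᵥ b) v - (C *ᵥ b) x| : ℝ) : ℂ))
      = fun b => ∑ v ∈ T, (c v : ℂ) * ((|(C *ᵥ b) v - (C *ᵥ b) x| : ℝ) : ℂ) := by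
    funext b
    push_cast
    rfl
  rw [e1]
  exact memLp_sum T fun v _ => (memLp_abs_dev C v x).const_mul _

end dev

variable {N : ℕ} [NeZero N] {A : Matrix (V N) (V N) ℝ}

/-! ### boxes and tails -/

omit [NeZero N] in
lemma natAbs_tri (a b : ZMod N) :
    (a + b).valMinAbs.natAbs ≤ a.valMinAbs.natAbs + b.valMinAbs.natAbs := by
  refine (ZMod.natAbs_valMinAbs_add_le a b).trans ?_
  exact Int.natAbs_add_le _ _

lemma box_trans {x y v : V N} {R D : ℕ} (h1 : y ∈ H462.box x R) (h2 : v ∈ H462.box y D) :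
    v ∈ H462.box x (R + D) := by
  rw [H462.mem_box] at h1 h2 ⊢
  have e : v - x = (v - y) + (y - x) := by abel
  rw [e]
  constructor
  · have := natAbs_tri (v - y).1 (y - x).1
    simp only [Prod.fst_add]
    omega
  · have := natAbs_tri (v - y).2 (y - x).2
    simp only [Prod.snd_add]
    omega

lemma box_symm {x y : V N} {R : ℕ} (h : y ∈ H462.box x R) : x ∈ H462.box y R := by
  rw [H462.mem_box] at h ⊢
  have e : x - y = -(y - x) := by abel
  rw [e]
  simp only [Prod.fst_neg, Prod.snd_neg, ZMod.natAbs_valMinAbs_neg]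
  exact h

lemma compl_box_sub {x v : V N} {R R1 D1 : ℕ} (hv : v ∈ H462.box x R1) (h : R1 + R ≤ D1) :
    (H462.box x D1)ᶜ ⊆ (H462.box v R)ᶜ := by
  intro w hw
  rw [Finset.mem_compl] at hw ⊢
  intro h2
  apply hw
  have h3 := box_trans hv h2
  rw [H462.mem_box] at h3 ⊢
  omega

/-- tail of a translation invariant kernel outside a box -/
def tl (M : Matrix (V N) (V N) ℝ) (R : ℕ) : ℝ := ∑ z ∈ (H462.box (0 : V N) R)ᶜ, |M 0 z|

lemma tl_nonneg (M : Matrix (V N) (V N) ℝ) (R : ℕ) : 0 ≤ tl M R :=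
  Finset.sum_nonneg fun _ _ => abs_nonneg _

lemma tl_eq {M : Matrix (V N) (V N) ℝ} (hM : TI M) (x : V N) (R : ℕ) :
    ∑ z ∈ (H462.box x R)ᶜ, |M x z| = tl M R := by
  unfold tl
  symm
  refine Finset.sum_equiv (Equiv.addRight x) (fun z => ?_) (fun z _ => ?_)
  · rw [Finset.mem_compl, Finset.mem_compl, Equiv.coe_addRight]
    have := mem_box_add (x := (0 : V N)) (y := z) (a := x) (D := R)
    rw [zero_add] at this
    rw [this]
  · have h := hM.tr x 0 z
    rw [zero_add] at h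
    rw [Equiv.coe_addRight, h]

/-- rows restricted to the complement of a bigger box -/
lemma sum_compl_le {M : Matrix (V N) (V N) ℝ} (hM : TI M) {x v : V N} {R R1 D1 : ℕ}
    (hv : v ∈ H462.box x R1) (h : R1 + R ≤ D1) :
    ∑ z ∈ (H462.box x D1)ᶜ, |M v z| ≤ tl M R := by
  rw [← tl_eq hM v R]
  exact Finset.sum_le_sum_of_subset_of_nonneg (compl_box_sub hv h) fun _ _ _ => abs_nonneg _

/-! ### size of the field -/

/-- standard deviation of one cell in the typical law -/
def sg (A : Matrix (V N) (V N) ℝ) : ℝ := √(∑ i, pin A 0 i ^ 2)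

lemma sg_nonneg (A : Matrix (V N) (V N) ℝ) : 0 ≤ sg A := Real.sqrt_nonneg _

lemma sg_row (A : Matrix (V N) (V N) ℝ) (v : V N) : ∑ i, pin A v i ^ 2 ≤ sg A ^ 2 := by
  unfold sg
  rw [Real.sq_sqrt (Finset.sum_nonneg fun _ _ => by positivity)]
  rw [sum_sq_row (ti_pin A) v, sum_sq_row (ti_pin A) 0]

/-! ### main function -/

/-- locality of the main function in the typical norm -/
theorem mainf_tail {S : Matrix (V N) (V N) ℝ} (hS : TI S) (h0 : ∀ x y, 0 ≤ S x y)
    (A : Matrix (V N) (V N) ℝ) (D : ℕ) (x : V N) :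
    tn2 A (fun F => mainf S x F - mainf S x (cutx D x F)) ≤ 2 * π * (tl (S * S) D * (2 * sg A)) := by
  have hSS : TI (S * S) := hS.mul hS
  have hSS0 : ∀ v, 0 ≤ (S * S) x v := fun v => by
    rw [Matrix.mul_apply]
    exact Finset.sum_nonneg fun y _ => mul_nonneg (h0 _ _) (h0 _ _)
  set B : Finset (V N) := H462.box x D with hB
  have h1 : tn2 A (fun F => mainf S x F - mainf S x (cutx D x F))
      ≤ n2 (gau (V N)) (fun g => ((2 * π : ℝ) : ℂ)
        * ((∑ v ∈ Bᶜ, (S * S) x v * |(pin A *ᵥ g) v - (pin A *ᵥ g) x| : ℝ) : ℂ)) := by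
    refine n2_mono ((memLp_wabs (pin A) Bᶜ _ x).const_mul _) fun g => ?_
    rw [norm_mul, Complex.norm_real, Complex.norm_real, Real.norm_eq_abs, Real.norm_eq_abs,
      abs_of_pos (by positivity : (0 : ℝ) < 2 * π), abs_of_nonneg
      (Finset.sum_nonneg fun v _ => mul_nonneg (hSS0 v) (abs_nonneg _))]
    exact H552.mainf_loc h0 x B (pin A *ᵥ g)
  refine h1.trans ?_
  rw [n2_const_mul, Complex.norm_real, Real.norm_eq_abs,
    abs_of_pos (by positivity : (0 : ℝ) < 2 * π)]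
  refine mul_le_mul_of_nonneg_left ?_ (by positivity)
  refine (n2_wabs (pin A) (sg_nonneg A) (sg_row A) Bᶜ _ hSS0 x).trans (le_of_eq ?_)
  congr 1
  rw [← tl_eq hSS x D]
  exact Finset.sum_congr rfl fun v _ => (abs_of_nonneg (hSS0 v)).symm

/-! ### one window -/

lemma ch_Pg {I J Λ : Type*} [Fintype I] [Fintype J] {F0 : Matrix Λ J ℝ} {M : Matrix Λ I ℝ}
    (h1 : ∀ x, ∑ y, F0 x y = 1) {ψ : (Λ → ℝ) → ℂ} (hψ : Ch ψ) : Ch (Pg F0 M ψ) := by
  intro f t
  unfold Pg
  rw [← integral_const_mul]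
  refine integral_congr_ae (Filter.Eventually.of_forall fun g => ?_)
  simp only
  have e : F0 *ᵥ (fun x => f x + t) + M *ᵥ g = fun x => (F0 *ᵥ f + M *ᵥ g) x + t := by
    funext x
    simp only [Pi.add_apply, mulVec, dotProduct, mul_add, Finset.sum_add_distrib]
    rw [← Finset.sum_mul, h1 x, one_mul]
    ring
  rw [e, hψ]

/-- the Gaussian operator is a contraction for the typical norms -/
lemma n2_Pg_le {ν c s : ℝ} (h : Dom A ν c) (hs : 0 < s) {u : (V N → ℝ) → ℂ} (hch : Ch u)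
    (hm : Measurable u) {K : ℝ} (hK : ∀ F, ‖u F‖ ≤ K) :
    n2 (gau (V N)) (fun b => Pg (ahat s A) (gm s A) u (cgm s A *ᵥ b)) ≤ tn2 A u := by
  have hmem : MemLp (fun b => Pg (ahat s A) (gm s A) u (cgm s A *ᵥ b)) 2 (gau (V N)) :=
    memLp_bdd ((measurable_Pg hm).comp (measurable_mulVec _)).aestronglyMeasurable
      fun b => norm_Pg_le hK _
  rw [n2_le hmem (tn2_nonneg A u), ← tn2_window h hs hch hm hK]
  have h1 := Pg_contr (F0 := ahat s A * cgm s A) (A := gm s A) hm hK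
  simp only [Pg_mulVec] at h1
  exact h1

/-- local approximant of the density after one window -/
def lamw (s : ℝ) (A : Matrix (V N) (V N) ℝ) (R0 D1 : ℕ) (mu : V N → (V N → ℝ) → ℂ) (x : V N)
    (f : V N → ℝ) : ℂ :=
  ∑ y ∈ H462.box x R0, (ahat s A y x : ℂ) * Pg (ahat s A) (gm s A) (mu y) (cutx D1 x f)

lemma self_mem_box (x : V N) (D : ℕ) : x ∈ H462.box x D := H462.mem_box.2 (by
  rw [sub_self]
  simp)

lemma cutx_add (D : ℕ) (x : V N) (F : V N → ℝ) (t : ℝ) :
    cutx D x (fun y => F y + t) = fun y => cutx D x F y + t := H552.cutB_add _ _ _ _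

lemma Lcl.Lp_nonneg {D : ℕ} {η Lp : ℝ} {ψ lam : V N → (V N → ℝ) → ℂ} (h : Lcl A D η Lp ψ lam) :
    0 ≤ Lp := by
  have := h.lip 0 0 0 1 fun y _ => by simp
  simpa using this

/-- a local Lipschitz function through the Gaussian operator -/
lemma Pg_lip {I J : Type*} [Fintype I] [Fintype J] {F0 : Matrix (V N) J ℝ}
    {M : Matrix (V N) I ℝ} {lam : (V N → ℝ) → ℂ} (hm : Measurable lam) {K : ℝ}
    (hK : ∀ F, ‖lam F‖ ≤ K) {B : Finset (V N)} {Lp : ℝ}
    (hlip : ∀ (F F' : V N → ℝ) (r : ℝ), (∀ y ∈ B, |F y - F' y| ≤ r) → ‖lam F - lam F'‖ ≤ Lp * r)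
    (f f' : J → ℝ) {r : ℝ} (hr : ∀ y ∈ B, |(F0 *ᵥ f) y - (F0 *ᵥ f') y| ≤ r) :
    ‖Pg F0 M lam f - Pg F0 M lam f'‖ ≤ Lp * r := by
  unfold Pg
  rw [← integral_sub (integrable_Pg hm hK f) (integrable_Pg hm hK f')]
  have h1 : ∀ g : I → ℝ, ‖lam (F0 *ᵥ f + M *ᵥ g) - lam (F0 *ᵥ f' + M *ᵥ g)‖ ≤ Lp * r := by
    intro g
    refine hlip _ _ r fun y hy => ?_
    have e : (F0 *ᵥ f + M *ᵥ g) y - (F0 *ᵥ f' + M *ᵥ g) y = (F0 *ᵥ f) y - (F0 *ᵥ f') y := by
      simp only [Pi.add_apply]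
      ring
    rw [e]
    exact hr y hy
  have := norm_integral_le_of_norm_le_const (μ := gau I)
    (f := fun g => lam (F0 *ᵥ f + M *ᵥ g) - lam (F0 *ᵥ f' + M *ᵥ g)) (C := Lp * r)
    (Filter.Eventually.of_forall h1)
  simpa using this

/-- **local approximants are carried through one window** -/
theorem lcl_window {ν c s : ℝ} (h : Dom A ν c) (hs : 0 < s) (hoff : ∀ x y, x ≠ y → A x y ≤ 0)
    {R0 D0 D1 R : ℕ} (hD : R0 + D0 + R ≤ D1) {η K Lp : ℝ} {u mu : V N → (V N → ℝ) → ℂ}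
    (hum : ∀ x, Measurable (u x)) (hK : ∀ x F, ‖u x F‖ ≤ K) (hch : ∀ x, Ch (u x))
    (hμ : Lcl A D0 η Lp u mu) :
    Lcl (A * ahat s A) D1 (η + tl (ahat s A) R0 * K
      + Lp * ((2 * ((R0 + D0 : ℕ) : ℝ) + 1) ^ 2 * tl (ahat s A) R * (2 * sg (A * ahat s A)))) Lp
      (dn (ahat s A) (gm s A) u) (lamw s A R0 D1 mu) := by
  classical
  have h0 : ∀ x y, 0 ≤ ahat s A x y := ahat_nonneg h hs hoff
  have h1 : ∀ x, ∑ y, ahat s A x y = 1 := ahat_row A h.zero
  have h1' : ∀ x, ∑ y, ahat s A y x = 1 := fun x => by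
    rw [← h1 x]
    exact Finset.sum_congr rfl fun y _ => (ti_ahat s A).sy y x
  have hLp := hμ.Lp_nonneg
  obtain ⟨Km, hKm⟩ := hμ.bd
  have hKm0 : 0 ≤ Km := (norm_nonneg _).trans (hKm 0 0)
  have hK0 : 0 ≤ K := (norm_nonneg _).trans (hK 0 0)
  have mcut : ∀ x, Measurable (cutx D1 x : (V N → ℝ) → V N → ℝ) := fun x =>
    H552.measurable_cutB (H462.box x D1) x
  have hsub : ∀ x : V N, ∑ y ∈ H462.box x R0, ahat s A y x ≤ 1 := fun x => by
    rw [← h1' x]
    exact Finset.sum_le_sum_of_subset_of_nonneg (Finset.subset_univ _) fun y _ _ => h0 y x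
  have ml : ∀ x, Measurable (lamw s A R0 D1 mu x) := fun x => by
    unfold lamw
    exact Finset.measurable_fun_sum _ fun y _ =>
      ((measurable_Pg (hμ.m y)).comp (mcut x)).const_mul _
  have bl : ∀ x f, ‖lamw s A R0 D1 mu x f‖ ≤ Km := by
    intro x f
    unfold lamw
    refine (norm_sum_le _ _).trans ?_
    calc ∑ y ∈ H462.box x R0, ‖(ahat s A y x : ℂ) * Pg (ahat s A) (gm s A) (mu y) (cutx D1 x f)‖
        ≤ ∑ y ∈ H462.box x R0, ahat s A y x * Km := by
          refine Finset.sum_le_sum fun y _ => ?_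
          rw [norm_mul, Complex.norm_real, Real.norm_eq_abs, abs_of_nonneg (h0 y x)]
          exact mul_le_mul_of_nonneg_left (norm_Pg_le (hKm y) _) (h0 y x)
      _ = (∑ y ∈ H462.box x R0, ahat s A y x) * Km := by rw [Finset.sum_mul]
      _ ≤ 1 * Km := mul_le_mul_of_nonneg_right (hsub x) hKm0
      _ = Km := one_mul _
  refine ⟨ml, ⟨Km, bl⟩, ?_, ?_, ?_, ?_, ?_⟩
  · -- charge one
    intro x f t
    unfold lamw
    rw [Finset.mul_sum]
    refine Finset.sum_congr rfl fun y _ => ?_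
    rw [cutx_add, ch_Pg h1 (hμ.ch y) (cutx D1 x f) t]
    ring
  · -- covariance
    intro a x f
    unfold lamw
    symm
    refine Finset.sum_equiv (Equiv.addRight a) (fun y => ?_) (fun y _ => ?_)
    · rw [Equiv.coe_addRight, mem_box_add]
    · rw [Equiv.coe_addRight, (ti_ahat s A).tr, Pg_sh (ti_ahat s A) (ti_gm s A) hμ.cov a y,
        sh_cutx]
  · -- locality
    intro x f f' hff
    unfold lamw
    have e1 : cutx D1 x f = cutx D1 x f' := H552.cutB_congr (self_mem_box x D1) hff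
    rw [e1]
  · -- Lipschitz
    intro x f f' r hr
    have hr0 : 0 ≤ r := (abs_nonneg _).trans (hr x (self_mem_box x D1))
    have hcut : ∀ v, |cutx D1 x f v - cutx D1 x f' v| ≤ r := by
      intro v
      unfold cutx cutB
      by_cases hv : v ∈ H462.box x D1
      · rw [if_pos hv, if_pos hv]
        exact hr v hv
      · rw [if_neg hv, if_neg hv]
        exact hr x (self_mem_box x D1)
    have hah : ∀ y, |(ahat s A *ᵥ cutx D1 x f) y - (ahat s A *ᵥ cutx D1 x f') y| ≤ r := by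
      intro y
      have e : (ahat s A *ᵥ cutx D1 x f) y - (ahat s A *ᵥ cutx D1 x f') y
          = ∑ v, ahat s A y v * (cutx D1 x f v - cutx D1 x f' v) := by
        simp only [mulVec, dotProduct]
        rw [← Finset.sum_sub_distrib]
        exact Finset.sum_congr rfl fun v _ => by ring
      rw [e]
      refine (Finset.abs_sum_le_sum_abs _ _).trans ?_
      calc ∑ v, |ahat s A y v * (cutx D1 x f v - cutx D1 x f' v)| ≤ ∑ v, ahat s A y v * r := by
            refine Finset.sum_le_sum fun v _ => ?_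
            rw [abs_mul, abs_of_nonneg (h0 y v)]
            exact mul_le_mul_of_nonneg_left (hcut v) (h0 y v)
        _ = r := by rw [← Finset.sum_mul, h1 y, one_mul]
    unfold lamw
    rw [← Finset.sum_sub_distrib]
    refine (norm_sum_le _ _).trans ?_
    calc ∑ y ∈ H462.box x R0, ‖(ahat s A y x : ℂ) * Pg (ahat s A) (gm s A) (mu y) (cutx D1 x f)
          - (ahat s A y x : ℂ) * Pg (ahat s A) (gm s A) (mu y) (cutx D1 x f')‖
        ≤ ∑ y ∈ H462.box x R0, ahat s A y x * (Lp * r) := by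
          refine Finset.sum_le_sum fun y _ => ?_
          rw [← mul_sub, norm_mul, Complex.norm_real, Real.norm_eq_abs, abs_of_nonneg (h0 y x)]
          refine mul_le_mul_of_nonneg_left ?_ (h0 y x)
          exact Pg_lip (hμ.m y) (hKm y) (hμ.lip y) _ _ fun v _ => hah v
      _ = (∑ y ∈ H462.box x R0, ahat s A y x) * (Lp * r) := by rw [Finset.sum_mul]
      _ ≤ 1 * (Lp * r) := mul_le_mul_of_nonneg_right (hsub x) (by positivity)
      _ = Lp * r := one_mul _
  · -- closeness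
    intro x
    have epin : pin (A * ahat s A) = cgm s A := (cgm_eq_pin h hs).symm
    set B0 : Finset (V N) := H462.box x R0 with hB0
    set T : Finset (V N) := (H462.box x D1)ᶜ with hT
    set cZ : V N → ℝ := fun Z => ∑ v ∈ H462.box x (R0 + D0), ahat s A v Z with hcZ
    have hcZ0 : ∀ Z, 0 ≤ cZ Z := fun Z => Finset.sum_nonneg fun v _ => h0 v Z
    have e0 : ∀ f : V N → ℝ, dn (ahat s A) (gm s A) u x f - lamw s A R0 D1 mu x f
        = ((∑ y ∈ B0ᶜ, (ahat s A y x : ℂ) * Pg (ahat s A) (gm s A) (u y) f)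
          + ∑ y ∈ B0, (ahat s A y x : ℂ) * Pg (ahat s A) (gm s A) (fun F => u y F - mu y F) f)
          + ∑ y ∈ B0, (ahat s A y x : ℂ) * (Pg (ahat s A) (gm s A) (mu y) f
            - Pg (ahat s A) (gm s A) (mu y) (cutx D1 x f)) := by
      intro f
      unfold dn lamw
      rw [← Finset.sum_add_sum_compl B0]
      have e2 : ∀ y, Pg (ahat s A) (gm s A) (fun F => u y F - mu y F) f
          = Pg (ahat s A) (gm s A) (u y) f - Pg (ahat s A) (gm s A) (mu y) f := fun y =>
        integral_sub (integrable_Pg (hum y) (hK y) f) (integrable_Pg (hμ.m y) (hKm y) f)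
      simp only [e2, mul_sub, Finset.sum_sub_distrib]
      ring
    have mT1 : MemLp (fun b => ∑ y ∈ B0ᶜ, (ahat s A y x : ℂ)
        * Pg (ahat s A) (gm s A) (u y) (cgm s A *ᵥ b)) 2 (gau (V N)) :=
      memLp_sum _ fun y _ => (memLp_bdd ((measurable_Pg (hum y)).comp
        (measurable_mulVec _)).aestronglyMeasurable fun b => norm_Pg_le (hK y) _).const_mul _
    have mdif : ∀ y, Measurable fun F => u y F - mu y F := fun y => (hum y).sub (hμ.m y)
    have bdif : ∀ y F, ‖u y F - mu y F‖ ≤ K + Km := fun y F =>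
      (norm_sub_le _ _).trans (add_le_add (hK y F) (hKm y F))
    have cdif : ∀ y, Ch (fun F => u y F - mu y F) := by
      intro y F t
      simp only
      rw [hch y F t, hμ.ch y F t]
      ring
    have mP2 : ∀ y, MemLp (fun b => Pg (ahat s A) (gm s A) (fun F => u y F - mu y F)
        (cgm s A *ᵥ b)) 2 (gau (V N)) := fun y =>
      memLp_bdd ((measurable_Pg (mdif y)).comp (measurable_mulVec _)).aestronglyMeasurable
        fun b => norm_Pg_le (bdif y) _
    have mT2 : MemLp (fun b => ∑ y ∈ B0, (ahat s A y x : ℂ)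
        * Pg (ahat s A) (gm s A) (fun F => u y F - mu y F) (cgm s A *ᵥ b)) 2 (gau (V N)) :=
      memLp_sum _ fun y _ => (mP2 y).const_mul _
    have mT3 : MemLp (fun b => ∑ y ∈ B0, (ahat s A y x : ℂ)
        * (Pg (ahat s A) (gm s A) (mu y) (cgm s A *ᵥ b)
          - Pg (ahat s A) (gm s A) (mu y) (cutx D1 x (cgm s A *ᵥ b)))) 2 (gau (V N)) := by
      refine memLp_sum _ fun y _ => ?_
      refine MemLp.const_mul ?_ _
      refine (memLp_bdd ((measurable_Pg (hμ.m y)).comp
        (measurable_mulVec _)).aestronglyMeasurable fun b => norm_Pg_le (hKm y) _).sub ?_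
      exact memLp_bdd (((measurable_Pg (hμ.m y)).comp (mcut x)).comp
        (measurable_mulVec _)).aestronglyMeasurable fun b => norm_Pg_le (hKm y) _
    have n1 : n2 (gau (V N)) (fun b => ∑ y ∈ B0ᶜ, (ahat s A y x : ℂ)
        * Pg (ahat s A) (gm s A) (u y) (cgm s A *ᵥ b)) ≤ tl (ahat s A) R0 * K := by
      refine n2_le_const mT1.aestronglyMeasurable (mul_nonneg (tl_nonneg _ _) hK0) fun b => ?_
      refine (norm_sum_le _ _).trans ?_
      rw [← tl_eq (ti_ahat s A) x R0, Finset.sum_mul]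
      refine Finset.sum_le_sum fun y _ => ?_
      rw [norm_mul, Complex.norm_real, Real.norm_eq_abs, (ti_ahat s A).sy y x]
      exact mul_le_mul_of_nonneg_left (norm_Pg_le (hK y) _) (abs_nonneg _)
    have hη0 : 0 ≤ η := (tn2_nonneg _ _).trans (hμ.near x)
    have n2' : n2 (gau (V N)) (fun b => ∑ y ∈ B0, (ahat s A y x : ℂ)
        * Pg (ahat s A) (gm s A) (fun F => u y F - mu y F) (cgm s A *ᵥ b)) ≤ η := by
      refine (n2_comb_le B0 (fun y _ => mP2 y) (fun y => (ahat s A y x : ℂ)) (K := η)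
        fun y _ => ?_).trans ?_
      · exact (n2_Pg_le h hs (cdif y) (mdif y) (bdif y)).trans (hμ.near y)
      · have e3 : ∑ y ∈ B0, ‖(ahat s A y x : ℂ)‖ = ∑ y ∈ B0, ahat s A y x :=
          Finset.sum_congr rfl fun y _ => by
            rw [Complex.norm_real, Real.norm_eq_abs, abs_of_nonneg (h0 y x)]
        rw [e3]
        calc (∑ y ∈ B0, ahat s A y x) * η ≤ 1 * η := mul_le_mul_of_nonneg_right (hsub x) hη0
          _ = η := one_mul _
    have n3 : n2 (gau (V N)) (fun b => ∑ y ∈ B0, (ahat s A y x : ℂ)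
        * (Pg (ahat s A) (gm s A) (mu y) (cgm s A *ᵥ b)
          - Pg (ahat s A) (gm s A) (mu y) (cutx D1 x (cgm s A *ᵥ b))))
        ≤ Lp * ((2 * ((R0 + D0 : ℕ) : ℝ) + 1) ^ 2 * tl (ahat s A) R
          * (2 * sg (A * ahat s A))) := by
      have hw := n2_wabs (pin (A * ahat s A)) (sg_nonneg _) (sg_row _) T cZ hcZ0 x
      have hw2 : (∑ Z ∈ T, cZ Z) ≤ (2 * ((R0 + D0 : ℕ) : ℝ) + 1) ^ 2 * tl (ahat s A) R := by
        rw [hcZ]
        simp only
        rw [Finset.sum_comm]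
        calc ∑ v ∈ H462.box x (R0 + D0), ∑ Z ∈ T, ahat s A v Z
            ≤ ∑ v ∈ H462.box x (R0 + D0), tl (ahat s A) R := by
              refine Finset.sum_le_sum fun v hv => ?_
              refine le_trans (Finset.sum_le_sum fun Z _ => le_abs_self _) ?_
              exact sum_compl_le (ti_ahat s A) hv hD
          _ = ((H462.box x (R0 + D0)).card : ℝ) * tl (ahat s A) R := by
              rw [Finset.sum_const, nsmul_eq_mul]
          _ ≤ _ := mul_le_mul_of_nonneg_right (H462.card_box x (R0 + D0)) (tl_nonneg _ _)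
      have hpt : ∀ b : V N → ℝ, ‖∑ y ∈ B0, (ahat s A y x : ℂ)
          * (Pg (ahat s A) (gm s A) (mu y) (cgm s A *ᵥ b)
            - Pg (ahat s A) (gm s A) (mu y) (cutx D1 x (cgm s A *ᵥ b)))‖
          ≤ ‖((Lp : ℝ) : ℂ) * ((∑ Z ∈ T, cZ Z * |(pin (A * ahat s A) *ᵥ b) Z
            - (pin (A * ahat s A) *ᵥ b) x| : ℝ) : ℂ)‖ := by
        intro b
        set f : V N → ℝ := cgm s A *ᵥ b with hf
        rw [epin, ← hf]
        set M : ℝ := ∑ Z ∈ T, cZ Z * |f Z - f x| with hM
        have hM0 : 0 ≤ M := Finset.sum_nonneg fun Z _ => mul_nonneg (hcZ0 Z) (abs_nonneg _)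
        rw [norm_mul, Complex.norm_real, Complex.norm_real, Real.norm_eq_abs, Real.norm_eq_abs,
          abs_of_nonneg hLp, abs_of_nonneg hM0]
        refine (norm_sum_le _ _).trans ?_
        calc ∑ y ∈ B0, ‖(ahat s A y x : ℂ) * (Pg (ahat s A) (gm s A) (mu y) f
              - Pg (ahat s A) (gm s A) (mu y) (cutx D1 x f))‖
            ≤ ∑ y ∈ B0, ahat s A y x * (Lp * M) := by
              refine Finset.sum_le_sum fun y hy => ?_
              rw [norm_mul, Complex.norm_real, Real.norm_eq_abs, abs_of_nonneg (h0 y x)]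
              refine mul_le_mul_of_nonneg_left ?_ (h0 y x)
              refine Pg_lip (hμ.m y) (hKm y) (hμ.lip y) _ _ fun v hv => ?_
              have hv2 : v ∈ H462.box x (R0 + D0) := box_trans hy hv
              have e5 : (ahat s A *ᵥ f) v - (ahat s A *ᵥ cutx D1 x f) v
                  = ∑ Z, ahat s A v Z * (f Z - cutx D1 x f Z) := by
                simp only [mulVec, dotProduct]
                rw [← Finset.sum_sub_distrib]
                exact Finset.sum_congr rfl fun Z _ => by ring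
              rw [e5]
              refine (Finset.abs_sum_le_sum_abs _ _).trans ?_
              rw [← Finset.sum_add_sum_compl (H462.box x D1)]
              have hz : ∑ Z ∈ H462.box x D1, |ahat s A v Z * (f Z - cutx D1 x f Z)| = 0 := by
                refine Finset.sum_eq_zero fun Z hZ => ?_
                have e6 : cutx D1 x f Z = f Z := H552.cutB_of_mem hZ f
                rw [e6, sub_self, mul_zero, abs_zero]
              rw [hz, zero_add]
              refine Finset.sum_le_sum fun Z hZ => ?_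
              have e7 : cutx D1 x f Z = f x := by
                unfold cutx cutB
                rw [if_neg (Finset.mem_compl.1 hZ)]
              rw [abs_mul, abs_of_nonneg (h0 v Z), e7]
              refine mul_le_mul_of_nonneg_right ?_ (abs_nonneg _)
              exact Finset.single_le_sum (f := fun v => ahat s A v Z) (fun w _ => h0 w Z) hv2
          _ = (∑ y ∈ B0, ahat s A y x) * (Lp * M) := by rw [Finset.sum_mul]
          _ ≤ 1 * (Lp * M) := mul_le_mul_of_nonneg_right (hsub x) (by positivity)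
          _ = Lp * M := one_mul _
      refine (n2_mono ((memLp_wabs _ T cZ x).const_mul _) hpt).trans ?_
      rw [n2_const_mul, Complex.norm_real, Real.norm_eq_abs, abs_of_nonneg hLp]
      refine mul_le_mul_of_nonneg_left (hw.trans ?_) hLp
      exact mul_le_mul_of_nonneg_right hw2 (by linarith [sg_nonneg (A * ahat s A)])
    have hfin : tn2 (A * ahat s A) (fun F => dn (ahat s A) (gm s A) u x F
        - lamw s A R0 D1 mu x F)
        = n2 (gau (V N)) (fun b => ((∑ y ∈ B0ᶜ, (ahat s A y x : ℂ)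
            * Pg (ahat s A) (gm s A) (u y) (cgm s A *ᵥ b))
          + ∑ y ∈ B0, (ahat s A y x : ℂ)
            * Pg (ahat s A) (gm s A) (fun F => u y F - mu y F) (cgm s A *ᵥ b))
          + ∑ y ∈ B0, (ahat s A y x : ℂ) * (Pg (ahat s A) (gm s A) (mu y) (cgm s A *ᵥ b)
            - Pg (ahat s A) (gm s A) (mu y) (cutx D1 x (cgm s A *ᵥ b)))) := by
      unfold tn2
      rw [epin]
      exact n2_congr fun b => e0 _
    rw [hfin]
    refine (n2_add_le (mT1.add mT2) mT3).trans ?_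
    have := (n2_add_le mT1 mT2).trans (add_le_add n1 n2')
    exact (add_le_add this n3).trans (le_of_eq (by ring))

end

end Vale.Agent.P159.H889
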