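import Vale.Agent.P159.H889.Vpc

/-!
P159 / H889: THE PIECES OF THE V STEP for a fixed `b`, with the exponent `C1` of the cells inside the
order of constants (`P.C0 ≤ C1 ≤ K * P.C0`).
-/

namespace Vale.Agent.P159.H889

open MeasureTheory ProbabilityTheory Finset Matrix
open Vale.Agent.P159.TM.H859 (dirE)
open Vale.Agent.P159.TM.Spec (V)
open Vale.Agent.P159.TM.SpecC (wT)
open Vale.Agent.P159.H145 (mt)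
open Vale.Agent.P159.H363
open Vale.Agent.P159.H462 (Dom ahat)
open Vale.Agent.P159.H896 (Ph om WM Ah Acx Pc lf2 tcf)
open Vale.Agent.P159.H340 (anw)
open Vale.Agent.P159.H733.Torg (pz Two)
open Vale.Agent.P159.H733.Vt (lft)
open Vale.Agent.P159.H767 (A3)
open Vale.Agent.P159.H972 (tn Good RNG FL)
open Vale.Agent.P159.H801 (Ev)
open scoped Real

noncomputable section

/-- the order of constants, `C1` inside -/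
def EvC (b1 b2 pf : ℝ) (Q : ℕ) (K : ℝ) (G : H972.Par → ℝ → ℝ → Prop) : Prop :=
  Ev b1 b2 pf Q fun P c1 => ∀ C1 : ℝ, 1 ≤ C1 → P.C0 ≤ C1 → C1 ≤ K * P.C0 → G P c1 C1

lemma EvC.and {b1 b2 pf : ℝ} {Q : ℕ} {K : ℝ} {F G : H972.Par → ℝ → ℝ → Prop}
    (hF : EvC b1 b2 pf Q K F) (hG : EvC b1 b2 pf Q K G) :
    EvC b1 b2 pf Q K fun P c1 C1 => F P c1 C1 ∧ G P c1 C1 :=
  Ev.mono (Ev.and hF hG) fun _ _ _ h C1 h1 h2 h3 => ⟨h.1 C1 h1 h2 h3, h.2 C1 h1 h2 h3⟩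

lemma EvC.mono {b1 b2 pf : ℝ} {Q : ℕ} {K : ℝ} {F G : H972.Par → ℝ → ℝ → Prop}
    (hF : EvC b1 b2 pf Q K F) (h : ∀ P c1 C1, P.Adm → 1 ≤ C1 → P.C0 ≤ C1 → C1 ≤ K * P.C0 →
      F P c1 C1 → G P c1 C1) : EvC b1 b2 pf Q K G :=
  Ev.mono hF fun P c1 hA h1 C1 a1 a2 a3 => h P c1 C1 hA a1 a2 a3 (h1 C1 a1 a2 a3)

/-- (P1), helper767: the reference forms -/
def BdB (b k0 c0 Cm : ℝ) (P : H972.Par) (c1 C1 : ℝ) : Prop :=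
  ∀ (a : ℝ) (n s : ℕ) (e y : ℝ), CxF P b a C1 c1 n s e y →
    ∀ r, P.TT n e r → ∀ [NeZero (2 ^ r / 2 ^ s)] [NeZero (2 ^ (top P n e) / 2 ^ s)]
      (h : 2 ^ r / 2 ^ s ∣ 2 ^ (top P n e) / 2 ^ s), BR b n s r (top P n e) e a k0 c0 Cm h

/-- (P2) (i), helper733 -/
def BdW (b k0 c0 Cm A1 : ℝ) (P : H972.Par) (c1 C1 : ℝ) : Prop :=
  ∀ (a : ℝ) (n m s : ℕ) (e e' y : ℝ), CxF P b a C1 c1 n s e y →
    Cw P n m e e' → ∀ r, P.TT n e r → m + P.kE e' ≤ r →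
    ∀ [NeZero (2 ^ r / 2 ^ s)] [NeZero (2 ^ (top P n e) / 2 ^ s)]
      (h : 2 ^ r / 2 ^ s ∣ 2 ^ (top P n e) / 2 ^ s), BR b n s r (top P n e) e a k0 c0 Cm h →
      ∃ CC γr, WPar (2 ^ r) (2 ^ s) b (tn n) (tn m) (Mw n m) (Bq b n s r (top P n e) h)
        (Dc A1 n s) CC γr (t0 n s)

/-- (P3), helper358 -/
def BdM (b k0 c0 Cm A0 B : ℝ) (P : H972.Par) (c1 C1 : ℝ) : Prop :=
  ∀ (a : ℝ) (n s : ℕ) (e y : ℝ), CxF P b a C1 c1 n s e y →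
    ∀ r r', P.TT n e r → P.TT n e r' →
    ∀ [NeZero (2 ^ r / 2 ^ s)] [NeZero (2 ^ r' / 2 ^ s)] [NeZero (2 ^ (top P n e) / 2 ^ s)]
      (h : 2 ^ r / 2 ^ s ∣ 2 ^ (top P n e) / 2 ^ s) (h' : 2 ^ r' / 2 ^ s ∣ 2 ^ (top P n e) / 2 ^ s),
      BR b n s r (top P n e) e a k0 c0 Cm h → BR b n s r' (top P n e) e a k0 c0 Cm h' →
      MuR b n s r r' ⌊A0 * Lg n s / lam n s⌋₊ B (Bq b n s r (top P n e) h)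
        (Bq b n s r' (top P n e) h')

/-- (P2) (ii), helper733: the transfer between two tori, from the local approximants -/
def BdT (b k0 c0 Cm A0 A' : ℝ) (P : H972.Par) (c1 C1 : ℝ) : Prop :=
  ∀ (a : ℝ) (n m s : ℕ) (e e' y : ℝ), CxF P b a C1 c1 n s e y →
    Cw P n m e e' → ∀ r r', P.TT n e r → m + P.kE e' ≤ r → P.TT n e r' → m + P.kE e' ≤ r' →
    ∀ [NeZero (2 ^ r / 2 ^ s)] [NeZero (2 ^ r' / 2 ^ s)] [NeZero (2 ^ (top P n e) / 2 ^ s)]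
      (h : 2 ^ r / 2 ^ s ∣ 2 ^ (top P n e) / 2 ^ s) (h' : 2 ^ r' / 2 ^ s ∣ 2 ^ (top P n e) / 2 ^ s),
      BR b n s r (top P n e) e a k0 c0 Cm h → BR b n s r' (top P n e) e a k0 c0 Cm h' →
      MuR b n s r r' ⌊A0 * Lg n s / lam n s⌋₊ 4 (Bq b n s r (top P n e) h)
        (Bq b n s r' (top P n e) h') →
      ∃ D1 R : ℕ, TorIn (2 ^ r) (2 ^ r') (2 ^ s) b (tn n) (tn m) (t0 n s)
        (Bq b n s r (top P n e) h) (Bq b n s r' (top P n e) h') R ⌊A0 * Lg n s / lam n s⌋₊ D1 R ∧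
        (D1 : ℝ) * lam n s ≤ A' * (Mw n m * Lg n s)

/-- (P4), helper375 -/
def BdH (b : ℝ) (P : H972.Par) (c1 C1 : ℝ) : Prop :=
  ∀ (a : ℝ) (n m s s' : ℕ) (e e' y y' : ℝ), CxF P b a C1 c1 n s e y →
    Cw P n m e e' → Cy P b C1 c1 m s s' e e' y y' → ∀ r, P.TT n e r → m + P.kE e' ≤ r →
    ∀ [NeZero (2 ^ r / 2 ^ s)] [NeZero (2 ^ r / 2 ^ s / 2 ^ (s' - s))]
      [NeZero (2 ^ r / (2 ^ s * 2 ^ (s' - s)))],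
      ∑ k, rel (Acx (2 ^ r) (2 ^ s) (2 ^ (s' - s)) b (tn n) (tn n) (tn m))
        (anw (2 ^ r) (2 ^ s) (2 ^ (s' - s)) b (tn m)) k ^ 2 ≤ hS e ^ 2

/-- (P5), helper640 -/
def BdN (b A' : ℝ) (P : H972.Par) (c1 C1 : ℝ) : Prop :=
  ∀ (a : ℝ) (n m s s' : ℕ) (e e' y y' : ℝ), CxF P b a C1 c1 n s e y →
    Cw P n m e e' → Cy P b C1 c1 m s s' e e' y y' → ∀ r, P.TT n e r → m + P.kE e' ≤ r →
    ∀ D1 : ℕ, (D1 : ℝ) * lam n s ≤ A' * (Mw n m * Lg n s) → ∀ [NeZero (2 ^ r / 2 ^ s)],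
    ∃ c s₀ : ℝ, Dom (acl (2 ^ r) (2 ^ s) b (tn n) (tn n)) (tn n * ((2 ^ s : ℕ) : ℝ) ^ 2) c ∧
      16 * ((2 ^ (s' - s) : ℕ) : ℝ) ^ 2 * (tn m * ((2 ^ s : ℕ) : ℝ) ^ 2) / c ≤ 1 / 2 ∧
      (1 - (tn m * ((2 ^ s : ℕ) : ℝ) ^ 2)⁻¹ • Ah (2 ^ r) (2 ^ s) b (tn n) (tn n) (tn m)) 0 0 ≤ s₀ ∧
      2 * (2 ^ r / 2 ^ s : ℕ) * (16 * ((2 ^ (s' - s) : ℕ) : ℝ) ^ 2 *
        (tn m * ((2 ^ s : ℕ) : ℝ) ^ 2) / c) * √s₀ ≤ 1 ∧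
      2 * (2 ^ r / 2 ^ s : ℕ) * √(16 * ((2 ^ (s' - s) : ℕ) : ℝ) ^ 2 *
        (tn m * ((2 ^ s : ℕ) : ℝ) ^ 2) / c * s₀) ≤ 1 ∧
      gce (2 ^ r / 2 ^ s) (2 ^ (s' - s)) (tn m * ((2 ^ s : ℕ) : ℝ) ^ 2) c s₀ ≤ tA n s ∧
      2 * π ^ 2 * (32 * ((2 ^ (s' - s) : ℕ) : ℝ) ^ 2 / c * s₀) ≤ tA n s ∧
      4 * (t0 n s * Mw n m ^ 2 / (tn n * ((2 ^ s : ℕ) : ℝ) ^ 2))
        + Mw n m ^ 2 * (2 * ((2 ^ r / 2 ^ s : ℕ) * √(16 * ((2 ^ (s' - s) : ℕ) : ℝ) ^ 2 *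
            (tn m * ((2 ^ s : ℕ) : ℝ) ^ 2) / c * s₀)))
        + Mw n m ^ 2 * (√(2 * (2 * (D1 : ℝ) + 1)) * (((2 ^ (s' - s) : ℕ) : ℝ) ^ 2 * √(c⁻¹ * s₀)))
        + 3 * Mw n m ^ 2 * tQ e ≤ tA m s'

/-- (P6), helper197 -/
def BdG (b k0 c0 Cm : ℝ) (P : H972.Par) (c1 C1 : ℝ) : Prop :=
  ∀ (a : ℝ) (n m s : ℕ) (e e' y : ℝ), CxF P b a C1 c1 n s e y →
    Cw P n m e e' → ∀ r, P.TT n e r → m + P.kE e' ≤ r →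
    ∀ [NeZero (2 ^ r / 2 ^ s)] [NeZero (2 ^ (top P n e) / 2 ^ s)]
      (h : 2 ^ r / 2 ^ s ∣ 2 ^ (top P n e) / 2 ^ s), BR b n s r (top P n e) e a k0 c0 Cm h →
      |Real.log (GF (Mw n m) (sn (2 ^ s) (tn n) (tn m)) (nu n s) (Bq b n s r (top P n e) h)) -
        (2 - π / a) * ((m : ℝ) - n) * Real.log 2| ≤ e ^ (87 / 100 : ℝ)

/-- (P7), helper43 -/
def BdO (b : ℝ) (P : H972.Par) (c1 C1 : ℝ) : Prop :=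
  ∀ (a : ℝ) (n m s : ℕ) (e e' y g : ℝ), CxF P b a C1 c1 n s e y →
    Cw P n m e e' → 0 ≤ g → g ≤ 1 / 2 → CH2 P b n e (y * e ^ g) → ∀ r, P.TT n e r →
      (∀ [NeZero (2 ^ r / 2 ^ s)] (F : V (2 ^ r / 2 ^ s) → ℝ),
        ‖Ph (wT b (2 ^ r)) (mt (2 ^ r) (tn n)) 1 (lf (2 ^ r) (2 ^ s) F)
          - Wc (2 ^ r) (2 ^ s) b (tn n) F‖ ≤ y * e ^ (1 / 2 + g)) ∧
      om (wT b (2 ^ r)) (mt (2 ^ r) (tn n)) 1 ≤ y * QP P e ^ 3 ∧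
      om (wT b (2 ^ r)) (mt (2 ^ r) (tn m)) 1 ≤ y * QP P e ^ 3

/-- (P8), helper896: the functional of the next level on the typical fields -/
def BdE (b : ℝ) (P : H972.Par) (c1 C1 : ℝ) : Prop :=
  ∀ (a : ℝ) (n m s s' : ℕ) (e e' y y' : ℝ), CxF P b a C1 c1 n s e y →
    Cw P n m e e' → Cy P b C1 c1 m s s' e e' y y' → ∀ r, P.TT n e r → m + P.kE e' ≤ r →
    ∀ [NeZero (2 ^ r / 2 ^ s)] [NeZero (2 ^ r / 2 ^ s / 2 ^ (s' - s))]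
      [NeZero (2 ^ r / (2 ^ s * 2 ^ (s' - s)))],
      tn2 (Acx (2 ^ r) (2 ^ s) (2 ^ (s' - s)) b (tn n) (tn n) (tn m)) (fun f' =>
        Ph (wT b (2 ^ r)) (mt (2 ^ r) (tn m)) 1 (lf2 (2 ^ r) (2 ^ s) (2 ^ (s' - s)) f')
          - Pc (2 ^ r) (2 ^ s) (2 ^ (s' - s)) b (tn n) (tn n) (tn m)
            (Wc (2 ^ r) (2 ^ s) b (tn n)) f') ≤ y * e ^ (9 / 10 : ℝ)

end

end Vale.Agent.P159.H889
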