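import Vale.Agent.P159.H889.Vstp2

/-!
P159 / H889: THE GENERAL STEP, corrected cell part: the functional of the next level costs `E1`
(the change of the functional of the old level), and the torus is admissible at both levels.
-/

namespace Vale.Agent.P159.H889

open MeasureTheory ProbabilityTheory Finset Matrix
open Vale.Agent.P159.TM.Spec (V)
open Vale.Agent.P159.TM.SpecC (wT)
open Vale.Agent.P159.H145 (mt)
open Vale.Agent.P159.H363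
open Vale.Agent.P159.H972 (tn Good RNG FL)
open scoped Real

noncomputable section

variable {P : H972.Par} {b a C1 c1 A1 A' : ℝ} {n m s : ℕ} {e e' y E1 : ℝ}

lemma TV.tt {r : ℕ} (h : TV P n e r) : P.TT n e r := by
  refine ⟨h.1, h.2.trans ?_⟩
  have : (P.q0 - 2) * (4 * P.w e) ≤ P.q0 * (4 * P.w e) := Nat.mul_le_mul_right _ (by omega)
  omega

/-- **the pieces of the step** `n -> m` -/
structure Pcs2 (P : H972.Par) (b a C1 c1 A1 A' : ℝ) (n m s : ℕ) (e e' y E1 : ℝ) : Prop where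
  win : ∀ (r : ℕ) [NeZero (2 ^ r / 2 ^ s)] [NeZero (2 ^ (top P n e) / 2 ^ s)]
    (h : 2 ^ r / 2 ^ s ∣ 2 ^ (top P n e) / 2 ^ s), P.TT n e r → m + P.kE e' ≤ r →
    ∃ CC γr, WinIn (2 ^ r) (2 ^ s) b (tn n) (tn m) (Mw n m) (QP P e) (hS e) (tA n s)
      (Bq b n s r (top P n e) h) (Dc A1 n s) CC γr E1 ∧
      Mw n m ^ 2 * γr ≤ Mw n m ^ (1 / 10 : ℝ) ∧ Mw n m ^ 2 * CC ≤ Mw n m ^ (-(4 / 5) : ℝ)
  gf : ∀ (r : ℕ) [NeZero (2 ^ r / 2 ^ s)] [NeZero (2 ^ (top P n e) / 2 ^ s)]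
    (h : 2 ^ r / 2 ^ s ∣ 2 ^ (top P n e) / 2 ^ s), P.TT n e r → m + P.kE e' ≤ r →
    |Real.log (GF (Mw n m) (sn (2 ^ s) (tn n) (tn m)) (nu n s) (Bq b n s r (top P n e) h)) -
      (2 - π / a) * ((m : ℝ) - n) * Real.log 2| ≤ e ^ (87 / 100 : ℝ)
  tor : ∀ (r r' : ℕ) [NeZero (2 ^ r / 2 ^ s)] [NeZero (2 ^ r' / 2 ^ s)]
    [NeZero (2 ^ (top P n e) / 2 ^ s)]
    (h : 2 ^ r / 2 ^ s ∣ 2 ^ (top P n e) / 2 ^ s) (h' : 2 ^ r' / 2 ^ s ∣ 2 ^ (top P n e) / 2 ^ s),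
    P.TT n e r → m + P.kE e' ≤ r → P.TT n e r' → m + P.kE e' ≤ r' →
    ∃ R0 D0 D1 R : ℕ, TorIn (2 ^ r) (2 ^ r') (2 ^ s) b (tn n) (tn m) (t0 n s)
      (Bq b n s r (top P n e) h) (Bq b n s r' (top P n e) h') R0 D0 D1 R ∧
      (D1 : ℝ) * lam n s ≤ A' * (Mw n m * Lg n s)
  cell : ∀ (r s' D1 : ℕ) (y' : ℝ) [NeZero (2 ^ r / 2 ^ s)] [NeZero (2 ^ (top P n e) / 2 ^ s)]
    [NeZero (2 ^ r / 2 ^ s / 2 ^ (s' - s))] [NeZero (2 ^ r / (2 ^ s * 2 ^ (s' - s)))]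
    (h : 2 ^ r / 2 ^ s ∣ 2 ^ (top P n e) / 2 ^ s), P.TT n e r → P.TT m e' r →
    Cx P b C1 c1 m s' e' y' → e ^ (1 / 100 : ℝ) * y ≤ y' → e ^ (1 / 100 : ℝ) * y' ≤ y → s ≤ s' →
    (D1 : ℝ) * lam n s ≤ A' * (Mw n m * Lg n s) →
    CellIn (2 ^ r) (2 ^ s) (2 ^ (s' - s)) b (tn n) (tn m) (Mw n m) (QP P e) (hS e) (tA n s) (tQ e)
      (tA m s') (t0 n s) (Bq b n s r (top P n e) h) D1 (Dc A1 m s')
      (y * e ^ (9 / 10 : ℝ) + E1) (y * (QP P e ^ 4 * hS e))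

/-- **THE GENERAL STEP OF THE CHARGED SECTOR**, the old state is used on ONE torus only -/
theorem step_core2 (hb : 0 < b) (hC1 : 0 < C1) (hC : Cx P b C1 c1 n s e y)
    (hN : Nm P n m s e e' y) (hP : Pcs2 P b a C1 c1 A1 A' n m s e e' y E1)
    (ha : 1 ≤ a) (ha2 : a ≤ 8 / 5)
    (hnm : n ≤ m) (htt : ∀ r, TV P m e' r → P.TT n e r)
    (htt1 : P.TT n e (m + P.kE e'))
    {ζ : ℂ} {Δ E : ℝ} (hζ : ζ ≠ 0) (hζ1 : ‖ζ‖ ≤ 1) (hΔ2 : Δ ≤ 2) (hE : 0 ≤ E)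
    (hSV : SV1 P b A1 n s e (m + P.kE e') ζ Δ E) :
    ∃ ζ' : ℂ, ‖ζ' - ζ * ((Real.exp ((2 - π / a) * ((m : ℝ) - n) * Real.log 2) : ℝ) : ℂ)‖
        ≤ Mw n m ^ (1 / 10 : ℝ) * WX (QP P e) (hS e) (tA n s) ‖ζ‖ Δ
          + 2 * ‖ζ‖ * Real.exp ((2 - π / a) * ((m : ℝ) - n) * Real.log 2) * e ^ (87 / 100 : ℝ) ∧
      ∀ (s' : ℕ) (y' : ℝ), Cx P b C1 c1 m s' e' y' → e ^ (1 / 100 : ℝ) * y ≤ y' →
        e ^ (1 / 100 : ℝ) * y' ≤ y → s ≤ s' →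
        SV P b A1 m s' e' ζ' (Mw n m ^ (-(3 / 4) : ℝ) * Δ + QP P e ^ 3 * (2 * E + E1)
          + QP P e ^ 2 * ((‖ζ‖ + ‖ζ'‖) * hS e) + (e * y) ^ 2)
          (3 * (y * (QP P e ^ 4 * hS e)) + 2 * E1) := by
  have hsn := hC.sn hC1
  have hM2 := hN.M2
  have hMQ := hN.MQ
  have hQ20 := hN.Q20
  have hM0 : 0 < Mw n m := Mw_pos n m
  have hQ0 : 0 < QP P e := by linarith
  have hs1 : s ≤ m + P.kE e' := by omega
  have htop1 : m + P.kE e' ≤ top P n e := htt1.2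
  have := nz_pow hs1
  have : NeZero (2 ^ (top P n e) / 2 ^ s) := nz_pow (hs1.trans htop1)
  have h1 := pow_div_dvd hs1 htop1
  obtain ⟨CC, γr, hW, g1, g2⟩ := hP.win (m + P.kE e') h1 htt1 le_rfl
  obtain ⟨Lp, hV⟩ := hSV
  have S := hC.sz hC1 hN
  have hgf := hP.gf (m + P.kE e') h1 htt1 le_rfl
  have he1 : e ^ (87 / 100 : ℝ) ≤ 1 :=
    Real.rpow_le_one hC.e0.le (by linarith [hC.e1]) (by norm_num)
  have hG0 := G0_le (n := n) (m := m) ha ha2 (by linarith)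
  have hGp : 0 < GF (Mw n m) (sn (2 ^ s) (tn n) (tn m)) (nu n s)
    (Bq b n s (m + P.kE e') (top P n e) h1) := GF_pos hM0 _
  have hMt : ∀ c : ℝ, c ≤ 1 → Mw n m ^ c ≤ QP P e := by
    intro c hc
    refine le_trans ?_ hMQ
    calc Mw n m ^ c ≤ Mw n m ^ (1 : ℝ) := Real.rpow_le_rpow_of_exponent_le (by linarith) hc
      _ = _ := Real.rpow_one _
  have hG : GF (Mw n m) (sn (2 ^ s) (tn n) (tn m)) (nu n s)
      (Bq b n s (m + P.kE e') (top P n e) h1) ≤ QP P e ^ 2 := by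
    rw [← Real.exp_log hGp]
    have h2 := (abs_le.1 hgf).2
    have h3 : Real.log (GF (Mw n m) (sn (2 ^ s) (tn n) (tn m)) (nu n s)
        (Bq b n s (m + P.kE e') (top P n e) h1)) ≤
        1 + (2 - π / a) * ((m : ℝ) - n) * Real.log 2 := by linarith
    refine (Real.exp_le_exp.2 h3).trans ?_
    rw [Real.exp_add]
    have h4 : Real.exp 1 ≤ 3 := by linarith [Real.exp_one_lt_d9]
    have h5 := hMt (1 / 20) (by norm_num)
    calc Real.exp 1 * Real.exp ((2 - π / a) * ((m : ℝ) - n) * Real.log 2)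
        ≤ QP P e * QP P e := mul_le_mul (by linarith) (hG0.trans h5) (Real.exp_pos _).le hQ0.le
      _ = _ := by ring
  have hτ0 := (tA_pos n s).le
  have hh0 : 0 < hS e := Real.rpow_pos_of_pos hC.e0 _
  have hx0 := hC.x0
  have hx1 : (e * y) ^ 2 ≤ 1 := pow_le_one₀ hx0.le (by linarith [hC.xle, hC.e1])
  have hQτ := hN.Qτ
  have hWX : WX (QP P e) (hS e) (tA n s) ‖ζ‖ Δ ≤ 9 := by
    unfold WX
    have b1 : ‖ζ‖ * hS e ≤ 1 * (1 / 2) := mul_le_mul hζ1 hN.h2 hh0.le zero_le_one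
    have b2 : QP P e ^ 2 * tA n s ≤ QP P e ^ 6 * tA n s :=
      mul_le_mul_of_nonneg_right (pow_le_pow_right₀ (by linarith) (by norm_num)) hτ0
    linarith
  have hΔ0 : 0 ≤ Δ := by
    obtain ⟨Ψ, ψ, lm, -, -, hden, -⟩ := hV.ex
    exact nonneg_of_mul_nonneg_left ((tn2_nonneg _ _).trans (hden.dev 0)) (nu_pos n s)
  have hWX0 : 0 ≤ WX (QP P e) (hS e) (tA n s) ‖ζ‖ Δ := by
    unfold WX
    have := norm_nonneg ζ
    positivity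
  have hκS : Mw n m ^ 2 * γr * WX (QP P e) (hS e) (tA n s) ‖ζ‖ Δ ≤
      Mw n m ^ (1 / 10 : ℝ) * WX (QP P e) (hS e) (tA n s) ‖ζ‖ Δ :=
    mul_le_mul_of_nonneg_right g1 hWX0
  have hS2 : Mw n m ^ 2 * γr * WX (QP P e) (hS e) (tA n s) ‖ζ‖ Δ ≤ QP P e ^ 2 := by
    refine hκS.trans ?_
    calc Mw n m ^ (1 / 10 : ℝ) * WX (QP P e) (hS e) (tA n s) ‖ζ‖ Δ ≤ QP P e * QP P e :=
          mul_le_mul (hMt _ (by norm_num)) (hWX.trans (by linarith)) hWX0 hQ0.le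
      _ = _ := by ring
  obtain ⟨κ, k1, k2, k3⟩ := VB.stepM hb (pow_dvd_pow 2 hs1) S hζ (hζ1.trans (by linarith))
    hV hE hW hG hS2
  refine ⟨ζ * ((GF (Mw n m) (sn (2 ^ s) (tn n) (tn m)) (nu n s)
    (Bq b n s (m + P.kE e') (top P n e) h1) : ℂ) + κ), ?_, ?_⟩
  · exact coef_num hGp hgf he1 (k1.trans hκS)
  · intro s' y' hC' hy hy2 hss r2 hr2 _
    have hs'm := hC'.sn hC1
    have hmr : m + P.kE e' ≤ r2 := hr2.1
    have htt2 := htt r2 hr2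
    have := nz_pow (show s ≤ r2 by omega)
    have e2 : 2 ^ s * 2 ^ (s' - s) = 2 ^ s' := by rw [← pow_add, Nat.add_sub_cancel' hss]
    have : NeZero (2 ^ r2 / (2 ^ s * 2 ^ (s' - s))) := by
      rw [e2]
      exact nz_pow (by omega)
    have : NeZero (2 ^ r2 / 2 ^ s / 2 ^ (s' - s)) := by
      rw [Nat.div_div_eq_div_mul]
      infer_instance
    have h2 := pow_div_dvd (show s ≤ r2 by omega) (htt2.2 : r2 ≤ top P n e)
    have hρ : 2 ^ (s' - s) ∣ 2 ^ r2 / 2 ^ s := by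
      rw [Nat.pow_div (by omega) two_pos]
      exact pow_dvd_pow 2 (by omega)
    obtain ⟨R0, D0, D1, R, hT, hD1⟩ := hP.tor (m + P.kE e') r2 h1 h2 htt1 le_rfl htt2 hmr
    have hCe := hP.cell r2 s' D1 y' h2 htt2 hr2.tt hC' hy hy2 hss hD1
    have k4 := k3 (2 ^ r2) (2 ^ (s' - s)) (pow_dvd_pow 2 (by omega)) hρ (t0 n s) (tQ e) (tA m s')
      (y * e ^ (9 / 10 : ℝ) + E1) (y * (QP P e ^ 4 * hS e)) (Dc A1 m s') R0 D0 D1 R
      (Bq b n s r2 (top P n e) h2) hN.tqq hN.τ0 hT hCe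
    have k5 := VB.castl e2 k4
    rw [e2] at k5
    have hνp := (nu_pos m s').le
    refine ⟨_, SB.mono k5 ?_ le_rfl le_rfl le_rfl ?_ ?_ ?_⟩
    · refine mul_le_mul_of_nonneg_right ?_ hνp
      exact dev_num (by linarith) hN.M32 hMQ hQ20 g2 hΔ0 hE hW.e10 (norm_nonneg _)
        (norm_nonneg _) hh0.le hτ0 hQτ
    · have b1 := hN.Qb
      linarith
    · exact mul_le_mul_of_nonneg_right (pow_le_pow_left₀ hM0.le hN.MQ' 2) hνp
    · exact hN.sz r2 hr2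


end

end Vale.Agent.P159.H889
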