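import Vale.Agent.P159.H801.ParEv

/-!
P159 / H889: the order of constants for number lemmas: only `th, thp, q0, c1` and `es` matter.
-/

namespace Vale.Agent.P159.H889

open Filter Topology
open Vale.Agent.P159.H801 (Ev PS)

noncomputable section

/-- a property which holds for all small `th + 4 q0 thp` and `c1 ≤ κ th`, `es ≤ E0` -/
theorem ev_num {b1 b2 pf ρ0 κ : ℝ} {Q : ℕ} {F : H972.Par → ℝ → Prop} (hρ : 0 < ρ0) (hκ : 0 < κ)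
    (H : ∀ (th thp : ℝ) (q0 : ℕ), 0 < th → 0 < thp → th ≤ thp → 2 ≤ q0 →
      th + 4 * q0 * thp ≤ ρ0 → ∀ c1 : ℝ, 0 < c1 → c1 ≤ κ * th → ∃ E0 : ℝ, 0 < E0 ∧
      ∀ P : H972.Par, P.Adm → P.th = th → P.thp = thp → P.q0 = q0 → P.es ≤ E0 →
        P.b1 = b1 → P.b2 = b2 → P.pf = pf → F P c1) :
    Ev b1 b2 pf Q F := by
  refine Ev.of ⟨0, fun W _ => ⟨1, one_pos, fun ys _ _ => ⟨0, fun X0 _ => ?_⟩⟩⟩
  refine ⟨ρ0 / 16, by positivity, fun x1 hx0 hx1 => ?_⟩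
  have hQ3 : (0 : ℝ) < (Q : ℝ) + 3 := by positivity
  refine ⟨ρ0 / (16 * ((Q : ℝ) + 3)), by positivity, fun thp ht0 ht1 => ?_⟩
  refine ⟨min thp (ρ0 / 4), by positivity, fun th hs0 hs1 => ⟨0, fun C0 _ => ?_⟩⟩
  refine ⟨κ * th, by positivity, fun c1 hc0 hc1 => ?_⟩
  have hth : th ≤ thp := hs1.trans (min_le_left _ _)
  have hsum : th + 4 * ((Q + ⌈x1 / thp⌉₊ + 2 : ℕ) : ℝ) * thp ≤ ρ0 := by
    have h2 : (⌈x1 / thp⌉₊ : ℝ) ≤ x1 / thp + 1 := (Nat.ceil_lt_add_one (by positivity)).le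
    have h3 : (⌈x1 / thp⌉₊ : ℝ) * thp ≤ x1 + thp := by
      calc (⌈x1 / thp⌉₊ : ℝ) * thp ≤ (x1 / thp + 1) * thp := by gcongr
        _ = x1 + thp := by field_simp
    have h4 : th ≤ ρ0 / 4 := hs1.trans (min_le_right _ _)
    have h5 : ((Q : ℝ) + 3) * thp ≤ ρ0 / 16 := by
      rw [le_div_iff₀ (by positivity)] at ht1
      linarith
    push_cast
    nlinarith
  obtain ⟨E0, hE0, hE⟩ := H th thp (Q + ⌈x1 / thp⌉₊ + 2) hs0 ht0 hth (by omega) hsum c1 hc0 hc1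
  exact ⟨E0, hE0, fun P hP => hE P hP.adm hP.eth hP.ethp hP.eq0 hP.ees hP.eb1 hP.eb2 hP.epf⟩

/-- a property which holds for all small `th + 4 q0 thp`, large `C0`, `c1 ≤ κ th`, `es ≤ E0` -/
theorem ev_numC {b1 b2 pf ρ0 κ Cmin : ℝ} {Q : ℕ} {F : H972.Par → ℝ → Prop} (hρ : 0 < ρ0)
    (hκ : 0 < κ)
    (H : ∀ (th thp : ℝ) (q0 : ℕ), 0 < th → 0 < thp → th ≤ thp → 2 ≤ q0 →
      th + 4 * q0 * thp ≤ ρ0 → ∀ C0 : ℝ, Cmin ≤ C0 → ∀ c1 : ℝ, 0 < c1 → c1 ≤ κ * th →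
      ∃ E0 : ℝ, 0 < E0 ∧
      ∀ P : H972.Par, P.Adm → P.th = th → P.thp = thp → P.q0 = q0 → P.C0 = C0 → P.es ≤ E0 →
        P.b1 = b1 → P.b2 = b2 → P.pf = pf → F P c1) :
    Ev b1 b2 pf Q F := by
  refine Ev.of ⟨0, fun W _ => ⟨1, one_pos, fun ys _ _ => ⟨0, fun X0 _ => ?_⟩⟩⟩
  refine ⟨ρ0 / 16, by positivity, fun x1 hx0 hx1 => ?_⟩
  have hQ3 : (0 : ℝ) < (Q : ℝ) + 3 := by positivity
  refine ⟨ρ0 / (16 * ((Q : ℝ) + 3)), by positivity, fun thp ht0 ht1 => ?_⟩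
  refine ⟨min thp (ρ0 / 4), by positivity, fun th hs0 hs1 => ⟨Cmin, fun C0 hC0 => ?_⟩⟩
  refine ⟨κ * th, by positivity, fun c1 hc0 hc1 => ?_⟩
  have hth : th ≤ thp := hs1.trans (min_le_left _ _)
  have hsum : th + 4 * ((Q + ⌈x1 / thp⌉₊ + 2 : ℕ) : ℝ) * thp ≤ ρ0 := by
    have h2 : (⌈x1 / thp⌉₊ : ℝ) ≤ x1 / thp + 1 := (Nat.ceil_lt_add_one (by positivity)).le
    have h3 : (⌈x1 / thp⌉₊ : ℝ) * thp ≤ x1 + thp := by
      calc (⌈x1 / thp⌉₊ : ℝ) * thp ≤ (x1 / thp + 1) * thp := by gcongr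
        _ = x1 + thp := by field_simp
    have h4 : th ≤ ρ0 / 4 := hs1.trans (min_le_right _ _)
    have h5 : ((Q : ℝ) + 3) * thp ≤ ρ0 / 16 := by
      rw [le_div_iff₀ (by positivity)] at ht1
      linarith
    push_cast
    nlinarith
  obtain ⟨E0, hE0, hE⟩ := H th thp (Q + ⌈x1 / thp⌉₊ + 2) hs0 ht0 hth (by omega) hsum C0 hC0 c1 hc0
    hc1
  exact ⟨E0, hE0, fun P hP => hE P hP.adm hP.eth hP.ethp hP.eq0 hP.eC0 hP.ees hP.eb1 hP.eb2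
    hP.epf⟩

/-- the last parameter times a constant -/
theorem ev_mul {b1 b2 pf k : ℝ} {Q : ℕ} {F : H972.Par → ℝ → Prop} (hk : 0 < k)
    (h : Ev b1 b2 pf Q F) : Ev b1 b2 pf Q fun P c1 => F P (k * c1) := by
  unfold Ev at *
  filter_upwards [h] with W h1
  filter_upwards [h1] with ys h2
  filter_upwards [h2] with X0 h3
  filter_upwards [h3] with x1 h4
  filter_upwards [h4] with thp h5
  filter_upwards [h5] with th h6
  filter_upwards [h6] with C0 h7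
  have ht : Tendsto (fun c : ℝ => k * c) (𝓝[>] 0) (𝓝[>] 0) := by
    refine tendsto_nhdsWithin_iff.2 ⟨?_, ?_⟩
    · have : Tendsto (fun c : ℝ => k * c) (𝓝 0) (𝓝 (k * 0)) := tendsto_id.const_mul k
      rw [mul_zero] at this
      exact this.mono_left nhdsWithin_le_nhds
    · filter_upwards [self_mem_nhdsWithin] with c hc
      exact mul_pos hk hc
  exact ht.eventually h7

/-- a property of the parameters alone -/
theorem ev_true {b1 b2 pf : ℝ} {Q : ℕ} {F : H972.Par → ℝ → Prop} (h : ∀ P c1, P.Adm →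
    P.b1 = b1 → P.b2 = b2 → P.pf = pf → F P c1) : Ev b1 b2 pf Q F :=
  ev_num one_pos one_pos fun _ _ _ _ _ _ _ _ c1 _ _ => ⟨1, one_pos, fun P hA _ _ _ _ h1 h2 h3 =>
    h P c1 hA h1 h2 h3⟩

end

end Vale.Agent.P159.H889
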