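import Vale.Agent.P159.H889.Vstp2

/-!
P159 / H889: THE NUMBERS OF THE STEP (`Nm`) from the context, small `e`.
-/

namespace Vale.Agent.P159.H889

open Vale.Agent.P159.H972 (tn lg)
open Vale.Agent.P159.H640 (sm_rpow sm_exp lg_hi lg_lo TT_pow)

noncomputable section

variable {P : H972.Par} {b C1 c1 : ℝ} {n m s s' : ℕ} {e e' y y' : ℝ}

lemma Cw.nm (hw : Cw P n m e e') : n ≤ m := by
  have := hw.w1
  omega

lemma Cw.e'0 (hw : Cw P n m e e') (he : 0 < e) : 0 < e' := lt_of_lt_of_le (by linarith) hw.lo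

/-- lower bound of the window -/
lemma Cw.Mlo (hw : Cw P n m e e') : (2 : ℝ) ^ ((P.w e : ℝ) / 20) ≤ Mw n m := by
  rw [Mw_pow hw.nm, ← Real.rpow_natCast]
  refine Real.rpow_le_rpow_of_exponent_le one_le_two ?_
  rw [Nat.cast_sub hw.nm, div_le_iff₀ (by norm_num)]
  have := hw.w1
  have h2 : ((20 * n + P.w e : ℕ) : ℝ) ≤ ((20 * m : ℕ) : ℝ) := by exact_mod_cast this
  push_cast at h2
  linarith

/-- upper bound of the window -/
lemma Cw.Mhi (hw : Cw P n m e e') (he : 0 < e) (he1 : e ≤ 1) :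
    Mw n m ≤ 16 * e ^ (-(4 * P.thp)) := by
  rw [Mw_pow hw.nm]
  have h1 : (2 : ℝ) ^ P.w e ≤ 2 * e ^ (-P.thp) := lg_hi P.thp0.le he he1
  calc (2 : ℝ) ^ (m - n) ≤ 2 ^ (4 * P.w e) :=
        pow_le_pow_right₀ one_le_two (by have := hw.w2; omega)
    _ = (2 ^ P.w e) ^ 4 := by rw [← pow_mul, mul_comm]
    _ ≤ (2 * e ^ (-P.thp)) ^ 4 := pow_le_pow_left₀ (by positivity) h1 4
    _ = 16 * e ^ (-(4 * P.thp)) := by
        rw [mul_pow, ← Real.rpow_natCast (e ^ (-P.thp)), ← Real.rpow_mul he.le]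
        norm_num
        congr 1
        ring

lemma QP_pos (P : H972.Par) {e : ℝ} (he : 0 < e) : 0 < QP P e := Real.rpow_pos_of_pos he _

lemma QP_pow (P : H972.Par) {e : ℝ} (he : 0 < e) (k : ℕ) :
    QP P e ^ k = e ^ (-(k * (P.th + 4 * P.q0 * P.thp))) := by
  unfold QP
  rw [← Real.rpow_natCast, ← Real.rpow_mul he.le]
  congr 1
  ring

/-- the tail of the law change -/
lemma tq_eq (η : ℝ) : tq η = √2 * Real.exp (-(Real.log 2 / (2 * η))) := by
  unfold tq tk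
  congr 1
  rw [Real.sqrt_eq_rpow, ← Real.rpow_mul (by norm_num), Real.rpow_def_of_pos (by norm_num)]
  congr 1
  rw [show (4 : ℝ) = 2 ^ 2 by norm_num, Real.log_pow]
  push_cast
  ring

lemma tq_hS {e : ℝ} (he : 0 < e) : tq (hS e) ≤
    2 * Real.exp (-(Real.log 2 / 2 * e ^ (-(22 / 25) : ℝ))) := by
  rw [tq_eq]
  have h1 : √(2 : ℝ) ≤ 2 := by
    rw [Real.sqrt_le_left (by norm_num)]
    norm_num
  have h2 : Real.log 2 / (2 * hS e) = Real.log 2 / 2 * e ^ (-(22 / 25) : ℝ) := by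
    unfold hS
    rw [Real.rpow_neg he.le]
    field_simp
  rw [h2]
  exact mul_le_mul_of_nonneg_right h1 (Real.exp_pos _).le

/-- an exponential of a small power is larger than the tail -/
lemma exp_cmp {α β c A : ℝ} (h : α < β) (hc : 0 < c) : ∃ E0 : ℝ, 0 < E0 ∧
    ∀ e : ℝ, 0 < e → e ≤ E0 → A * e ^ (-α) ≤ c * e ^ (-β) := by
  obtain ⟨E0, hE0, hE⟩ := sm_rpow (s := β - α) (A := A) (sub_pos.2 h) hc
  refine ⟨E0, hE0, fun e he hle => ?_⟩
  have h1 := hE e he hle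
  have h2 : e ^ (-α) = e ^ (β - α) * e ^ (-β) := by
    rw [← Real.rpow_add he]
    congr 1
    ring
  rw [h2, ← mul_assoc]
  exact mul_le_mul_of_nonneg_right h1 (Real.rpow_nonneg he.le _)

lemma Cx.y_lo (h : Cx P b C1 c1 n s e y) : Real.exp (-(e ^ (-c1))) ≤ y := by
  have h1 := h.yL
  rw [one_div, Real.log_inv] at h1
  calc Real.exp (-(e ^ (-c1))) ≤ Real.exp (Real.log y) := Real.exp_le_exp.2 (by linarith)
    _ = y := Real.exp_log h.y0

/-- **the numbers of the step**, uniformly in the exponent of the cells -/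
theorem nm_exC {Cm c1 th thp : ℝ} {q0 : ℕ} (hCm : 0 < Cm) (hc1 : 0 < c1) (hc1' : c1 ≤ 1 / 10)
    (hq : 2 ≤ q0) (hth : 0 < th) (hthp : 0 < thp) (hρ : th + 4 * q0 * thp ≤ 1 / 40) :
    ∃ E0 : ℝ, 0 < E0 ∧ ∀ P : H972.Par, P.th = th → P.thp = thp → P.q0 = q0 →
      ∀ C1 : ℝ, 24 ≤ C1 → C1 ≤ Cm →
      ∀ (b : ℝ) (n m s : ℕ) (e e' y : ℝ), e ≤ E0 → Cx P b C1 c1 n s e y → Cw P n m e e' →
      Nm P n m s e e' y := by
  have hl2 := Real.log_pos one_lt_two
  have hq' : (2 : ℝ) ≤ q0 := by exact_mod_cast hq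
  obtain ⟨ρ, hρd⟩ : ∃ ρ, ρ = th + 4 * q0 * thp := ⟨_, rfl⟩
  rw [← hρd] at hρ
  have hρ8 : 8 * thp < ρ := by
    rw [hρd]
    nlinarith
  have hρ0 : 0 < ρ := by linarith
  obtain ⟨e1, p1, n1⟩ := sm_rpow (s := thp / 400) (A := 32) (by positivity) one_pos
  obtain ⟨e2, p2, n2⟩ := sm_rpow (s := 19 / 20 * ρ - 4 * thp) (A := 2 ^ (5 + 4 * q0))
    (by linarith) one_pos
  obtain ⟨e3, p3, n3⟩ := sm_rpow (s := ρ) (A := 20) hρ0 one_pos
  obtain ⟨e4, p4, n4⟩ := sm_rpow (s := 22 / 25) (A := 1) (by norm_num) (show (0 : ℝ) < 1 / 2 by norm_num)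
  obtain ⟨e5, p5, n5⟩ := exp_cmp (α := 2 * c1) (β := 22 / 25) (c := Real.log 2 / 4)
    (A := 1 / 8 * Real.log 2) (by linarith) (by positivity)
  obtain ⟨e6, p6, n6⟩ := exp_cmp (α := 1 / 2) (β := 22 / 25) (c := Real.log 2 / 4) (A := 1)
    (by norm_num) (by positivity)
  obtain ⟨e7, p7, n7⟩ := exp_cmp (α := 0) (β := 22 / 25) (c := Real.log 2 / 4) (A := 1)
    (by norm_num) (by positivity)
  obtain ⟨e8, p8, n8⟩ := sm_rpow (s := 1 - 6 * ρ) (A := 300) (by linarith) one_pos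
  obtain ⟨e9, p9, n9⟩ := exp_cmp (α := c1) (β := 1 / 2) (c := 1 / 2) (A := 1)
    (by linarith) (by norm_num)
  obtain ⟨e10, p10, n10⟩ := sm_exp (c := 1 / 2) (th := 1 / 2) (q := 1) (by norm_num) (by norm_num)
  obtain ⟨e11, p11, n11⟩ := sm_rpow (s := 1 / 50) (A := 4) (by norm_num) one_pos
  obtain ⟨e12, p12, n12⟩ := Cx.loC (Cm := Cm) (c1 := c1) hCm hc1
  obtain ⟨e13, p13, n13⟩ := sm_rpow (s := 1) (A := 1) one_pos (show (0 : ℝ) < 1 / 4 by norm_num)
  refine ⟨min e1 (min e2 (min e3 (min e4 (min e5 (min e6 (min e7 (min e8 (min e9 (min e10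
    (min e11 (min e12 e13))))))))))), by positivity, ?_⟩
  intro P hPth hPthp hPq C1 hC1 hCC b n m s e e' y he hC hw
  simp only [le_min_iff] at he
  obtain ⟨g1, g2, g3, g4, g5, g6, g7, g8, g9, g10, g11, g12, g13⟩ := he
  have he0 := hC.e0
  have he1 : e ≤ 1 := by linarith [hC.e1]
  have hC10 : 0 < C1 := by linarith
  have f1 := n1 e he0 g1
  have f2 := n2 e he0 g2
  have f3 := n3 e he0 g3
  have f4 := n4 e he0 g4
  have f5 := n5 e he0 g5
  have f6 := n6 e he0 g6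
  have f7 := n7 e he0 g7
  have f8 := n8 e he0 g8
  have f9 := n9 e he0 g9
  have f10 := n10 e he0 g10
  have f11 := n11 e he0 g11
  obtain ⟨f12, -, hsn⟩ := n12 C1 hC10 hCC P b n s e y g12 hC
  clear n1 n2 n3 n4 n5 n6 n7 n8 n9 n10 n11 n12 n13
  have hQd : QP P e = e ^ (-ρ) := by unfold QP; rw [hPth, hPthp, hPq, ← hρd]
  have hQ'd : QP P e' = e' ^ (-ρ) := by unfold QP; rw [hPth, hPthp, hPq, ← hρd]
  have hinv : ∀ {c : ℝ}, e ^ c * e ^ (-c) = 1 := by
    intro c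
    rw [← Real.rpow_add he0, add_neg_cancel, Real.rpow_zero]
  have hMhi := hw.Mhi he0 he1
  rw [hPthp] at hMhi
  have he'0 := hw.e'0 he0
  have hQ20 : 20 ≤ QP P e := by
    rw [hQd]
    have h1 := mul_le_mul_of_nonneg_right f3 (Real.rpow_nonneg he0.le (-ρ))
    rwa [mul_assoc, hinv, mul_one, one_mul] at h1
  have hQ' : 2 ^ (5 + 4 * q0) * e ^ (-(4 * thp)) ≤ QP P e' := by
    rw [hQ'd]
    have h1 : e ^ (19 / 20 * (-ρ)) ≤ e' ^ (-ρ) := by
      rw [Real.rpow_mul he0.le]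
      exact Real.rpow_le_rpow_of_nonpos he'0 hw.hi (by linarith)
    refine le_trans ?_ h1
    have h2 : e ^ (-(4 * thp)) = e ^ (19 / 20 * ρ - 4 * thp) * e ^ (19 / 20 * (-ρ)) := by
      rw [← Real.rpow_add he0]
      congr 1
      ring
    rw [h2, ← mul_assoc]
    exact mul_le_of_le_one_left (Real.rpow_nonneg he0.le _) f2
  have h32 : (32 : ℝ) ≤ 2 ^ (5 + 4 * q0) := by
    calc (32 : ℝ) = 2 ^ 5 := by norm_num
      _ ≤ _ := pow_le_pow_right₀ one_le_two (by omega)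
  have hep : 0 < e ^ (-(4 * thp)) := Real.rpow_pos_of_pos he0 _
  have hMQ' : Mw n m ≤ QP P e' := by
    refine hMhi.trans (le_trans ?_ hQ')
    exact mul_le_mul_of_nonneg_right (by linarith) hep.le
  have hMQ : Mw n m ≤ QP P e := by
    refine hMhi.trans ?_
    rw [hQd]
    have h2 : e ^ (-(4 * thp)) ≤ e ^ (19 / 20 * ρ - 4 * thp) * e ^ (-ρ) := by
      rw [← Real.rpow_add he0]
      exact Real.rpow_le_rpow_of_exponent_ge he0 he1 (by linarith)
    calc 16 * e ^ (-(4 * thp)) ≤ 2 ^ (5 + 4 * q0) * (e ^ (19 / 20 * ρ - 4 * thp) * e ^ (-ρ)) :=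
          mul_le_mul (by linarith) h2 hep.le (by positivity)
      _ = (2 ^ (5 + 4 * q0) * e ^ (19 / 20 * ρ - 4 * thp)) * e ^ (-ρ) := by ring
      _ ≤ 1 * e ^ (-ρ) := mul_le_mul_of_nonneg_right f2 (Real.rpow_nonneg he0.le _)
      _ = _ := one_mul _
  have hMlo := hw.Mlo
  have hyp := hC.y0
  have hx0 := hC.x0
  have hxe := hC.xle
  have hlam0 := lam_pos n s
  have hlam8 : tA n s ≤ (e * y) ^ (3 : ℝ) := by
    unfold tA
    calc lam n s ^ (1 / 8 : ℝ) ≤ ((e * y) ^ C1) ^ (1 / 8 : ℝ) :=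
          Real.rpow_le_rpow hlam0.le hC.s2 (by norm_num)
      _ = (e * y) ^ (C1 * (1 / 8)) := by rw [← Real.rpow_mul hx0.le]
      _ ≤ (e * y) ^ (3 : ℝ) :=
          Real.rpow_le_rpow_of_exponent_ge hx0 (hxe.trans he1) (by linarith)
  have hx3 : (e * y) ^ (3 : ℝ) = (e * y) * (e * y) ^ 2 := by
    rw [show (3 : ℝ) = ((3 : ℕ) : ℝ) by norm_num, Real.rpow_natCast]
    ring
  have hQ6 : QP P e ^ 6 * (e * y) ≤ 1 / 300 := by
    have h1 : QP P e ^ 6 = e ^ (-(6 * ρ)) := by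
      rw [hQd, ← Real.rpow_natCast, ← Real.rpow_mul he0.le]
      congr 1
      push_cast
      ring
    have h2 : QP P e ^ 6 * (e * y) ≤ e ^ (-(6 * ρ)) * e := by
      rw [h1]
      exact mul_le_mul_of_nonneg_left hxe (Real.rpow_nonneg he0.le _)
    have h3 : e ^ (-(6 * ρ)) * e = e ^ (1 - 6 * ρ) := by
      have : e ^ (-(6 * ρ)) * e = e ^ (-(6 * ρ)) * e ^ (1 : ℝ) := by rw [Real.rpow_one]
      rw [this, ← Real.rpow_add he0]
      congr 1
      ring
    rw [h3] at h2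
    linarith
  have hQ0 : 0 < QP P e := by linarith
  have htq : tq (hS e) ≤ Real.exp (-(Real.log 2 / 4 * e ^ (-(22 / 25) : ℝ))) := by
    refine (tq_hS he0).trans ?_
    have h1 : Real.exp (-(Real.log 2 / 2 * e ^ (-(22 / 25) : ℝ)))
        = Real.exp (-(Real.log 2 / 4 * e ^ (-(22 / 25) : ℝ)))
          * Real.exp (-(Real.log 2 / 4 * e ^ (-(22 / 25) : ℝ))) := by
      rw [← Real.exp_add]
      congr 1
      ring
    have h2 : 2 * Real.exp (-(Real.log 2 / 4 * e ^ (-(22 / 25) : ℝ))) ≤ 1 := by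
      rw [neg_zero, Real.rpow_zero, mul_one] at f7
      have h3 : Real.exp (-(Real.log 2 / 4 * e ^ (-(22 / 25) : ℝ))) ≤ Real.exp (-1) :=
        Real.exp_le_exp.2 (by linarith)
      have h4 : Real.exp (-1) ≤ 1 / 2 := by
        rw [Real.exp_neg, inv_le_comm₀ (Real.exp_pos _) (by norm_num)]
        have := Real.add_one_le_exp (1 : ℝ)
        norm_num
        linarith
      linarith
    rw [h1, ← mul_assoc]
    exact mul_le_of_le_one_left (Real.exp_pos _).le h2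
  refine ⟨?_, hMQ, hMQ', hQ20, ?_, ?_, ?_, ?_, ?_, ?_, ?_⟩
  · -- M32
    have h1 : ((2 : ℝ) ^ ((P.w e : ℝ) / 20)) ^ (1 / 20 : ℝ) ≤ Mw n m ^ (1 / 20 : ℝ) :=
      Real.rpow_le_rpow (by positivity) hMlo (by norm_num)
    refine le_trans ?_ h1
    have h2 : e ^ (-thp) ≤ (2 : ℝ) ^ P.w e := by
      have := lg_lo (c := P.thp) he0
      rw [hPthp] at this
      unfold H972.Par.w
      rwa [hPthp]
    have h3 : ((2 : ℝ) ^ ((P.w e : ℝ) / 20)) ^ (1 / 20 : ℝ) = ((2 : ℝ) ^ P.w e) ^ (1 / 400 : ℝ) := by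
      rw [← Real.rpow_natCast, ← Real.rpow_mul two_pos.le, ← Real.rpow_mul two_pos.le]
      congr 1
      ring
    rw [h3]
    have h4 : (e ^ (-thp)) ^ (1 / 400 : ℝ) ≤ ((2 : ℝ) ^ P.w e) ^ (1 / 400 : ℝ) :=
      Real.rpow_le_rpow (Real.rpow_nonneg he0.le _) h2 (by norm_num)
    refine le_trans ?_ h4
    rw [← Real.rpow_mul he0.le, show -thp * (1 / 400) = -(thp / 400) by ring]
    have h5 := mul_le_mul_of_nonneg_right f1 (Real.rpow_nonneg he0.le (-(thp / 400)))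
    rwa [mul_assoc, hinv, mul_one, one_mul] at h5
  · -- h2
    rwa [one_mul] at f4
  · -- tqh
    refine htq.trans ?_
    unfold tA
    rw [lam_exp, ← Real.exp_mul]
    refine Real.exp_le_exp.2 ?_
    have h1 : 1 / 8 * Lg n s ≤ 1 / 8 * Real.log 2 * e ^ (-(2 * c1)) := by
      have : 1 / 8 * Real.log 2 * e ^ (-(2 * c1)) = 1 / 8 * (e ^ (-(2 * c1)) * Real.log 2) := by
        ring
      rw [this]
      linarith
    linarith
  · -- tqq
    refine htq.trans ?_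
    unfold tQ
    refine Real.exp_le_exp.2 ?_
    linarith
  · -- Qτ
    calc 300 * (QP P e ^ 6 * tA n s) ≤ 300 * (QP P e ^ 6 * ((e * y) * (e * y) ^ 2)) := by
          rw [← hx3]
          exact mul_le_mul_of_nonneg_left (mul_le_mul_of_nonneg_left hlam8 (by positivity))
            (by norm_num)
      _ = 300 * (QP P e ^ 6 * (e * y)) * (e * y) ^ 2 := by ring
      _ ≤ 1 * (e * y) ^ 2 := mul_le_mul_of_nonneg_right (by linarith) (sq_nonneg _)
      _ = _ := one_mul _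
  · -- Qb
    have h1 : tQ e ≤ y * e := by
      unfold tQ
      have h2 : Real.exp (-(e ^ (-(1 / 2) : ℝ))) =
          Real.exp (-(1 / 2 * e ^ (-(1 / 2) : ℝ))) * Real.exp (-(1 / 2 * e ^ (-(1 / 2) : ℝ))) := by
        rw [← Real.exp_add]
        congr 1
        ring
      rw [h2]
      refine mul_le_mul ?_ ?_ (Real.exp_pos _).le hyp.le
      · refine le_trans (Real.exp_le_exp.2 ?_) hC.y_lo
        rw [one_mul] at f9
        linarith
      · rwa [Real.rpow_one] at f10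
    have h3 : QP P e ^ 4 * tQ e ≤ QP P e ^ 4 * (y * e) :=
      mul_le_mul_of_nonneg_left h1 (by positivity)
    have h4 : e ≤ e ^ (9 / 10 : ℝ) := by
      calc e = e ^ (1 : ℝ) := (Real.rpow_one e).symm
        _ ≤ _ := Real.rpow_le_rpow_of_exponent_ge he0 he1 (by norm_num)
    have h5 : e ^ (9 / 10 : ℝ) = e ^ (1 / 50 : ℝ) * hS e := by
      unfold hS
      rw [← Real.rpow_add he0]
      norm_num
    have hQ4 : 1 ≤ QP P e ^ 4 := one_le_pow₀ (by linarith)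
    have hS0 : 0 < hS e := Real.rpow_pos_of_pos he0 _
    have h6 : 4 * e ^ (9 / 10 : ℝ) ≤ hS e := by
      rw [h5, ← mul_assoc]
      exact mul_le_of_le_one_left hS0.le f11
    have h7 : y * e ^ (9 / 10 : ℝ) ≤ QP P e ^ 4 * (y * e ^ (9 / 10 : ℝ)) :=
      le_mul_of_one_le_left (by positivity) hQ4
    have h8 : QP P e ^ 4 * (y * e) ≤ QP P e ^ 4 * (y * e ^ (9 / 10 : ℝ)) :=
      mul_le_mul_of_nonneg_left (mul_le_mul_of_nonneg_left h4 hyp.le) (by positivity)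
    have h9 : QP P e ^ 4 * (y * (4 * e ^ (9 / 10 : ℝ))) ≤ QP P e ^ 4 * (y * hS e) :=
      mul_le_mul_of_nonneg_left (mul_le_mul_of_nonneg_left h6 hyp.le) (by positivity)
    have e1 : QP P e ^ 4 * (y * (4 * e ^ (9 / 10 : ℝ))) = 4 * (QP P e ^ 4 * (y * e ^ (9 / 10 : ℝ))) := by
      ring
    have e2 : y * (QP P e ^ 4 * hS e) = QP P e ^ 4 * (y * hS e) := by ring
    rw [e2]
    linarith
  · -- τ0
    have hM0 := Mw_pos n m
    have h1 : t0 n s = lam n s ^ 4 := by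
      unfold t0
      rw [lam_exp, ← Real.exp_nat_mul]
      congr 1
      push_cast
      ring
    have h2 : lam n s ≤ e * y := by
      calc lam n s ≤ (e * y) ^ C1 := hC.s2
        _ ≤ (e * y) ^ (1 : ℝ) :=
          Real.rpow_le_rpow_of_exponent_ge hx0 (hxe.trans he1) (by linarith)
        _ = _ := Real.rpow_one _
    have h3 : lam n s ≤ tA n s := by
      unfold tA
      calc lam n s = lam n s ^ (1 : ℝ) := (Real.rpow_one _).symm
        _ ≤ _ := Real.rpow_le_rpow_of_exponent_ge hlam0 (hC.lam1 hC10).le (by norm_num)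
    rw [h1, nu_eq, div_mul_eq_mul_div, le_div_iff₀ (by positivity)]
    have h4 : Mw n m ^ 2 ≤ QP P e ^ 2 := pow_le_pow_left₀ hM0.le hMQ 2
    calc 20 * QP P e ^ 4 * lam n s ^ 4 * Mw n m ^ 2
        ≤ 20 * QP P e ^ 4 * lam n s ^ 4 * QP P e ^ 2 :=
          mul_le_mul_of_nonneg_left h4 (by positivity)
      _ = 20 * (QP P e ^ 6 * lam n s) * (lam n s ^ 2 * lam n s) := by ring
      _ ≤ 20 * (QP P e ^ 6 * (e * y)) * (lam n s ^ 2 * tA n s) := by
          refine mul_le_mul ?_ (mul_le_mul_of_nonneg_left h3 (sq_nonneg _)) (by positivity)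
            (by positivity)
          exact mul_le_mul_of_nonneg_left (mul_le_mul_of_nonneg_left h2 (by positivity))
            (by norm_num)
      _ ≤ 1 * (lam n s ^ 2 * tA n s) := by
          refine mul_le_mul_of_nonneg_right (by linarith) ?_
          have := tA_pos n s
          positivity
      _ = _ := one_mul _
  · -- sz
    intro r hr
    have htt : P.TT m e' r := ⟨hr.1, hr.2.trans (by
      have := Nat.mul_le_mul_right (4 * P.w e') (Nat.sub_le P.q0 2)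
      omega)⟩
    have hq4 := TT_pow he'0 (hw.es.trans (P.es1.trans (by norm_num))) htt
    rw [hPth, hPthp, hPq, ← hρd] at hq4
    have h1 : tn n * ((2 ^ r : ℕ) : ℝ) ^ 2 = (2 ^ r / 2 ^ m * Mw n m) ^ 2 := by
      have h4 : (4 : ℝ) ^ n = (2 ^ n) ^ 2 := by
        rw [← pow_mul, mul_comm, pow_mul]
        norm_num
      unfold tn Mw
      rw [h4]
      push_cast
      field_simp
    rw [h1]
    have h2 : (2 : ℝ) ^ r / 2 ^ m * Mw n m ≤ QP P e' ^ 2 := by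
      calc (2 : ℝ) ^ r / 2 ^ m * Mw n m
          ≤ (2 ^ (1 + 4 * q0) * e' ^ (-ρ)) * (16 * e ^ (-(4 * thp))) :=
            mul_le_mul hq4 hMhi (Mw_pos n m).le (by positivity)
        _ = e' ^ (-ρ) * (2 ^ (5 + 4 * q0) * e ^ (-(4 * thp))) := by
            rw [show 5 + 4 * q0 = (1 + 4 * q0) + 4 by ring, pow_add (2 : ℝ) (1 + 4 * q0) 4]
            ring
        _ ≤ QP P e' * QP P e' := by
            rw [← hQ'd]
            exact mul_le_mul_of_nonneg_left hQ' (by rw [hQ'd]; exact Real.rpow_nonneg he'0.le _)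
        _ = _ := by ring
    calc ((2 : ℝ) ^ r / 2 ^ m * Mw n m) ^ 2 ≤ (QP P e' ^ 2) ^ 2 :=
          pow_le_pow_left₀ (mul_nonneg (by positivity) (Mw_pos n m).le) h2 2
      _ = _ := by ring

/-- the numbers of the step -/
theorem nm_ex {C1 c1 th thp : ℝ} {q0 : ℕ} (hC1 : 24 ≤ C1) (hc1 : 0 < c1) (hc1' : c1 ≤ 1 / 10)
    (hq : 2 ≤ q0) (hth : 0 < th) (hthp : 0 < thp) (hρ : th + 4 * q0 * thp ≤ 1 / 40) :
    ∃ E0 : ℝ, 0 < E0 ∧ ∀ P : H972.Par, P.th = th → P.thp = thp → P.q0 = q0 →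
      ∀ (b : ℝ) (n m s : ℕ) (e e' y : ℝ), e ≤ E0 → Cx P b C1 c1 n s e y → Cw P n m e e' →
      Nm P n m s e e' y := by
  obtain ⟨E0, h0, h⟩ := nm_exC (Cm := C1) (by linarith) hc1 hc1' hq hth hthp hρ
  exact ⟨E0, h0, fun P h1 h2 h3 => h P h1 h2 h3 C1 hC1 le_rfl⟩

end

end Vale.Agent.P159.H889
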