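import Vale.Agent.P159.H889.Vpc
import Vale.Agent.P159.H889.Vnm
import Vale.Agent.P159.H889.Vev

/-!
P159 / H889: ASSEMBLY of the pieces (`Pcs`) from the statements of `Vpc`.
-/

namespace Vale.Agent.P159.H889

open MeasureTheory ProbabilityTheory Finset Matrix
open Vale.Agent.P159.TM.Spec (V)
open Vale.Agent.P159.TM.SpecC (wT)
open Vale.Agent.P159.H145 (mt)
open Vale.Agent.P159.H363
open Vale.Agent.P159.H896 (Ph om WM Ah Acx Pc lf2)
open Vale.Agent.P159.H972 (tn Good RNG FL)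
open Vale.Agent.P159.H801 (Ev)
open Vale.Agent.P159.H640 (sm_rpow TT_pow)
open scoped Real

noncomputable section

variable {P : H972.Par} {b a C1 c1 : ℝ} {n m s s' : ℕ} {e e' y y' : ℝ}

/-- the logarithms of the cells of two levels -/
lemma Lg_two (hC1 : 0 ≤ C1) (h : Cx P b C1 c1 n s e y) (hw : Cw P n m e e')
    (h' : Cx P b C1 c1 m s' e' y') (hy : e ^ (1 / 100 : ℝ) * y' ≤ y) :
    Lg n s ≤ 2 * Lg m s' := by
  have h1 := h.Lg_hi
  have h2 := h'.Lg_lo
  have he := h.e0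
  have he' := h'.e0
  have hle : Real.log e' ≤ 19 / 20 * Real.log e := by
    have := Real.log_le_log he' hw.hi
    rwa [Real.log_rpow he] at this
  have hly : 1 / 100 * Real.log e + Real.log y' ≤ Real.log y := by
    have := Real.log_le_log (mul_pos (Real.rpow_pos_of_pos he _) h'.y0) hy
    rwa [Real.log_mul (Real.rpow_pos_of_pos he _).ne' h'.y0.ne', Real.log_rpow he] at this
  have h3 : Real.log e ≤ 0 := Real.log_nonpos he.le (by linarith [h.e1])
  have h4 : Real.log y ≤ 0 := Real.log_nonpos h.y0.le h.ylt.le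
  rw [Real.log_mul he.ne' h.y0.ne'] at h1
  rw [Real.log_mul he'.ne' h'.y0.ne'] at h2
  have h5 : 94 / 100 * (-(Real.log e + Real.log y)) ≤ -(Real.log e' + Real.log y') := by
    linarith
  have h6 := mul_le_mul_of_nonneg_left h5 hC1
  have h7 : 0 ≤ C1 * (-(Real.log e + Real.log y)) := mul_nonneg hC1 (by linarith)
  nlinarith

lemma Lg_one (hC1 : 24 ≤ C1) (h : Cx P b C1 c1 n s e y) : 1 ≤ Lg n s := by
  have h1 := h.Lg_lo
  have he := h.e0
  have h3 : Real.log e ≤ -(69 / 100) := by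
    have h5 : Real.log e ≤ Real.log (1 / 2) := Real.log_le_log he h.e1
    have h6 : Real.log (1 / 2 : ℝ) = -Real.log 2 := by
      rw [one_div, Real.log_inv]
    have := Real.log_two_gt_d9
    linarith
  have h4 : Real.log y ≤ 0 := Real.log_nonpos h.y0.le h.ylt.le
  rw [Real.log_mul he.ne' h.y0.ne'] at h1
  nlinarith

/-- the cuts of the next level -/
lemma Dc_next {A1 A' : ℝ} (hC1 : 24 ≤ C1) (hA' : 0 ≤ A') (hA : 2 * A' + 1 ≤ A1)
    (h : Cx P b C1 c1 n s e y) (hw : Cw P n m e e') (h' : Cx P b C1 c1 m s' e' y')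
    (hy : e ^ (1 / 100 : ℝ) * y' ≤ y) (hs : s ≤ s') {D1 : ℕ}
    (hD : (D1 : ℝ) * lam n s ≤ A' * (Mw n m * Lg n s)) :
    D1 + 2 ^ (s' - s) ≤ 2 ^ (s' - s) * Dc A1 m s' := by
  have hL := Lg_two (by linarith) h hw h' hy
  have hL1 := Lg_one hC1 h'
  have hl := lam_pos n s
  have hl' := lam_pos m s'
  have hM := Mw_pos n m
  have hll : lam m s' ≤ 1 := (h'.lam1 (by linarith)).le
  have e1 := lam_next (n := n) (m := m) hs
  have hρ : (0 : ℝ) < 2 ^ (s' - s) := by positivity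
  have hDc : A1 * Lg m s' / lam m s' ≤ (Dc A1 m s' : ℝ) := Nat.le_ceil _
  have key : (D1 : ℝ) + 2 ^ (s' - s) ≤ 2 ^ (s' - s) * (Dc A1 m s' : ℝ) := by
    have h1 : 2 ^ (s' - s) * (A1 * Lg m s' / lam m s') = A1 * Lg m s' * Mw n m / lam n s := by
      rw [e1]
      field_simp
    have h2 : (D1 : ℝ) ≤ A' * (Mw n m * Lg n s) / lam n s := by
      rwa [le_div_iff₀ hl]
    have h3 : (2 : ℝ) ^ (s' - s) = Mw n m * lam m s' / lam n s := by
      rw [e1]
      field_simp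
    have h4 := mul_le_mul_of_nonneg_left hDc hρ.le
    rw [h1] at h4
    refine le_trans ?_ h4
    nth_rewrite 1 [h3]
    refine (add_le_add_left h2 _).trans ?_
    rw [← add_div]
    refine div_le_div_of_nonneg_right ?_ hl.le
    have h5 : A' * Lg n s ≤ A' * (2 * Lg m s') := mul_le_mul_of_nonneg_left hL hA'
    have h6 : A' * (2 * Lg m s') + lam m s' ≤ A1 * Lg m s' := by
      have : (2 * A' + 1) * Lg m s' ≤ A1 * Lg m s' :=
        mul_le_mul_of_nonneg_right hA (by linarith)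
      nlinarith
    calc A' * (Mw n m * Lg n s) + Mw n m * lam m s' = Mw n m * (A' * Lg n s + lam m s') := by ring
      _ ≤ Mw n m * (A1 * Lg m s') := mul_le_mul_of_nonneg_left (by linarith) hM.le
      _ = _ := by ring
  exact_mod_cast key

/-- the tori -/
theorem tor_num {th thp : ℝ} {q0 : ℕ} (hth : 0 < th) (hthp : 0 < thp) :
    ∃ E0 : ℝ, 0 < E0 ∧ ∀ P : H972.Par, P.Adm → P.th = th → P.thp = thp →
      P.q0 = q0 → ∀ (n m : ℕ) (e e' : ℝ), 0 < e → e ≤ E0 → e ≤ P.es → Cw P n m e e' →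
      TV P n e (m + P.kE e') ∧ P.TT n e (m + P.kE e') ∧ (∀ r, TV P m e' r → P.TT n e r) ∧
      ∀ r, P.TT n e r → tn n * ((2 ^ r : ℕ) : ℝ) ^ 2 ≤ QP P e ^ 4 := by
  have hρ : 0 < th + 4 * q0 * thp := by positivity
  obtain ⟨e1, p1, n1⟩ := sm_rpow (s := th + 4 * q0 * thp) (A := 2 ^ (1 + 4 * q0)) hρ one_pos
  obtain ⟨e2, p2, n2⟩ := sm_rpow (s := thp) (A := 2 ^ q0) hthp one_pos
  refine ⟨min e1 e2, by positivity, ?_⟩
  intro P hA hPth hPthp hPq n m e e' he hle hes hw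
  have f1 := n1 e he (hle.trans (min_le_left _ _))
  have f2 := n2 e he (hle.trans (min_le_right _ _))
  have he1 : e ≤ 1 := hes.trans (P.es1.trans (by norm_num))
  have he'0 := hw.e'0 he
  have he'1 : e' ≤ 1 := hw.es.trans (P.es1.trans (by norm_num))
  -- `q0 ≤ w`
  have hqw : P.q0 ≤ P.w e := by
    have h2 : e ^ (-thp) ≤ (2 : ℝ) ^ P.w e := by
      have := H640.lg_lo (c := P.thp) he
      rw [hPthp] at this
      unfold H972.Par.w
      rwa [hPthp]
    have h3 : (2 : ℝ) ^ q0 ≤ e ^ (-thp) := by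
      have h4 := mul_le_mul_of_nonneg_right f2 (Real.rpow_nonneg he.le (-thp))
      rwa [mul_assoc, ← Real.rpow_add he, add_neg_cancel, Real.rpow_zero, mul_one, one_mul] at h4
    rw [hPq]
    exact (pow_le_pow_iff_right₀ one_lt_two).1 (h3.trans h2)
  have hq5 : 5 ≤ P.q0 := by
    have h1 := hA.hx
    have h2 := hA.hq2
    have h3 := P.th0
    have h4 := P.thp0
    have h5 : 96 * P.thp ≤ ((P.q0 : ℝ) - 2) * P.thp := by linarith
    have h6 := le_of_mul_le_mul_right h5 h4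
    have h7 : (5 : ℝ) ≤ P.q0 := by linarith
    exact_mod_cast h7
  have hk1 : P.kE e' ≤ P.kE e + 1 := H972.lg_half' P.th0 hA.th1 he hw.lo
  have hw1 : P.w e' ≤ P.w e + 1 := H972.lg_half' P.thp0 hA.thp1 he hw.lo
  have hnm := hw.nm
  have hm1 := hw.w1
  have hm2 := hw.w2
  -- the lower end
  have hlow : n + P.kE e ≤ m + P.kE e' := by
    have h1 : (P.kE e : ℝ) < P.th * Real.logb 2 (1 / e) + 1 :=
      Nat.ceil_lt_add_one (mul_nonneg P.th0.le (H972.logb_nonneg' he he1))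
    have h2 : P.th * Real.logb 2 (1 / e') ≤ P.kE e' := Nat.le_ceil _
    have h3 : 19 / 20 * Real.logb 2 (1 / e) ≤ Real.logb 2 (1 / e') := by
      have h4 : Real.log e' ≤ 19 / 20 * Real.log e := by
        have := Real.log_le_log he'0 hw.hi
        rwa [Real.log_rpow he] at this
      unfold Real.logb
      rw [one_div, one_div, Real.log_inv, Real.log_inv, ← mul_div_assoc]
      exact div_le_div_of_nonneg_right (by linarith) (Real.log_nonneg one_le_two)
    have h5 : P.thp * Real.logb 2 (1 / e) ≤ P.w e := Nat.le_ceil _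
    have h6 : P.th * Real.logb 2 (1 / e) ≤ P.thp * Real.logb 2 (1 / e) :=
      mul_le_mul_of_nonneg_right hA.hth (H972.logb_nonneg' he he1)
    have h7 := mul_le_mul_of_nonneg_left h3 P.th0.le
    have h8 : (20 * n + P.w e : ℝ) ≤ 20 * m := by exact_mod_cast hm1
    have h9 : ((n + P.kE e : ℕ) : ℝ) < ((m + P.kE e' + 1 : ℕ) : ℝ) := by
      push_cast
      linarith
    have h10 : n + P.kE e < m + P.kE e' + 1 := by exact_mod_cast h9
    omega
  have hq4 : 4 * (4 * P.w e) ≤ P.q0 * (4 * P.w e) := Nat.mul_le_mul_right _ (by omega)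
  have hq2 : (P.q0 - 2) * (4 * P.w e) + 2 * (4 * P.w e) = P.q0 * (4 * P.w e) := by
    rw [← add_mul]
    congr 1
    omega
  have htv : TV P n e (m + P.kE e') := by
    refine ⟨hlow, ?_⟩
    have : 3 * (4 * P.w e) ≤ (P.q0 - 2) * (4 * P.w e) := Nat.mul_le_mul_right _ (by omega)
    omega
  refine ⟨htv, ⟨hlow, htv.2.trans (by omega)⟩, fun r hr => ⟨hlow.trans hr.1, ?_⟩, ?_⟩
  · have h1 := hr.2
    have h2 : (P.q0 - 2) * (4 * P.w e') ≤ (P.q0 - 2) * (4 * (P.w e + 1)) :=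
      Nat.mul_le_mul_left _ (by omega)
    have h3 : (P.q0 - 2) * (4 * (P.w e + 1)) = (P.q0 - 2) * (4 * P.w e) + 4 * (P.q0 - 2) := by ring
    omega
  · intro r hr
    have h1 := TT_pow he he1 hr
    rw [hPth, hPthp, hPq] at h1
    obtain ⟨ρ, hρd⟩ : ∃ ρ, ρ = th + 4 * q0 * thp := ⟨_, rfl⟩
    rw [← hρd] at h1 f1
    have hQ : QP P e = e ^ (-ρ) := by unfold QP; rw [hPth, hPthp, hPq, ← hρd]
    have hrp : 0 < e ^ (-ρ) := Real.rpow_pos_of_pos he _
    have h2 : (2 : ℝ) ^ (1 + 4 * q0) ≤ e ^ (-ρ) := by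
      have h4 := mul_le_mul_of_nonneg_right f1 hrp.le
      rwa [mul_assoc, ← Real.rpow_add he, add_neg_cancel, Real.rpow_zero, mul_one, one_mul] at h4
    have h3 : (2 : ℝ) ^ r / 2 ^ n ≤ QP P e ^ 2 := by
      rw [hQ]
      calc (2 : ℝ) ^ r / 2 ^ n ≤ 2 ^ (1 + 4 * q0) * e ^ (-ρ) := h1
        _ ≤ e ^ (-ρ) * e ^ (-ρ) := mul_le_mul_of_nonneg_right h2 hrp.le
        _ = _ := by ring
    have h4 : tn n * ((2 ^ r : ℕ) : ℝ) ^ 2 = ((2 : ℝ) ^ r / 2 ^ n) ^ 2 := by
      have h5 : (4 : ℝ) ^ n = (2 ^ n) ^ 2 := by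
        rw [← pow_mul, mul_comm, pow_mul]
        norm_num
      unfold tn
      rw [h5, div_pow]
      push_cast
      field_simp
    rw [h4]
    calc ((2 : ℝ) ^ r / 2 ^ n) ^ 2 ≤ (QP P e ^ 2) ^ 2 := pow_le_pow_left₀ (by positivity) h3 2
      _ = _ := by ring

end

end Vale.Agent.P159.H889
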