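import Vale.Agent.P159.H889.Vvs
import Vale.Agent.P159.H43.Chb

/-!
P159 / H889: THE FINAL V STATE OF THE MASTER (`VF`) and the largest activity of a level (`uF`).
-/

namespace Vale.Agent.P159.H889

open Filter Topology
open Vale.Agent.P159.H972 (tn Good FL)

noncomputable section

/-- **the final V state**: activity `z = |ζ|`, cells `2 ^ s`; the second harmonic on the tori of
helper43's `CHB` -/
def VF (P : H972.Par) (b C1 A1 dl : ℝ) (n : ℕ) (ε z : ℝ) : Prop :=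
  (∃ (s : ℕ) (ζ : ℂ), VSs P b C1 A1 dl n ε z s ζ) ∧
    H43.CHB P b n ε (z ^ (2 - P.x1 / 50) + z * ε ^ (2 : ℝ)) ∧ z ^ (39 / 20 : ℝ) ≤ ε

/-- the states of the level `m` -/
def UF (P : H972.Par) (b C1 A1 dl : ℝ) (m : ℕ) : Set ℝ :=
  {z : ℝ | ∃ ε : ℝ, 0 < ε ∧ ε ≤ P.es ∧ Good P b m ε ∧ VF P b C1 A1 dl m ε z}

/-- the largest activity of the level `m` -/
def uF (P : H972.Par) (b C1 A1 dl : ℝ) (m : ℕ) : ℝ := sSup (UF P b C1 A1 dl m)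

variable {P : H972.Par} {b C1 A1 dl : ℝ}

lemma VF.z0 {n : ℕ} {ε z : ℝ} (h : VF P b C1 A1 dl n ε z) : 0 < z := by
  obtain ⟨⟨s, ζ, hV⟩, -⟩ := h
  exact hV.z0

lemma VF.z1 {n : ℕ} {ε z : ℝ} (h : VF P b C1 A1 dl n ε z) (hε : ε ≤ P.es) : z ≤ 1 := by
  by_contra hc
  have h6 : 1 ≤ z ^ (39 / 20 : ℝ) := Real.one_le_rpow (not_le.1 hc).le (by norm_num)
  have := P.es1
  linarith [h.2.2]

lemma uF_bdd (m : ℕ) : BddAbove (UF P b C1 A1 dl m) :=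
  ⟨1, fun _ ⟨_, _, h2, _, h4⟩ => h4.z1 h2⟩

lemma uF_nonneg (m : ℕ) : 0 ≤ uF P b C1 A1 dl m :=
  Real.sSup_nonneg fun _ ⟨_, _, _, _, h4⟩ => h4.z0.le

/-- every activity is below `uF` -/
lemma le_uF {m : ℕ} {ε z : ℝ} (h0 : 0 < ε) (h1 : ε ≤ P.es) (hG : Good P b m ε)
    (h : VF P b C1 A1 dl m ε z) : z ≤ uF P b C1 A1 dl m :=
  le_csSup (uF_bdd m) ⟨ε, h0, h1, hG, h⟩

/-- bound of `uF` -/
lemma uF_le {m : ℕ} {x : ℝ} (hx : 0 ≤ x)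
    (h : ∀ ε z, 0 < ε → ε ≤ P.es → Good P b m ε → VF P b C1 A1 dl m ε z → z ≤ x) :
    uF P b C1 A1 dl m ≤ x :=
  Real.sSup_le (fun _ ⟨ε, h1, h2, h3, h4⟩ => h ε _ h1 h2 h3 h4) hx

/-- `uF → 0` from the bounds -/
lemma uF_tendsto (h : ∀ η : ℝ, 0 < η → ∀ᶠ m in atTop, ∀ ε z, 0 < ε → ε ≤ P.es → Good P b m ε →
    VF P b C1 A1 dl m ε z → z ≤ η) : Tendsto (uF P b C1 A1 dl) atTop (𝓝 0) := by
  rw [Metric.tendsto_nhds]
  intro η hη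
  filter_upwards [h (η / 2) (by positivity)] with m hm
  rw [Real.dist_eq, sub_zero, abs_of_nonneg (uF_nonneg m)]
  have := uF_le (by positivity : (0 : ℝ) ≤ η / 2) hm
  linarith

end

end Vale.Agent.P159.H889
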