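import Vale.Agent.P159.H889.Vfin2
import Vale.Agent.P159.H316.Vhf
import Vale.Agent.P159.H30.Crk
import Vale.Agent.P159.H197.Fi1

/-!
P159 / H889: the family of `VStep` in helper316's letters (`FVS`), all landed inputs plugged in
(helper30's `CRK`, helper197's `YBB`): the only input is the general step `StepH`.
-/

namespace Vale.Agent.P159.H889

open Filter Topology
open Vale.Agent.P159.H801 (Ev FLC VStep)
open scoped Real

noncomputable section

/-- **the family of `VStep` from the general step** -/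
theorem fvs_ev {b b1 b2 K A1 : ℝ} {Q : ℕ} (hb1 : 0 < b1) (h1 : b1 ≤ b) (h2 : b ≤ b2)
    (hel : helicity b = 2 / Real.pi) (hK : 0 < K)
    (hG : EvC b1 b2 (9 / 10) Q K (StepH b A1)) :
    EvC b1 b2 (9 / 10) Q K (H316.FVS b A1) := by
  have hY : Ev b1 b2 (9 / 10) Q fun P _ => ∀ a : ℕ → ℝ, FLC P b a →
      Tendsto a atTop (𝓝 (π / 2)) → ∀ᶠ N0 in atTop, H316.YBB P b N0 :=
    (H197.ev_fi (b2 := b2) hb1 h1 h2 hel (by norm_num) Q).mono fun P c1 _ h a ha hlim =>
      (h 1 one_pos a ha hlim).mono fun N0 g => g.2.1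
  refine (vstep_ev (κ := 2) hb1 h1 h2 (by norm_num) (by norm_num) hK (by norm_num) hG
    (H30.Crk.crk_ev hb1 h1 h2 hel K Q) hY).mono ?_
  rintro P c1 C1 - - - - h a ha hlim u hu
  exact h a ha hlim u hu

end

end Vale.Agent.P159.H889
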