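import Mathlib

/-!
P159 / H889: real numbers for the persistence of the V state.
-/

namespace Vale.Agent.P159.H889

noncomputable section

/-- the logarithm of the new coefficient -/
lemma coef_log {ζ ζ' : ℂ} {G0 δ : ℝ} (hζ : ζ ≠ 0) (hG : 0 < G0)
    (h : ‖ζ' - ζ * ((G0 : ℝ) : ℂ)‖ ≤ δ * (‖ζ‖ * G0)) (hδ : δ ≤ 1 / 2) :
    0 < ‖ζ'‖ ∧ |Real.log ‖ζ'‖ - Real.log ‖ζ‖ - Real.log G0| ≤ 2 * δ ∧
      ‖ζ‖ * G0 / 2 ≤ ‖ζ'‖ ∧ ‖ζ'‖ ≤ 2 * (‖ζ‖ * G0) := by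
  have hz : 0 < ‖ζ‖ := norm_pos_iff.2 hζ
  have hX : 0 < ‖ζ‖ * G0 := mul_pos hz hG
  have hn : ‖ζ * ((G0 : ℝ) : ℂ)‖ = ‖ζ‖ * G0 := by
    rw [norm_mul, Complex.norm_real, Real.norm_eq_abs, abs_of_pos hG]
  have h1 : |‖ζ'‖ - ‖ζ‖ * G0| ≤ δ * (‖ζ‖ * G0) := by
    rw [← hn]
    refine (abs_norm_sub_norm_le _ _).trans ?_
    rw [hn]
    exact h
  have hδ0 : 0 ≤ δ := nonneg_of_mul_nonneg_left ((abs_nonneg _).trans h1) hX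
  have h2 := abs_le.1 h1
  have h3 : ‖ζ‖ * G0 / 2 ≤ ‖ζ'‖ := by
    have : δ * (‖ζ‖ * G0) ≤ 1 / 2 * (‖ζ‖ * G0) := mul_le_mul_of_nonneg_right hδ hX.le
    linarith [h2.1]
  have h4 : 0 < ‖ζ'‖ := lt_of_lt_of_le (by positivity) h3
  have h5 : ‖ζ'‖ ≤ 2 * (‖ζ‖ * G0) := by
    have : δ * (‖ζ‖ * G0) ≤ 1 * (‖ζ‖ * G0) :=
      mul_le_mul_of_nonneg_right (by linarith) hX.le
    linarith [h2.2]
  refine ⟨h4, ?_, h3, h5⟩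
  obtain ⟨r, hr⟩ : ∃ r, r = ‖ζ'‖ / (‖ζ‖ * G0) := ⟨_, rfl⟩
  have hr0 : 0 < r := by rw [hr]; positivity
  have e1 : Real.log ‖ζ'‖ - Real.log ‖ζ‖ - Real.log G0 = Real.log r := by
    rw [hr, Real.log_div h4.ne' hX.ne', Real.log_mul hz.ne' hG.ne']
    ring
  have hr1 : 1 - δ ≤ r := by
    rw [hr, le_div_iff₀ hX]
    linarith [h2.1]
  have hr2 : r ≤ 1 + δ := by
    rw [hr, div_le_iff₀ hX]
    linarith [h2.2]
  rw [e1, abs_le]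
  constructor
  · have h6 := Real.one_sub_inv_le_log_of_pos hr0
    have h7 : r⁻¹ ≤ 1 + 2 * δ := by
      rw [inv_le_comm₀ hr0 (by linarith)]
      refine le_trans ?_ hr1
      rw [inv_le_iff_one_le_mul₀ (by linarith)]
      nlinarith
    linarith
  · have h6 := Real.log_le_sub_one_of_pos hr0
    linarith

/-- size of the error of the coefficient, `δ = ε^(17/20)/2` -/
lemma coef_size {ε z M Q G0 g h τ : ℝ} (hε : 0 < ε) (hz : 0 < z) (hM : 1 ≤ M) (hQ : 1 ≤ Q)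
    (hMQ : M ≤ Q) (hG0 : M ^ (-(1 / 2) : ℝ) ≤ G0) (hτ : τ ≤ z * ε ^ 3) (h0 : 0 ≤ h)
    (t1 : Q * (2 * ε ^ (7 / 8 : ℝ)) ≤ 1 / 8 * g) (t2 : Q * (8 * h) ≤ 1 / 8 * g)
    (t3 : Q ^ 3 * (7 * ε ^ 3) ≤ 1 / 8 * g) (t4 : 2 * ε ^ (87 / 100 : ℝ) ≤ 1 / 8 * g) :
    M ^ (1 / 10 : ℝ) * (2 * (z * ε ^ (7 / 8 : ℝ)) + 8 * (z * h) + 7 * (Q ^ 2 * τ))
      + 2 * z * G0 * ε ^ (87 / 100 : ℝ) ≤ 1 / 2 * g * (z * G0) := by
  have hM0 : 0 < M := by linarith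
  have hQ0 : 0 < Q := by linarith
  have hG : 0 < G0 := lt_of_lt_of_le (Real.rpow_pos_of_pos hM0 _) hG0
  have h1 : M ^ (1 / 10 : ℝ) ≤ Q * G0 := by
    calc M ^ (1 / 10 : ℝ) ≤ M ^ (1 / 2 : ℝ) := Real.rpow_le_rpow_of_exponent_le hM (by norm_num)
      _ = M * M ^ (-(1 / 2) : ℝ) := by
          nth_rewrite 2 [← Real.rpow_one M]
          rw [← Real.rpow_add hM0]
          norm_num
      _ ≤ Q * G0 := mul_le_mul hMQ hG0 (Real.rpow_nonneg hM0.le _) hQ0.le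
  have h2 : 7 * (Q ^ 2 * τ) ≤ z * (Q ^ 2 * (7 * ε ^ 3)) := by
    have := mul_le_mul_of_nonneg_left hτ (sq_nonneg Q)
    linarith
  have h7 : 0 ≤ ε ^ (7 / 8 : ℝ) := Real.rpow_nonneg hε.le _
  have h3 : 0 ≤ z * (2 * ε ^ (7 / 8 : ℝ) + 8 * h + Q ^ 2 * (7 * ε ^ 3)) := by positivity
  calc M ^ (1 / 10 : ℝ) * (2 * (z * ε ^ (7 / 8 : ℝ)) + 8 * (z * h) + 7 * (Q ^ 2 * τ))
      + 2 * z * G0 * ε ^ (87 / 100 : ℝ)
      ≤ M ^ (1 / 10 : ℝ) * (z * (2 * ε ^ (7 / 8 : ℝ) + 8 * h + Q ^ 2 * (7 * ε ^ 3)))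
        + z * G0 * (2 * ε ^ (87 / 100 : ℝ)) := by
        refine add_le_add (mul_le_mul_of_nonneg_left ?_ (Real.rpow_nonneg hM0.le _)) (by linarith)
        linarith
    _ ≤ Q * G0 * (z * (2 * ε ^ (7 / 8 : ℝ) + 8 * h + Q ^ 2 * (7 * ε ^ 3)))
        + z * G0 * (2 * ε ^ (87 / 100 : ℝ)) := by
        gcongr
    _ = (Q * (2 * ε ^ (7 / 8 : ℝ)) + Q * (8 * h) + Q ^ 3 * (7 * ε ^ 3)
        + 2 * ε ^ (87 / 100 : ℝ)) * (z * G0) := by ring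
    _ ≤ 1 / 2 * g * (z * G0) := by
        refine mul_le_mul_of_nonneg_right ?_ (by positivity)
        linarith

/-- `(ε/2)^c ≥ ε^c/2` -/
lemma half_rpow {ε ε' c : ℝ} (hε : 0 < ε) (h : ε / 2 ≤ ε') (hc : 0 ≤ c) (hc1 : c ≤ 1) :
    ε ^ c / 2 ≤ ε' ^ c := by
  have h1 : (ε / 2) ^ c ≤ ε' ^ c := Real.rpow_le_rpow (by positivity) h hc
  refine le_trans ?_ h1
  rw [Real.div_rpow hε.le (by norm_num)]
  have h2 : (2 : ℝ) ^ c ≤ 2 := by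
    calc (2 : ℝ) ^ c ≤ 2 ^ (1 : ℝ) := Real.rpow_le_rpow_of_exponent_le one_le_two hc1
      _ = 2 := Real.rpow_one _
  exact div_le_div_of_nonneg_left (Real.rpow_nonneg hε.le _) (by positivity) h2

/-- the deviation persists -/
lemma dev_step {ε ε' z z' M Q G0 h E E1 x : ℝ} (hε : 0 < ε) (hz : 0 < z) (hM : 1 ≤ M)
    (hM32 : 32 ≤ M ^ (1 / 20 : ℝ)) (hMQ : M ≤ Q) (hε' : ε / 2 ≤ ε')
    (hG0 : M ^ (-(1 / 2) : ℝ) ≤ G0) (hz1 : z * G0 / 2 ≤ z') (hz2 : z' ≤ 2 * (z * G0))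
    (hh : 0 ≤ h)
    (t1 : Q ^ 4 * (2 * E + E1) ≤ z * (1 / 16 * ε ^ (7 / 8 : ℝ)))
    (t2 : Q ^ 4 * (3 * h) ≤ 1 / 16 * ε ^ (7 / 8 : ℝ))
    (t3 : Q * x ≤ z * (1 / 16 * ε ^ (7 / 8 : ℝ))) :
    M ^ (-(3 / 4) : ℝ) * (z * ε ^ (7 / 8 : ℝ)) + Q ^ 3 * (2 * E + E1) + Q ^ 2 * ((z + z') * h) + x
      ≤ z' * ε' ^ (7 / 8 : ℝ) := by
  have hM0 : 0 < M := by linarith
  have hQ1 : 1 ≤ Q := hM.trans hMQ
  have hQ0 : 0 < Q := by linarith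
  have hG : 0 < G0 := lt_of_lt_of_le (Real.rpow_pos_of_pos hM0 _) hG0
  have h7 : 0 < ε ^ (7 / 8 : ℝ) := Real.rpow_pos_of_pos hε _
  -- `G0 ≥ 1/Q`
  have hGQ : 1 ≤ Q * G0 := by
    calc (1 : ℝ) ≤ M ^ (1 / 2 : ℝ) := Real.one_le_rpow hM (by norm_num)
      _ = M * M ^ (-(1 / 2) : ℝ) := by
          nth_rewrite 2 [← Real.rpow_one M]
          rw [← Real.rpow_add hM0]
          norm_num
      _ ≤ Q * G0 := mul_le_mul hMQ hG0 (Real.rpow_nonneg hM0.le _) hQ0.le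
  have h16 : 16 * M ^ (-(3 / 4) : ℝ) ≤ G0 := by
    refine le_trans ?_ hG0
    have e1 : M ^ (-(1 / 2) : ℝ) = M ^ (1 / 20 : ℝ) * (M ^ (1 / 5 : ℝ) * M ^ (-(3 / 4) : ℝ)) := by
      rw [← Real.rpow_add hM0, ← Real.rpow_add hM0]
      norm_num
    rw [e1]
    have h5 : 1 ≤ M ^ (1 / 5 : ℝ) := Real.one_le_rpow hM (by norm_num)
    have h6 : 0 ≤ M ^ (-(3 / 4) : ℝ) := Real.rpow_nonneg hM0.le _
    have h8 : M ^ (-(3 / 4) : ℝ) ≤ M ^ (1 / 5 : ℝ) * M ^ (-(3 / 4) : ℝ) :=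
      le_mul_of_one_le_left h6 h5
    calc 16 * M ^ (-(3 / 4) : ℝ) ≤ M ^ (1 / 20 : ℝ) * M ^ (-(3 / 4) : ℝ) :=
          mul_le_mul_of_nonneg_right (by linarith) h6
      _ ≤ _ := mul_le_mul_of_nonneg_left h8 (by linarith)
  have hR : z * G0 / 2 * (ε ^ (7 / 8 : ℝ) / 2) ≤ z' * ε' ^ (7 / 8 : ℝ) :=
    mul_le_mul hz1 (half_rpow hε hε' (by norm_num) (by norm_num)) (by positivity)
      (le_trans (by positivity) hz1)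
  have a1 : M ^ (-(3 / 4) : ℝ) * (z * ε ^ (7 / 8 : ℝ)) ≤ 1 / 16 * (z * G0 * ε ^ (7 / 8 : ℝ)) := by
    have : M ^ (-(3 / 4) : ℝ) ≤ 1 / 16 * G0 := by linarith
    calc M ^ (-(3 / 4) : ℝ) * (z * ε ^ (7 / 8 : ℝ)) ≤ 1 / 16 * G0 * (z * ε ^ (7 / 8 : ℝ)) :=
          mul_le_mul_of_nonneg_right this (by positivity)
      _ = _ := by ring
  have a2 : Q ^ 3 * (2 * E + E1) ≤ 1 / 16 * (z * G0 * ε ^ (7 / 8 : ℝ)) := by
    have h8 : Q ^ 3 * (2 * E + E1) * Q ≤ z * (1 / 16 * ε ^ (7 / 8 : ℝ)) * (Q * G0) := by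
      calc Q ^ 3 * (2 * E + E1) * Q = Q ^ 4 * (2 * E + E1) := by ring
        _ ≤ z * (1 / 16 * ε ^ (7 / 8 : ℝ)) := t1
        _ ≤ z * (1 / 16 * ε ^ (7 / 8 : ℝ)) * (Q * G0) :=
            le_mul_of_one_le_right (by positivity) hGQ
    have h9 : z * (1 / 16 * ε ^ (7 / 8 : ℝ)) * (Q * G0)
        = 1 / 16 * (z * G0 * ε ^ (7 / 8 : ℝ)) * Q := by ring
    rw [h9] at h8
    exact le_of_mul_le_mul_right h8 hQ0
  have a3 : Q ^ 2 * ((z + z') * h) ≤ 1 / 16 * (z * G0 * ε ^ (7 / 8 : ℝ)) := by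
    have h8 : z + z' ≤ 3 * (Q * (z * G0)) := by
      have b1 : z ≤ Q * (z * G0) := by
        calc z = z * 1 := (mul_one z).symm
          _ ≤ z * (Q * G0) := mul_le_mul_of_nonneg_left hGQ hz.le
          _ = _ := by ring
      have b2 : z * G0 ≤ Q * (z * G0) := le_mul_of_one_le_left (by positivity) hQ1
      linarith
    have hQ34 : Q ^ 3 ≤ Q ^ 4 := pow_le_pow_right₀ hQ1 (by norm_num)
    calc Q ^ 2 * ((z + z') * h) ≤ Q ^ 2 * (3 * (Q * (z * G0)) * h) := by gcongr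
      _ = (Q ^ 3 * (3 * h)) * (z * G0) := by ring
      _ ≤ (Q ^ 4 * (3 * h)) * (z * G0) := by gcongr
      _ ≤ (1 / 16 * ε ^ (7 / 8 : ℝ)) * (z * G0) :=
          mul_le_mul_of_nonneg_right t2 (by positivity)
      _ = _ := by ring
  have a4 : x ≤ 1 / 16 * (z * G0 * ε ^ (7 / 8 : ℝ)) := by
    have h8 : Q * x ≤ z * (1 / 16 * ε ^ (7 / 8 : ℝ)) * (Q * G0) :=
      t3.trans (le_mul_of_one_le_right (by positivity) hGQ)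
    have h9 : z * (1 / 16 * ε ^ (7 / 8 : ℝ)) * (Q * G0)
        = Q * (1 / 16 * (z * G0 * ε ^ (7 / 8 : ℝ))) := by ring
    rw [h9] at h8
    exact le_of_mul_le_mul_left h8 hQ0
  have e9 : z * G0 / 2 * (ε ^ (7 / 8 : ℝ) / 2) = 1 / 4 * (z * G0 * ε ^ (7 / 8 : ℝ)) := by ring
  rw [e9] at hR
  linarith

/-- the error of the functional persists -/
lemma fun_step {ε ε' z z' M Q G0 h c : ℝ} (hε : 0 < ε) (hz : 0 < z) (hM : 1 ≤ M)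
    (hMQ : M ≤ Q) (hε' : ε / 2 ≤ ε') (hc : 0 ≤ c) (hc1 : c ≤ 1)
    (hG0 : M ^ (-(1 / 2) : ℝ) ≤ G0) (hz1 : z * G0 / 2 ≤ z')
    (t1 : Q ^ 6 * (4 * h) ≤ ε ^ c) : z * (Q ^ 5 * h) ≤ z' * ε' ^ c := by
  have hM0 : 0 < M := by linarith
  have hQ1 : 1 ≤ Q := hM.trans hMQ
  have hQ0 : 0 < Q := by linarith
  have hG : 0 < G0 := lt_of_lt_of_le (Real.rpow_pos_of_pos hM0 _) hG0
  have hGQ : 1 ≤ Q * G0 := by
    calc (1 : ℝ) ≤ M ^ (1 / 2 : ℝ) := Real.one_le_rpow hM (by norm_num)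
      _ = M * M ^ (-(1 / 2) : ℝ) := by
          nth_rewrite 2 [← Real.rpow_one M]
          rw [← Real.rpow_add hM0]
          norm_num
      _ ≤ Q * G0 := mul_le_mul hMQ hG0 (Real.rpow_nonneg hM0.le _) hQ0.le
  have hR : z * G0 / 2 * (ε ^ c / 2) ≤ z' * ε' ^ c :=
    mul_le_mul hz1 (half_rpow hε hε' hc hc1) (by positivity) (le_trans (by positivity) hz1)
  refine le_trans ?_ hR
  have h1 : z * (Q ^ 5 * h) * Q ≤ z * G0 / 2 * (ε ^ c / 2) * Q := by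
    calc z * (Q ^ 5 * h) * Q = z / 4 * (Q ^ 6 * (4 * h)) := by ring
      _ ≤ z / 4 * ε ^ c := mul_le_mul_of_nonneg_left t1 (by positivity)
      _ ≤ z / 4 * ε ^ c * (Q * G0) := le_mul_of_one_le_right (by positivity) hGQ
      _ = _ := by ring
  exact le_of_mul_le_mul_right h1 hQ0

end

end Vale.Agent.P159.H889
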