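import Vale.Agent.P159.H889.Vsg
import Vale.Agent.P159.H889.Vvn
import Vale.Agent.P159.H801.Master1

/-!
P159 / H889: THE V STATE OF THE MASTER and its numbers.
-/

namespace Vale.Agent.P159.H889

open Vale.Agent.P159.H972 (tn Good FL)
open Vale.Agent.P159.H864 (yt)
open Vale.Agent.P159.H801 (Ev)
open Vale.Agent.P159.H640 (sm_rpow)
open scoped Real

noncomputable section

/-- **the V state of the master**: activity `z = |ζ|`, cells `2 ^ s` -/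
structure VSs (P : H972.Par) (b C1 A1 dl : ℝ) (n : ℕ) (ε z : ℝ) (s : ℕ) (ζ : ℂ) : Prop where
  nz : ‖ζ‖ = z
  z0 : 0 < z
  vy : ∀ r, P.TT n ε r → yt (2 ^ r) b (4 * tn n) ≤ ε ^ (-(P.thp / 20)) * z
  s1 : (ε * z) ^ (9 / 8 * C1) ≤ lam n s
  s2 : lam n s ≤ (ε * z) ^ C1
  ns : n ≤ 2 * s
  dx : -Real.log (ε * z) ≤ dl * n
  sv : SV P b A1 n s ε ζ (z * ε ^ (7 / 8 : ℝ)) (z * ε ^ (439 / 500 : ℝ))
  ch : CH2 P b n ε (z * ε ^ (1 / 2 : ℝ))

/-- the V state -/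
def VS (P : H972.Par) (b C1 A1 dl : ℝ) (n : ℕ) (ε z : ℝ) : Prop :=
  ∃ (s : ℕ) (ζ : ℂ), VSs P b C1 A1 dl n ε z s ζ

lemma SV.mono {P : H972.Par} {b A1 : ℝ} {n s : ℕ} {e : ℝ} {ζ : ℂ} {Δ Δ' E E' : ℝ}
    (h : SV P b A1 n s e ζ Δ E) (h1 : Δ ≤ Δ') (h2 : E ≤ E') : SV P b A1 n s e ζ Δ' E' := by
  intro r hr _
  obtain ⟨Lp, hV⟩ := h r hr
  exact ⟨Lp, SB.mono hV (mul_le_mul_of_nonneg_right h1 (nu_pos n s).le) le_rfl le_rfl le_rfl h2
    le_rfl le_rfl⟩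

/-- choice of the cells -/
lemma cells_ex {C1 dl x x' : ℝ} {n m s : ℕ} (hC1 : 24 ≤ C1) (hdl : C1 * dl ≤ 1 / 8)
    (hx : 0 < x) (hx' : 0 < x') (hx1 : x' ≤ 1 / 2) (h2 : lam n s ≤ x ^ C1)
    (hxx : C1 * (Real.log x - Real.log x') ≤ ((m : ℝ) - n) * Real.log 2)
    (hdx : -Real.log x' ≤ dl * m) (hm : 4 ≤ m) :
    ∃ s' : ℕ, s ≤ s' ∧ x' ^ (9 / 8 * C1) ≤ lam m s' ∧ lam m s' ≤ x' ^ C1 ∧ m ≤ 2 * s' := by
  have hl2 := Real.log_two_gt_d9
  have hl20 : 0 < Real.log 2 := by linarith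
  obtain ⟨v, hv⟩ : ∃ v : ℝ, v = m + C1 * Real.log x' / Real.log 2 := ⟨_, rfl⟩
  have hvl : v * Real.log 2 = m * Real.log 2 + C1 * Real.log x' := by
    rw [hv]
    field_simp
  have hm4 : (4 : ℝ) ≤ m := by exact_mod_cast hm
  -- the size of `v`
  have hv1 : 3 / 4 * (m : ℝ) ≤ v := by
    have h3 : C1 * (-Real.log x') ≤ 1 / 8 * m := by
      calc C1 * (-Real.log x') ≤ C1 * (dl * m) := mul_le_mul_of_nonneg_left hdx (by linarith)
        _ = C1 * dl * m := by ring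
        _ ≤ _ := mul_le_mul_of_nonneg_right hdl (by positivity)
    have h4 : 3 / 4 * (m : ℝ) * Real.log 2 ≤ v * Real.log 2 := by
      rw [hvl]
      nlinarith
    exact le_of_mul_le_mul_right h4 hl20
  have hv0 : 0 ≤ v := by linarith
  -- floor
  have hf1 : ((⌊v⌋₊ : ℕ) : ℝ) ≤ v := Nat.floor_le hv0
  have hf2 : v < (⌊v⌋₊ : ℝ) + 1 := Nat.lt_floor_add_one v
  have hlam : ∀ (j i : ℕ), Real.log (lam j i) = ((i : ℝ) - j) * Real.log 2 := by
    intro j i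
    rw [lam_exp, Real.log_exp]
    unfold Lg
    ring
  refine ⟨⌊v⌋₊, ?_, ?_, ?_, ?_⟩
  · refine Nat.le_floor ?_
    have h3 := Real.log_le_log (lam_pos n s) h2
    rw [hlam, Real.log_rpow hx] at h3
    have h4 : (s : ℝ) * Real.log 2 ≤ v * Real.log 2 := by
      rw [hvl]
      linarith
    exact le_of_mul_le_mul_right h4 hl20
  · rw [← Real.log_le_log_iff (Real.rpow_pos_of_pos hx' _) (lam_pos _ _), hlam,
      Real.log_rpow hx']
    have h3 : Real.log x' ≤ -Real.log 2 := by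
      have := Real.log_le_log hx' hx1
      rwa [one_div, Real.log_inv] at this
    have h4 : (v - 1 - m) * Real.log 2 ≤ ((⌊v⌋₊ : ℝ) - m) * Real.log 2 :=
      mul_le_mul_of_nonneg_right (by linarith) hl20.le
    refine le_trans ?_ h4
    have h5 : (v - 1 - m) * Real.log 2 = C1 * Real.log x' - Real.log 2 := by
      have : (v - 1 - m) * Real.log 2 = v * Real.log 2 - Real.log 2 - m * Real.log 2 := by ring
      rw [this, hvl]
      ring
    rw [h5]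
    have h6 : 24 * Real.log 2 ≤ C1 * (-Real.log x') :=
      mul_le_mul hC1 (by linarith) hl20.le (by linarith)
    linarith
  · rw [← Real.log_le_log_iff (lam_pos _ _) (Real.rpow_pos_of_pos hx' _), hlam,
      Real.log_rpow hx']
    have h4 : ((⌊v⌋₊ : ℝ) - m) * Real.log 2 ≤ (v - m) * Real.log 2 :=
      mul_le_mul_of_nonneg_right (by linarith) hl20.le
    refine h4.trans (le_of_eq ?_)
    rw [sub_mul, hvl]
    ring
  · have h3 : (m : ℝ) ≤ 2 * (⌊v⌋₊ : ℝ) := by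
      have h5 : (m : ℝ) / 2 ≤ v - 1 := by linarith
      have h6 : v - 1 < (⌊v⌋₊ : ℝ) := by linarith
      linarith
    exact_mod_cast h3

/-- the numbers of the persistence of the V state -/
structure Nv (c1 dl C1 q e w : ℝ) : Prop where
  a1 : q * (2 * e ^ (7 / 8 : ℝ)) ≤ 1 / 8 * e ^ (17 / 20 : ℝ)
  a2 : q * (8 * hS e) ≤ 1 / 8 * e ^ (17 / 20 : ℝ)
  a3 : q ^ 3 * (7 * e ^ 3) ≤ 1 / 8 * e ^ (17 / 20 : ℝ)
  a4 : 2 * e ^ (87 / 100 : ℝ) ≤ 1 / 8 * e ^ (17 / 20 : ℝ)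
  a5 : q ^ 4 * (2 * e ^ (439 / 500 : ℝ) + e) ≤ 1 / 16 * e ^ (7 / 8 : ℝ)
  a6 : q ^ 4 * (3 * hS e) ≤ 1 / 16 * e ^ (7 / 8 : ℝ)
  a7 : q * e ^ 2 ≤ 1 / 16 * e ^ (7 / 8 : ℝ)
  a8 : q ^ 6 * (4 * hS e) ≤ e ^ (439 / 500 : ℝ)
  a9 : 2 * q * e ^ (1 / 100 : ℝ) ≤ 1
  a10 : 4 * q ^ 2 * e ^ (1 / 39 : ℝ) ≤ 1
  a11 : e ^ (-c1) + Real.log (2 * q) ≤ e ^ (-(19 / 10 * c1))
  a12 : 8 ≤ dl * w
  a13 : 8 * C1 ≤ w
  a14 : e ^ (17 / 20 : ℝ) ≤ 1

/-- the numbers hold for small `e` -/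
theorem nv_ex {c1 dl0 Cm thp ρ : ℝ} (hc1 : 0 < c1) (hdl : 0 < dl0) (hthp : 0 < thp)
    (hρ0 : 0 < ρ) (hρ : ρ ≤ 1 / 4000) : ∃ E0 : ℝ, 0 < E0 ∧ ∀ e w : ℝ, 0 < e → e ≤ E0 →
      thp * Real.logb 2 (1 / e) ≤ w → ∀ dl C1 : ℝ, dl0 ≤ dl → C1 ≤ Cm →
      Nv c1 dl C1 (e ^ (-ρ)) e w := by
  -- the general inequality
  have gen : ∀ (k : ℕ) (A B α β : ℝ), 0 < B → β + k * ρ < α → ∃ E0 : ℝ, 0 < E0 ∧ ∀ e : ℝ,
      0 < e → e ≤ E0 → (e ^ (-ρ)) ^ k * (A * e ^ α) ≤ B * e ^ β := by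
    intro k A B α β hB h
    obtain ⟨E0, hE0, hE⟩ := sm_rpow (s := α - (β + k * ρ)) (A := A) (sub_pos.2 h) hB
    refine ⟨E0, hE0, fun e he hle => ?_⟩
    have h1 := hE e he hle
    have h2 : (e ^ (-ρ)) ^ k * e ^ α = e ^ (α - (β + k * ρ)) * e ^ β := by
      rw [← Real.rpow_natCast, ← Real.rpow_mul he.le, ← Real.rpow_add he, ← Real.rpow_add he]
      congr 1
      ring
    calc (e ^ (-ρ)) ^ k * (A * e ^ α) = A * ((e ^ (-ρ)) ^ k * e ^ α) := by ring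
      _ = (A * e ^ (α - (β + k * ρ))) * e ^ β := by rw [h2]; ring
      _ ≤ B * e ^ β := mul_le_mul_of_nonneg_right h1 (Real.rpow_nonneg he.le _)
  obtain ⟨E1, p1, n1⟩ := gen 1 2 (1 / 8) (7 / 8) (17 / 20) (by norm_num) (by push_cast; linarith)
  obtain ⟨E2, p2, n2⟩ := gen 1 8 (1 / 8) (22 / 25) (17 / 20) (by norm_num) (by push_cast; linarith)
  obtain ⟨E3, p3, n3⟩ := gen 3 7 (1 / 8) 3 (17 / 20) (by norm_num) (by push_cast; linarith)
  obtain ⟨E4, p4, n4⟩ := gen 0 2 (1 / 8) (87 / 100) (17 / 20) (by norm_num)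
    (by push_cast; linarith)
  obtain ⟨E5, p5, n5⟩ := gen 4 3 (1 / 16) (439 / 500) (7 / 8) (by norm_num)
    (by push_cast; linarith)
  obtain ⟨E6, p6, n6⟩ := gen 4 3 (1 / 16) (22 / 25) (7 / 8) (by norm_num) (by push_cast; linarith)
  obtain ⟨E7, p7, n7⟩ := gen 1 1 (1 / 16) 2 (7 / 8) (by norm_num) (by push_cast; linarith)
  obtain ⟨E8, p8, n8⟩ := gen 6 4 1 (22 / 25) (439 / 500) (by norm_num) (by push_cast; linarith)
  obtain ⟨E9, p9, n9⟩ := gen 1 2 1 (1 / 100) 0 (by norm_num) (by push_cast; linarith)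
  obtain ⟨E10, p10, n10⟩ := gen 2 4 1 (1 / 39) 0 (by norm_num) (by push_cast; linarith)
  obtain ⟨E11, p11, n11⟩ := sm_rpow (s := 9 / 10 * c1) (A := 1 + Real.log 2 + ρ / c1)
    (by positivity) one_pos
  obtain ⟨E12, p12, n12⟩ := sm_rpow (s := thp) (A := (2 : ℝ) ^ (8 / dl0)) hthp one_pos
  obtain ⟨E13, p13, n13⟩ := sm_rpow (s := thp) (A := (2 : ℝ) ^ (8 * Cm)) hthp one_pos
  refine ⟨min (1 / 2) (min E1 (min E2 (min E3 (min E4 (min E5 (min E6 (min E7 (min E8 (min E9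
    (min E10 (min E11 (min E12 E13)))))))))))), by positivity, ?_⟩
  intro e w he hle hw dl C1 hdl1 hCC
  simp only [le_min_iff] at hle
  obtain ⟨g0, g1, g2, g3, g4, g5, g6, g7, g8, g9, g10, g11, g12, g13⟩ := hle
  have he1 : e ≤ 1 := by linarith
  have f1 := n1 e he g1
  have f2 := n2 e he g2
  have f3 := n3 e he g3
  have f4 := n4 e he g4
  have f5 := n5 e he g5
  have f6 := n6 e he g6
  have f7 := n7 e he g7
  have f8 := n8 e he g8
  have f9 := n9 e he g9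
  have f10 := n10 e he g10
  have f11 := n11 e he g11
  have f12 := n12 e he g12
  have f13 := n13 e he g13
  clear n1 n2 n3 n4 n5 n6 n7 n8 n9 n10 n11 n12 n13 gen
  have hw2 : e ^ (-thp) ≤ (2 : ℝ) ^ w := by
    have h2 : e ^ (-thp) = (2 : ℝ) ^ (thp * Real.logb 2 (1 / e)) := by
      rw [mul_comm, Real.rpow_mul two_pos.le, Real.rpow_logb two_pos (by norm_num) (by positivity),
        one_div, Real.inv_rpow he.le, Real.rpow_neg he.le]
    rw [h2]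
    exact Real.rpow_le_rpow_of_exponent_le one_le_two hw
  have hwA : ∀ A : ℝ, (2 : ℝ) ^ A * e ^ thp ≤ 1 → A ≤ w := by
    intro A hA
    have h3 : (2 : ℝ) ^ A ≤ e ^ (-thp) := by
      have h4 := mul_le_mul_of_nonneg_right hA (Real.rpow_nonneg he.le (-thp))
      rwa [mul_assoc, ← Real.rpow_add he, add_neg_cancel, Real.rpow_zero, mul_one, one_mul] at h4
    exact (Real.rpow_le_rpow_left_iff one_lt_two).1 (h3.trans hw2)
  constructor
  · rwa [pow_one] at f1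
  · rwa [pow_one] at f2
  · have e3 : e ^ (3 : ℝ) = e ^ 3 := by exact_mod_cast Real.rpow_natCast e 3
    rwa [e3] at f3
  · rwa [pow_zero, one_mul] at f4
  · refine le_trans ?_ f5
    refine mul_le_mul_of_nonneg_left ?_ (by positivity)
    have h1 : e ≤ e ^ (439 / 500 : ℝ) := by
      calc e = e ^ (1 : ℝ) := (Real.rpow_one e).symm
        _ ≤ _ := Real.rpow_le_rpow_of_exponent_ge he he1 (by norm_num)
    linarith
  · exact f6
  · have e3 : e ^ (2 : ℝ) = e ^ 2 := by exact_mod_cast Real.rpow_natCast e 2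
    rwa [pow_one, one_mul, e3] at f7
  · rwa [one_mul] at f8
  · rw [pow_one, Real.rpow_zero, mul_one] at f9
    calc _ = _ := by ring
      _ ≤ 1 := f9
  · rw [Real.rpow_zero, mul_one] at f10
    calc _ = _ := by ring
      _ ≤ 1 := f10
  · have h1 : Real.log (2 * e ^ (-ρ)) = Real.log 2 + ρ * Real.log (1 / e) := by
      rw [Real.log_mul (by norm_num) (Real.rpow_pos_of_pos he _).ne', Real.log_rpow he, one_div,
        Real.log_inv]
      ring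
    have h2 := log_le_rpow hc1 he
    have h3 : 1 ≤ e ^ (-c1) := Real.one_le_rpow_of_pos_of_le_one_of_nonpos he he1 (by linarith)
    have hl2 := Real.log_pos one_lt_two
    rw [h1]
    calc e ^ (-c1) + (Real.log 2 + ρ * Real.log (1 / e))
        ≤ e ^ (-c1) + (Real.log 2 * e ^ (-c1) + ρ * (e ^ (-c1) / c1)) := by
          have := mul_le_mul_of_nonneg_left h2 hρ0.le
          have h5 : Real.log 2 ≤ Real.log 2 * e ^ (-c1) := le_mul_of_one_le_right hl2.le h3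
          linarith
      _ = (1 + Real.log 2 + ρ / c1) * e ^ (-c1) := by ring
      _ = ((1 + Real.log 2 + ρ / c1) * e ^ (9 / 10 * c1)) * e ^ (-(19 / 10 * c1)) := by
          rw [mul_assoc, ← Real.rpow_add he]
          congr 2
          ring
      _ ≤ 1 * e ^ (-(19 / 10 * c1)) :=
          mul_le_mul_of_nonneg_right f11 (Real.rpow_nonneg he.le _)
      _ = _ := one_mul _
  · have := hwA _ f12
    rw [div_le_iff₀ hdl] at this
    have hw0 : 0 ≤ w := le_trans (mul_nonneg hthp.le (Real.logb_nonneg one_lt_two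
      ((le_div_iff₀ he).2 (by linarith)))) hw
    have := mul_le_mul_of_nonneg_right hdl1 hw0
    linarith
  · have := hwA _ f13
    linarith
  · exact Real.rpow_le_one he.le he1 (by norm_num)

end

end Vale.Agent.P159.H889
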