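import Vale.Agent.P159.H889.Vreal2

/-!
P159 / H889: THE STATE OF THE CHARGED SECTOR WITH SUP BOUNDS, its changes of law, the window with a
reference law.

* `SB A Φ ν z d D η Lp e K K'` : `ST` with `|ψ|, |lam| ≤ K`, `|Ψ| ≤ K'`; `SB.mono`, `SB.cast`,
  `SB.st`, `SB.law4` (change of law, `rel A₁ A₂` small in `HS`);
* `SB.win` : the window in the law `A` for the true functional `W`;
* `tn2_fch` : the functional after the window, two laws.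
-/

namespace Vale.Agent.P159.H889

open MeasureTheory ProbabilityTheory Finset Matrix
open Vale.Agent.P159.TM.Spec (V)
open Vale.Agent.P159.TM.SpecC (wT)
open Vale.Agent.P159.H37 (gau gau_sum qf)
open Vale.Agent.P159.H145 (mt)
open Vale.Agent.P159.H363
open Vale.Agent.P159.H864 (TI sym fc mlt cl up)
open Vale.Agent.P159.H462 (Dom ahat ti_ahat sym_ahat)
open Vale.Agent.P159.H708 (lfM avM m2 Ac Bm Sg)
open Vale.Agent.P159.H963 (CG GC vC)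
open Vale.Agent.P159.H896 (Ph om WM Ah Acx Pc lf2 tcf)
open Vale.Agent.P159.H340 (tce anw)
open scoped Real

noncomputable section

/-- **the state with bounds** -/
structure SB {n : ℕ} [NeZero n] (A : Matrix (V n) (V n) ℝ) (Φ : (V n → ℝ) → ℂ) (ν : ℝ) (z : ℂ)
    (d : ℝ) (D : ℕ) (η Lp e K K' : ℝ) : Prop where
  ex : ∃ (Ψ : (V n → ℝ) → ℂ) (ψ lam : V n → (V n → ℝ) → ℂ), Dif Ψ ψ ∧ Ch Ψ ∧ Den A ν z d ψ ∧
    Lcl A D η Lp ψ lam ∧ tn2 A (fun F => Φ F - Ψ F) ≤ e ∧ (∀ x F, ‖ψ x F‖ ≤ K) ∧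
    (∀ x F, ‖lam x F‖ ≤ K) ∧ (∀ F, ‖Ψ F‖ ≤ K')

section gen

variable {n : ℕ} [NeZero n] {A : Matrix (V n) (V n) ℝ}

lemma SB.st {Φ : (V n → ℝ) → ℂ} {ν : ℝ} {z : ℂ} {d η Lp e K K' : ℝ} {D : ℕ}
    (h : SB A Φ ν z d D η Lp e K K') : ST A Φ ν z d D η Lp e := by
  obtain ⟨Ψ, ψ, lam, h1, h2, h3, h4, h5, -⟩ := h.ex
  exact ⟨Ψ, ψ, lam, h1, h2, h3, h4, h5⟩

theorem SB.mono {Φ : (V n → ℝ) → ℂ} {ν : ℝ} {z : ℂ} {d d' η η' Lp Lp' e e' K K₁ K' K₁' : ℝ}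
    {D D' : ℕ} (h : SB A Φ ν z d D η Lp e K K') (hd : d ≤ d') (hD : D ≤ D') (hη : η ≤ η')
    (hL : Lp ≤ Lp') (he : e ≤ e') (hK : K ≤ K₁) (hK' : K' ≤ K₁') :
    SB A Φ ν z d' D' η' Lp' e' K₁ K₁' := by
  obtain ⟨Ψ, ψ, lam, h1, h2, h3, h4, h5, h6, h7, h8⟩ := h.ex
  exact ⟨Ψ, ψ, lam, h1, h2, h3.mono hd, h4.mono hD hη hL, h5.trans he,
    fun x F => (h6 x F).trans hK, fun x F => (h7 x F).trans hK, fun F => (h8 F).trans hK'⟩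

/-- change of the coefficient -/
theorem Den.coef {ν : ℝ} {z z' : ℂ} {d δ : ℝ} {ψ : V n → (V n → ℝ) → ℂ} (hA : Nf A)
    (hS0 : ∀ x y, 0 ≤ (1 - ν⁻¹ • A) x y) (h : Den A ν z d ψ) (hz : ‖z - z'‖ ≤ δ) :
    Den A ν z' (d + δ) ψ := by
  refine ⟨h.m, h.bd, h.ch, h.cov, fun x => ?_⟩
  have e : ∀ F, ψ x F - z' * mainf (1 - ν⁻¹ • A) x F
      = (ψ x F - z * mainf (1 - ν⁻¹ • A) x F) + (z - z') * mainf (1 - ν⁻¹ • A) x F := fun F => by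
    ring
  rw [tn2_congr e]
  obtain ⟨K, hK⟩ := h.bd
  have m1 : Measurable fun F => ψ x F - z * mainf (1 - ν⁻¹ • A) x F :=
    (h.m x).sub ((measurable_mainf _ x).const_mul _)
  have m2 : Measurable fun F => (z - z') * mainf (1 - ν⁻¹ • A) x F :=
    (measurable_mainf _ x).const_mul _
  have b1 : ∀ F, ‖ψ x F - z * mainf (1 - ν⁻¹ • A) x F‖ ≤ K + ‖z‖ := by
    intro F
    refine (norm_sub_le _ _).trans (add_le_add (hK x F) ?_)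
    rw [norm_mul]
    exact mul_le_of_le_one_right (norm_nonneg _) (mainf_le_one hA hS0 x F)
  have b2 : ∀ F, ‖(z - z') * mainf (1 - ν⁻¹ • A) x F‖ ≤ δ := by
    intro F
    rw [norm_mul]
    exact (mul_le_of_le_one_right (norm_nonneg _) (mainf_le_one hA hS0 x F)).trans hz
  refine (tn2_add_le m1 m2 b1 b2 A).trans (add_le_add (h.dev x) ?_)
  exact n2_le_const ((m2.comp (measurable_mulVec _)).aestronglyMeasurable)
    ((norm_nonneg _).trans hz) fun g => b2 _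

theorem SB.coef {Φ : (V n → ℝ) → ℂ} {ν : ℝ} {z z' : ℂ} {d η Lp e K K' δ : ℝ} {D : ℕ} (hA : Nf A)
    (hS0 : ∀ x y, 0 ≤ (1 - ν⁻¹ • A) x y) (h : SB A Φ ν z d D η Lp e K K')
    (hz : ‖z - z'‖ ≤ δ) : SB A Φ ν z' (d + δ) D η Lp e K K' := by
  obtain ⟨Ψ, ψ, lam, h1, h2, h3, h4, h5, h6⟩ := h.ex
  exact ⟨Ψ, ψ, lam, h1, h2, h3.coef hA hS0 hz, h4, h5, h6⟩

/-- **change of law of the state** -/
theorem SB.law4 {A₁ A₂ : Matrix (V n) (V n) ℝ} (h₁ : Nf A₁) (h₂ : Nf A₂) {ν ηb : ℝ} (hν : 0 < ν)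
    (hη : 0 < ηb) (hη2 : ηb ≤ 1 / 2) (hS1 : ∀ x y, 0 ≤ (1 - ν⁻¹ • A₁) x y)
    (hS2 : ∀ x y, 0 ≤ (1 - ν⁻¹ • A₂) x y) (hle : ∀ k, sym A₂ k ≤ ν)
    (hHS : ∑ k, rel A₁ A₂ k ^ 2 ≤ ηb ^ 2) {Φ : (V n → ℝ) → ℂ} (hΦ : Measurable Φ) {KΦ : ℝ}
    (hKΦ : ∀ F, ‖Φ F‖ ≤ KΦ) {z : ℂ} {d η Lp e K K' : ℝ} {D : ℕ}
    (h : SB A₁ Φ ν z d D η Lp e K K') :
    SB A₂ Φ ν z (2 * d + (K + ‖z‖) * tq ηb + ‖z‖ * qe ((n : ℝ) ^ 2 * ν) ηb) D
      (2 * η + 2 * K * tq ηb) Lp (2 * e + (KΦ + K') * tq ηb) K K' := by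
  obtain ⟨Ψ, ψ, lam, h1, h2, h3, h4, h5, h6, h7, h8⟩ := h.ex
  have hs4 : √(4 : ℝ) = 2 := by
    rw [show (4 : ℝ) = 2 ^ 2 by norm_num]
    exact Real.sqrt_sq (by norm_num)
  refine ⟨Ψ, ψ, lam, h1, h2, h3.law4 h₁ h₂ hν hη hη2 hS2 hle hHS (B := K + ‖z‖) fun x F => ?_,
    h4.law4 h₁ h₂ hη hη2 hHS h1.mx (B := 2 * K) fun x F => ?_, ?_, h6, h7, h8⟩
  · refine (norm_sub_le _ _).trans (add_le_add (h6 x F) ?_)
    rw [norm_mul]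
    exact mul_le_of_le_one_right (norm_nonneg _) (mainf_le_one h₁ hS1 x F)
  · refine (norm_sub_le _ _).trans ?_
    have := add_le_add (h6 x F) (h7 x F)
    linarith
  · have h9 := tn2_change h₁ h₂ (κ := 4) hη hη2 (by norm_num) hHS (u := fun F => Φ F - Ψ F)
      (hΦ.sub h1.m) (B := KΦ + K') fun F =>
        (norm_sub_le _ _).trans (add_le_add (hKΦ F) (h8 F))
    rw [hs4] at h9
    unfold tq
    linarith

/-- **the window in the law `A`**: `W` = the true functional, close to `Φ` in sup norm -/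
theorem SB.win {c s a : ℝ} {D : ℕ} {r₀ L r γr ρ ν : ℝ}
    (hP : Par n A ν c s a D r₀ L r γr ρ) {Φ W : (V n → ℝ) → ℂ} {u : V n → (V n → ℝ) → ℂ}
    (hΦ : Measurable Φ) {KΦ : ℝ} (hKΦ : ∀ F, ‖Φ F‖ ≤ KΦ)
    (hW : Dif W u) (cW : Ch W) (hu : Cov u) (hcu : ∀ x, Ch (u x))
    {z : ℂ} (hz : z ≠ 0) {d η Lp e e1 ηm K K' : ℝ} (hV : SB A Φ ν z d D η Lp e K K')
    (hm : ∀ x, tn2 A (fun F => mainf (1 - ν⁻¹ • A) x F - mainf (1 - ν⁻¹ • A) x (cutx D x F)) ≤ ηm)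
    (he1 : ∀ F, ‖Φ F - W F‖ ≤ e1) :
    ∃ κ : ℂ, ‖z‖ * ‖κ‖ ≤ γr * (d + (η + ‖z‖ * ηm)) ∧
      Den (A * ahat s A) (ν⁻¹ + s)⁻¹
        (z * ((Real.exp (-(2 * π ^ 2 * H363.vv s ν A)) : ℝ) + κ))
        (γr * (π * ρ + 2 / (s * ν)) * (d + (η + ‖z‖ * ηm)) + (η + ‖z‖ * ηm)
          + (2 * π)⁻¹ * (√(s * (n : ℝ) ^ 2))⁻¹ * (e + e1))
        (dn (ahat s A) (gm s A) u) := by
  obtain ⟨Ψ, ψ, lam, hΨ, cΨ, hden, hlcl, he, -, -, hK'⟩ := hV.ex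
  have e0 : ∀ F, W F - Ψ F = (Φ F - Ψ F) - (Φ F - W F) := fun F => by ring
  have hWΨ : tn2 A (fun F => W F - Ψ F) ≤ e + e1 := by
    rw [tn2_congr e0]
    refine (tn2_sub_le (hΦ.sub hΨ.m) (hΦ.sub hW.m) (K := KΦ + K') (fun F =>
      (norm_sub_le _ _).trans (add_le_add (hKΦ F) (hK' F))) he1 A).trans (add_le_add he ?_)
    exact n2_le_const (((hΦ.sub hW.m).comp (measurable_mulVec _)).aestronglyMeasurable)
      ((norm_nonneg _).trans (he1 0)) fun g => he1 _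
  exact vwin_den hP hz hΨ hW cΨ cW hden hlcl hu hcu hm hWΨ

end gen

/-- the state does not see the name of the side of the torus -/
theorem SB.cast {n m : ℕ} [NeZero n] [NeZero m] (h : n = m) {A : Matrix (V m) (V m) ℝ}
    {Φ : (V m → ℝ) → ℂ} {ν : ℝ} {z : ℂ} {d : ℝ} {D : ℕ} {η Lp e K K' : ℝ}
    (hS : SB (A.submatrix (tce h) (tce h)) (fun f' => Φ (f' ∘ (tce h).symm)) ν z d D η Lp e K K') :
    SB A Φ ν z d D η Lp e K K' := by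
  subst h
  have e1 : (tce (rfl : n = n)) = Equiv.refl (V n) := Equiv.ext fun x => H340.tce_rfl x
  rw [H340.sub_tce, e1] at hS
  exact hS

/-- **the real state with bounds**: torus `N`, cells `l`, scalar mass `t` -/
def VB (N l : ℕ) [NeZero N] [NeZero (N / l)] (b t : ℝ) (z : ℂ) (d : ℝ) (D : ℕ)
    (η Lp e K K' : ℝ) : Prop :=
  SB (acl N l b t t) (fun F => Ph (wT b N) (mt N t) 1 (lf N l F)) (t * (l : ℝ) ^ 2) z d D η Lp e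
    K K'

lemma VB.vt {N l : ℕ} [NeZero N] [NeZero (N / l)] {b t : ℝ} {z : ℂ} {d : ℝ} {D : ℕ}
    {η Lp e K K' : ℝ} (h : VB N l b t z d D η Lp e K K') : VT N l b t z d D η Lp e := h.st

end

end Vale.Agent.P159.H889
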