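import Vale.Agent.P159.H889.Vasm
import Vale.Agent.P159.H37.Fch

/-!
P159 / H889: ASSEMBLY of the pieces: `Pcs` in the order of constants.
-/

namespace Vale.Agent.P159.H889

open MeasureTheory ProbabilityTheory Finset Matrix
open Vale.Agent.P159.TM.Spec (V)
open Vale.Agent.P159.TM.SpecC (wT)
open Vale.Agent.P159.H145 (mt)
open Vale.Agent.P159.H363
open Vale.Agent.P159.H462 (Dom ahat)
open Vale.Agent.P159.H896 (Ph om WM Ah Acx Pc lf2)
open Vale.Agent.P159.H972 (tn Good RNG FL)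
open Vale.Agent.P159.H801 (Ev)
open Vale.Agent.P159.H640 (sm_rpow TT_pow)
open scoped Real

noncomputable section

variable {P : H972.Par} {b a C1 c1 : ℝ} {n m s s' : ℕ} {e e' y y' : ℝ}

lemma pA_acl {N l : ℕ} [NeZero N] [NeZero (N / l)] {t : ℝ} (hb : 0 ≤ b) (hl : l ∣ N) (ht : 0 < t)
    (x y : V (N / l)) : 0 ≤ (1 - (t * (l : ℝ) ^ 2)⁻¹ • acl N l b t t) x y :=
  H767.Sk_nonneg hb hl ht x y

lemma t0_le_tA (hC1 : 0 < C1) (hC : Cx P b C1 c1 n s e y) : t0 n s ≤ tA n s := by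
  have hl := lam_pos n s
  have hl1 := (hC.lam1 hC1).le
  have h1 : t0 n s = lam n s ^ (4 : ℝ) := by
    unfold t0
    rw [lam_exp, ← Real.exp_mul]
    congr 1
    ring
  rw [h1]
  exact Real.rpow_le_rpow_of_exponent_ge hl hl1 (by norm_num)

lemma size_one {j r : ℕ} (h : j ≤ r) : 1 ≤ tn j * ((2 ^ r : ℕ) : ℝ) ^ 2 := by
  have h5 : (4 : ℝ) ^ j = (2 ^ j) ^ 2 := by
    rw [← pow_mul, mul_comm, pow_mul]
    norm_num
  unfold tn
  rw [h5, ← div_eq_inv_mul, one_le_div (by positivity)]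
  push_cast
  exact pow_le_pow_left₀ (by positivity) (pow_le_pow_right₀ one_le_two h) 2

/-- the change of the functional (helper37) -/
lemma ef_num {N l : ℕ} [NeZero N] [NeZero (N / l)] {t t' : ℝ} (hb : 0 < b) (hl : l ∣ N)
    (ht' : 0 < t') (h1 : t' < t) {c c' ν' : ℝ} {B : Matrix (V (N / l)) (V (N / l)) ℝ}
    (hA : Dom (acl N l b t t) (t * (l : ℝ) ^ 2) c) (hB : Dom B ν' c') {η : ℝ} (hη : 0 ≤ η)
    (hη4 : η ≤ 1 / 4) (hHS : ∑ k, rel (acl N l b t t) B k ^ 2 ≤ η ^ 2) {o1 e1 : ℝ}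
    (ho : om (wT b N) (mt N t) 1 ≤ o1)
    (he1 : ∀ F, ‖Ph (wT b N) (mt N t) 1 (lf N l F) - Wc N l b t F‖ ≤ e1) :
    tn2 (Ah N l b t t t') (fun f => Pg (ahat (sn l t t') (acl N l b t t))
        (gm (sn l t t') (acl N l b t t)) (Wc N l b t) f
      - Pg (ahat (sn l t t') B) (gm (sn l t t') B) (Wc N l b t) f) ≤ 8 * η * (o1 + e1) := by
  have ht : 0 < t := ht'.trans h1
  refine H37.fch hA hB (sn_pos hl ht' h1) hη hη4 hHS (continuous_Wc hb.le ht).measurable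
    fun F => ?_
  have h2 := H896.norm_Ph_le (wm_mt (N := N) hb.le ht) 1 (lf N l F)
  have h3 := norm_sub_norm_le (Wc N l b t F) (Ph (wT b N) (mt N t) 1 (lf N l F))
  rw [norm_sub_rev] at h3
  linarith [he1 F]

/-- **ASSEMBLY** -/
theorem pcs_ev {b1 b2 pf C1 k0 c0 Cm A0 A1 A' : ℝ} {Q : ℕ} (hb1 : 0 < b1) (hC1 : 24 ≤ C1)
    (hA' : 0 ≤ A') (hA1 : 2 * A' + 1 ≤ A1)
    (hB : PcB b1 b2 pf Q C1 k0 c0 Cm) (hW : PcW b1 b2 pf Q C1 k0 c0 Cm A1)
    (hM : PcM b1 b2 pf Q C1 k0 c0 Cm A0 4) (hT : PcT b1 b2 pf Q C1 k0 c0 Cm A0 A')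
    (hH : PcH b1 b2 pf Q C1) (hN : PcN b1 b2 pf Q C1 A') (hG : PcG b1 b2 pf Q C1 k0 c0 Cm)
    (hO : PcO b1 b2 pf Q C1) (hE : PcE b1 b2 pf Q C1) :
    Ev b1 b2 pf Q fun P c1 => ∀ (b a : ℝ) (n m s : ℕ) (e e' y g : ℝ), CxF P b a C1 c1 n s e y →
      Cw P n m e e' → 0 ≤ g → g ≤ 1 / 2 → CH2 P b n e (y * e ^ g) →
      0 < b ∧ Nm P n m s e e' y ∧ Pcs P b a C1 c1 A1 A' n m s e e' y (y * e ^ (1 / 2 + g)) ∧
      TV P n e (m + P.kE e') ∧ P.TT n e (m + P.kE e') ∧ ∀ r, TV P m e' r → P.TT n e r := by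
  have hnum : Ev b1 b2 pf Q fun P c1 => P.b1 = b1 ∧
      (∀ e : ℝ, 0 < e → e ≤ P.es → hS e ≤ 1 / 4) ∧
      (∀ (b : ℝ) (n m s : ℕ) (e e' y : ℝ), Cx P b C1 c1 n s e y → Cw P n m e e' →
        Nm P n m s e e' y) ∧
      ∀ (n m : ℕ) (e e' : ℝ), 0 < e → e ≤ P.es → Cw P n m e e' →
      TV P n e (m + P.kE e') ∧ P.TT n e (m + P.kE e') ∧ (∀ r, TV P m e' r → P.TT n e r) ∧
      ∀ r, P.TT n e r → tn n * ((2 ^ r : ℕ) : ℝ) ^ 2 ≤ QP P e ^ 4 := by
    refine ev_num (ρ0 := 1 / 40) (κ := 1 / 10) (by norm_num) (by norm_num) ?_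
    intro th thp q0 hth hthp hle hq hρ c1 hc1 hc1'
    have hth1 : th ≤ 1 := by
      have : 0 ≤ 4 * (q0 : ℝ) * thp := by positivity
      linarith
    obtain ⟨E1, p1, n1⟩ := nm_ex (C1 := C1) (c1 := c1) hC1 hc1 (by linarith) hq hth hthp hρ
    obtain ⟨E2, p2, n2⟩ := tor_num (q0 := q0) hth hthp
    obtain ⟨E3, p3, n3⟩ := sm_rpow (s := 22 / 25) (A := 1) (by norm_num)
      (show (0 : ℝ) < 1 / 4 by norm_num)
    refine ⟨min E1 (min E2 E3), by positivity, fun P hA h1 h2 h3 hes hb1' _ _ => ⟨hb1', ?_, ?_, ?_⟩⟩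
    · intro e he hle
      have := n3 e he (hle.trans (hes.trans ((min_le_right _ _).trans (min_le_right _ _))))
      rwa [one_mul] at this
    · intro b n m s e e' y hC hw
      exact n1 P h1 h2 h3 b n m s e e' y (hC.es.trans (hes.trans (min_le_left _ _))) hC hw
    · intro n m e e' he hle hw
      exact n2 P hA h1 h2 h3 n m e e' he
        (hle.trans (hes.trans ((min_le_right _ _).trans (min_le_left _ _)))) hle hw
  have hall := (((((((((hB.and hW).and hM).and hT).and hH).and hN).and hG).and hO).and hE).and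
    hnum)
  refine hall.mono ?_
  rintro P c1 - ⟨⟨⟨⟨⟨⟨⟨⟨⟨qB, qW⟩, qM⟩, qT⟩, qH⟩, qN⟩, qG⟩, qO⟩, qE⟩, qb1, q14, qnm, qtor⟩
  intro b a n m s e e' y g F W hg0 hg1 hch
  have hC := F.cx
  have hb : 0 < b := by
    have := hC.b1
    rw [qb1] at this
    linarith
  have he0 := hC.e0
  have he1 : e ≤ 1 := by linarith [hC.e1]
  have hC10 : 0 < C1 := by linarith
  have hNm := qnm b n m s e e' y hC W
  obtain ⟨g1, g2, g3, g4⟩ := qtor n m e e' he0 hC.es W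
  have hsn := hC.sn hC10
  have hnm := W.nm
  have hQ20 := hNm.Q20
  have hQ0 : 0 < QP P e := by linarith
  have hy0 := hC.y0
  have hS14 := q14 e he0 hC.es
  have hSp : 0 < hS e := Real.rpow_pos_of_pos he0 _
  have h4 : hS e ≤ 1 / 4 := hS14
  have heg : e ^ (1 / 2 + g) ≤ 1 := Real.rpow_le_one he0.le he1 (by linarith)
  have heg0 : 0 ≤ y * e ^ (1 / 2 + g) := mul_nonneg hy0.le (Real.rpow_nonneg he0.le _)
  have hyQ : y * QP P e ^ 3 ≤ QP P e ^ 4 := by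
    calc y * QP P e ^ 3 ≤ QP P e * QP P e ^ 3 :=
          mul_le_mul_of_nonneg_right (by linarith [hC.ylt]) (by positivity)
      _ = _ := by ring
  have htm : tn m < tn n := by
    rw [tn_mul n m]
    have h2 := H972.tn_pos m
    have h3 : 2 ^ 2 ≤ Mw n m ^ 2 := pow_le_pow_left₀ (by norm_num) hNm.M2 2
    have h5 := mul_le_mul_of_nonneg_right h3 h2.le
    linarith
  refine ⟨hb, hNm, ?_, g1, g2, g3⟩
  refine ⟨?_, ?_, ?_, ?_⟩
  · -- the window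
    intro r _ _ h hr hmr
    have hBr := qB b a n s e y F r hr h
    obtain ⟨CC, γr, hWP⟩ := qW b a n m s e e' y F W r hr hmr h hBr
    obtain ⟨o1, o2, o3⟩ := qO b a n m s e e' y g F W hg0 hg1 hch r hr
    have hl : 2 ^ s ∣ 2 ^ r := pow_dvd_pow 2 (by omega)
    refine ⟨CC, γr, ⟨hWP.par, hWP.CC0, hWP.γ0, hWP.p1, fun x y => pA_acl hb.le hl
      (H972.tn_pos n) x y, H340.nf_acl hb hl (H972.tn_pos n) le_rfl, hBr.hs, hWP.size,
      o2.trans hyQ, fun x => (hWP.tail x).trans (t0_le_tA hC10 hC), heg0, o1⟩, hWP.g1, hWP.g2⟩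
  · -- the growth
    intro r _ _ h hr hmr
    exact qG b a n m s e e' y F W r hr hmr h (qB b a n s e y F r hr h)
  · -- the torus
    intro r r' _ _ _ h h' hr hmr hr' hmr'
    have hB1 := qB b a n s e y F r hr h
    have hB2 := qB b a n s e y F r' hr' h'
    obtain ⟨D1, R, hT1, hD1⟩ := qT b a n m s e e' y F W r r' hr hmr hr' hmr' h h' hB1 hB2
      (qM b a n s e y F r r' hr hr' h h' hB1 hB2)
    exact ⟨_, _, _, _, hT1, hD1⟩
  · -- the cells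
    intro r s1 D1 y1 _ _ _ _ h hr hmr hC' hy1 hy2 hss hD1
    have hBr := qB b a n s e y F r hr h
    have hY : Cy P b C1 c1 m s s1 e e' y y1 := ⟨hC', hy1, hy2, hss⟩
    obtain ⟨o1, o2, o3⟩ := qO b a n m s e e' y g F W hg0 hg1 hch r hr
    have hs1m := hC'.sn hC10
    have hl : 2 ^ s ∣ 2 ^ r := pow_dvd_pow 2 (by omega)
    have e2 : 2 ^ s * 2 ^ (s1 - s) = 2 ^ s1 := by rw [← pow_add, Nat.add_sub_cancel' hss]
    have hl2 : 2 ^ s * 2 ^ (s1 - s) ∣ 2 ^ r := by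
      rw [e2]
      exact pow_dvd_pow 2 (by omega)
    have hnum1 := qN b a n m s s1 e e' y y1 F W hY r hr hmr D1 hD1
    obtain ⟨c, s₀, hDom, hrest⟩ := hnum1
    have hef := ef_num (N := 2 ^ r) (l := 2 ^ s) (t := tn n) (t' := tn m) hb hl (H972.tn_pos m)
      htm hDom hBr.two.dom hSp.le h4 hBr.hs o2 o1
    refine ⟨fun x y => pA_acl hb.le hl (H972.tn_pos n) x y,
      fun x y => pA_acl hb.le hl2 (H972.tn_pos m) x y, hBr.hs',
      qH b a n m s s1 e e' y y1 F W hY r hr hmr,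
      Dc_next hC1 hA' hA1 hC W hC' hy2 hss hD1, size_one (by omega), g4 r hr,
      o3.trans hyQ, ⟨c, s₀, hDom, hrest⟩,
      qE b a n m s s1 e e' y y1 F W hY r hr hmr, hef.trans ?_⟩
    have hQ34 : 8 * (QP P e ^ 3 + 1) ≤ QP P e ^ 4 := by
      have h1 : (1 : ℝ) ≤ QP P e ^ 3 := one_le_pow₀ (by linarith)
      have h2 : QP P e ^ 4 = QP P e * QP P e ^ 3 := by ring
      rw [h2]
      nlinarith
    have h5 : y * QP P e ^ 3 + y * e ^ (1 / 2 + g) ≤ y * (QP P e ^ 3 + 1) := by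
      have := mul_le_mul_of_nonneg_left heg hy0.le
      linarith
    calc 8 * hS e * (y * QP P e ^ 3 + y * e ^ (1 / 2 + g))
        ≤ 8 * hS e * (y * (QP P e ^ 3 + 1)) := mul_le_mul_of_nonneg_left h5 (by positivity)
      _ = y * ((8 * (QP P e ^ 3 + 1)) * hS e) := by ring
      _ ≤ y * (QP P e ^ 4 * hS e) :=
          mul_le_mul_of_nonneg_left (mul_le_mul_of_nonneg_right hQ34 hSp.le) hy0.le

end

end Vale.Agent.P159.H889
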