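import Vale.Agent.P159.H889.Vloc
import Vale.Agent.P159.H864.Cel0

/-!
P159 / H889: the cells of close sites are close.
-/

namespace Vale.Agent.P159.H889

open Vale.Agent.P159.TM.Spec (V)
open Vale.Agent.P159.H864 (cl cl1)

lemma natAbs_natCast_le {n : ℕ} [NeZero n] (k : ℕ) : ((k : ZMod n).valMinAbs).natAbs ≤ k := by
  by_cases h : k ≤ n / 2
  · rw [ZMod.valMinAbs_natCast_of_le_half h]
    simp
  · exact (ZMod.natAbs_valMinAbs_le (k : ZMod n)).trans (not_le.1 h).le

section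

variable {N l : ℕ} [NeZero N] [NeZero (N / l)]

omit [NeZero N] [NeZero (N / l)] in
lemma cl1_nat (hl : l ∣ N) (m : ℕ) : (cl1 (m : ZMod N) : ZMod (N / l)) = ((m / l : ℕ) : ZMod (N / l)) := by
  unfold cl1
  rw [ZMod.val_natCast]
  have h1 : m % N / l = m / l % (N / l) := by
    have h2 := Nat.mod_mul_right_div_self m l (N / l)
    rwa [Nat.mul_div_cancel' hl] at h2
  rw [h1, ZMod.natCast_mod]

lemma cl1_dist_aux (hl : l ∣ N) {D D' e : ℕ} (hD : D + l ≤ l * D') (he : e ≤ D) (a b : ZMod N)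
    (h : b = a + (e : ZMod N)) :
    ((cl1 b : ZMod (N / l)) - cl1 a).valMinAbs.natAbs ≤ D' := by
  have hl0 : 0 < l := H864.l_pos hl
  have h1 : b = ((a.val + e : ℕ) : ZMod N) := by
    rw [h]
    push_cast
    rw [ZMod.natCast_zmod_val]
  have h2 : (cl1 b : ZMod (N / l)) = (((a.val + e) / l : ℕ) : ZMod (N / l)) := by
    rw [h1, cl1_nat hl]
  have h3 : (cl1 a : ZMod (N / l)) = ((a.val / l : ℕ) : ZMod (N / l)) := rfl
  have h4 : a.val / l ≤ (a.val + e) / l := Nat.div_le_div_right (Nat.le_add_right _ _)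
  have h5 : (cl1 b : ZMod (N / l)) - cl1 a = (((a.val + e) / l - a.val / l : ℕ) : ZMod (N / l)) := by
    rw [h2, h3, Nat.cast_sub h4]
  rw [h5]
  refine (natAbs_natCast_le _).trans ?_
  have h6 : (a.val + e) / l < a.val / l + D' := by
    rw [Nat.div_lt_iff_lt_mul hl0]
    have h7 := Nat.div_add_mod a.val l
    have h8 := Nat.mod_lt a.val hl0
    nlinarith
  omega

lemma cl1_dist (hl : l ∣ N) {D D' : ℕ} (hD : D + l ≤ l * D') (a b : ZMod N)
    (h : (b - a).valMinAbs.natAbs ≤ D) :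
    ((cl1 b : ZMod (N / l)) - cl1 a).valMinAbs.natAbs ≤ D' := by
  have h1 := ZMod.natCast_natAbs_valMinAbs (b - a)
  by_cases hc : (b - a).val ≤ N / 2
  · rw [if_pos hc] at h1
    exact cl1_dist_aux hl hD h a b (by rw [h1]; ring)
  · rw [if_neg hc] at h1
    have h2 := cl1_dist_aux hl hD h b a (by rw [h1]; ring)
    have e : (cl1 b : ZMod (N / l)) - cl1 a = -((cl1 a : ZMod (N / l)) - cl1 b) := by ring
    rw [e, ZMod.natAbs_valMinAbs_neg]
    exact h2

/-- close sites have close cells -/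
theorem cl_box (hl : l ∣ N) {D D' : ℕ} (hD : D + l ≤ l * D') {x y : V N}
    (h : y ∈ H462.box x D) : (cl y : V (N / l)) ∈ H462.box (cl x) D' := by
  rw [H462.mem_box] at h ⊢
  exact ⟨cl1_dist hl hD _ _ h.1, cl1_dist hl hD _ _ h.2⟩

end

end Vale.Agent.P159.H889
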