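import Vale.Agent.P159.H363.Win

/-!
P159 / H889: REVERSE POINCARE inequality for one Gaussian step `Pg F0 A G (a) = E G (F0 a + A g)`.
If the shift `F0 δ` is represented in the noise (`A w = F0 δ`), the derivative of `Pg` along `δ` is
`E (w·g) G`, and the sum of the squares of the partial derivatives is bounded by
`κ E |G|²`, `κ` = the precision of the channel. No number of modes.
-/

namespace Vale.Agent.P159.H889

open MeasureTheory ProbabilityTheory Finset Matrix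
open Vale.Agent.P159.H37 (gau gau_sum gau_shift integrable_exp_norm)
open Vale.Agent.P159.H363
open scoped Real

variable {I J K Λ : Type*} [Fintype I] [Fintype J] [Fintype K] [Fintype Λ]

/-- derivative of the Gaussian operator in the noise direction `w` -/
noncomputable def dP (F0 : Matrix Λ J ℝ) (A : Matrix Λ I ℝ) (G : (Λ → ℝ) → ℂ) (a : J → ℝ)
    (w : I → ℝ) : ℂ :=
  ∫ g, ((w ⬝ᵥ g : ℝ) : ℂ) * G (F0 *ᵥ a + A *ᵥ g) ∂(gau I)

section real

variable {Ψ : (I → ℝ) → ℝ} {C : ℝ}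

lemma hasDerivAt_Hs_line (hΨ : Measurable Ψ) (hC : ∀ g, |Ψ g| ≤ C) (w : I → ℝ) :
    HasDerivAt (fun r : ℝ => Hs Ψ (r • w)) (Ds Ψ 0 w) 0 := by
  have h1 := hasDerivAt_Hs hΨ hC 0 w 0
  have e1 : cy (0 : I → ℝ) w 0 = 0 := by
    funext i
    simp [cy]
  have e2 : cy' (0 : I → ℝ) w 0 = w := by
    funext i
    simp [cy']
  rw [e1, e2] at h1
  have h2 : HasDerivAt Real.arcsin (1 / Real.sqrt (1 - 0 ^ 2)) 0 :=
    Real.hasDerivAt_arcsin (by norm_num) (by norm_num)
  have h3 : HasDerivAt (fun r : ℝ => Hs Ψ (cy 0 w (Real.arcsin r)))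
      (Ds Ψ 0 w * (1 / Real.sqrt (1 - 0 ^ 2))) 0 := by
    have h4 : HasDerivAt (fun θ => Hs Ψ (cy 0 w θ)) (Ds Ψ 0 w) (Real.arcsin 0) := by
      rw [Real.arcsin_zero]
      exact h1
    exact HasDerivAt.comp 0 h4 h2
  have h5 : Ds Ψ 0 w * (1 / Real.sqrt (1 - 0 ^ 2)) = Ds Ψ 0 w := by
    norm_num
  rw [h5] at h3
  refine h3.congr_of_eventuallyEq ?_
  have h6 : Set.Icc (-1 : ℝ) 1 ∈ nhds (0 : ℝ) := Icc_mem_nhds (by norm_num) (by norm_num)
  filter_upwards [h6] with r hr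
  congr 1
  funext i
  simp [cy, Real.sin_arcsin hr.1 hr.2]

end real

section complex

variable {F0 : Matrix Λ J ℝ} {A : Matrix Λ I ℝ} {G : (Λ → ℝ) → ℂ} {C : ℝ}

/-- the functional of the noise -/
private noncomputable def Nz (F0 : Matrix Λ J ℝ) (A : Matrix Λ I ℝ) (G : (Λ → ℝ) → ℂ) (a : J → ℝ)
    (g : I → ℝ) : ℂ := G (F0 *ᵥ a + A *ᵥ g)

private lemma measurable_Nz (hG : Measurable G) (a : J → ℝ) : Measurable (Nz F0 A G a) :=
  hG.comp (measurable_const.add (measurable_mulVec A))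

private lemma int_dot_mul (hG : Measurable G) (hC : ∀ F, ‖G F‖ ≤ C) (a : J → ℝ) (w : I → ℝ) :
    Integrable (fun g => ((w ⬝ᵥ g : ℝ) : ℂ) * Nz F0 A G a g) (gau I) :=
  ((integrable_dot w).ofReal (𝕜 := ℂ)).mul_bdd (c := C)
    (measurable_Nz hG a).aestronglyMeasurable (Filter.Eventually.of_forall fun g => hC _)

lemma dP_re (hG : Measurable G) (hC : ∀ F, ‖G F‖ ≤ C) (a : J → ℝ) (w : I → ℝ) :
    (dP F0 A G a w).re = Ds (fun g => (Nz F0 A G a g).re) 0 w := by
  have h := (integral_re (int_dot_mul (F0 := F0) (A := A) hG hC a w)).symm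
  unfold dP Ds
  refine (h : _ = _).trans ?_
  refine integral_congr_ae (Filter.Eventually.of_forall fun g => ?_)
  simp

lemma dP_im (hG : Measurable G) (hC : ∀ F, ‖G F‖ ≤ C) (a : J → ℝ) (w : I → ℝ) :
    (dP F0 A G a w).im = Ds (fun g => (Nz F0 A G a g).im) 0 w := by
  have h := (integral_im (int_dot_mul (F0 := F0) (A := A) hG hC a w)).symm
  unfold dP Ds
  refine (h : _ = _).trans ?_
  refine integral_congr_ae (Filter.Eventually.of_forall fun g => ?_)
  simp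

/-- derivative of the Gaussian operator -/
theorem hasDerivAt_Pg (hG : Measurable G) (hC : ∀ F, ‖G F‖ ≤ C) (a δ : J → ℝ) (w : I → ℝ)
    (hw : A *ᵥ w = F0 *ᵥ δ) :
    HasDerivAt (fun r : ℝ => Pg F0 A G (a + r • δ)) (dP F0 A G a w) 0 := by
  set u : (I → ℝ) → ℝ := fun g => (Nz F0 A G a g).re with hu
  set v : (I → ℝ) → ℝ := fun g => (Nz F0 A G a g).im with hv
  have mu : Measurable u := Complex.measurable_re.comp (measurable_Nz hG a)
  have mv : Measurable v := Complex.measurable_im.comp (measurable_Nz hG a)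
  have bu : ∀ g, |u g| ≤ C := fun g => (Complex.abs_re_le_norm _).trans (hC _)
  have bv : ∀ g, |v g| ≤ C := fun g => (Complex.abs_im_le_norm _).trans (hC _)
  have h1 := (hasDerivAt_Hs_line mu bu w).ofReal_comp
  have h2 := (hasDerivAt_Hs_line mv bv w).ofReal_comp
  have h3 := h1.add (h2.mul_const Complex.I)
  have e1 : ∀ r : ℝ, Pg F0 A G (a + r • δ)
      = ((Hs u (r • w) : ℝ) : ℂ) + ((Hs v (r • w) : ℝ) : ℂ) * Complex.I := by
    intro r
    have e2 : Pg F0 A G (a + r • δ) = ∫ g, Nz F0 A G a (g + r • w) ∂(gau I) := by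
      unfold Pg Nz
      refine integral_congr_ae (Filter.Eventually.of_forall fun g => ?_)
      simp only
      congr 1
      rw [mulVec_add, mulVec_add, mulVec_smul, mulVec_smul, hw]
      abel
    have hi : Integrable (fun g => Nz F0 A G a (g + r • w)) (gau I) :=
      Integrable.of_bound (C := C)
        ((measurable_Nz hG a).comp (measurable_id.add_const _)).aestronglyMeasurable
        (Filter.Eventually.of_forall fun g => hC _)
    have hre : (Pg F0 A G (a + r • δ)).re = Hs u (r • w) := by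
      rw [e2]
      exact (integral_re hi).symm
    have him : (Pg F0 A G (a + r • δ)).im = Hs v (r • w) := by
      rw [e2]
      exact (integral_im hi).symm
    rw [← hre, ← him, Complex.re_add_im]
  have e3 : dP F0 A G a w = ((Ds u 0 w : ℝ) : ℂ) + ((Ds v 0 w : ℝ) : ℂ) * Complex.I := by
    rw [hu, hv, ← dP_re hG hC, ← dP_im hG hC, Complex.re_add_im]
  rw [e3]
  refine h3.congr_of_eventuallyEq (Filter.Eventually.of_forall fun r => ?_)
  simp only [Pi.add_apply]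
  exact e1 r

/-- **REVERSE POINCARE, pointwise** -/
theorem revP (hG : Measurable G) (hC : ∀ F, ‖G F‖ ≤ C) (a : J → ℝ) (W : Matrix I K ℝ) {κ : ℝ}
    (hκ : 0 ≤ κ) (hW : ∀ v : I → ℝ, ∑ X, (v ᵥ* W) X ^ 2 ≤ κ * ∑ i, v i ^ 2) :
    ∑ X, ‖dP F0 A G a (fun i => W i X)‖ ^ 2 ≤ κ * ∫ g, ‖G (F0 *ᵥ a + A *ᵥ g)‖ ^ 2 ∂(gau I) := by
  set u : (I → ℝ) → ℝ := fun g => (Nz F0 A G a g).re with hu
  set v : (I → ℝ) → ℝ := fun g => (Nz F0 A G a g).im with hv
  have mu : Measurable u := Complex.measurable_re.comp (measurable_Nz hG a)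
  have mv : Measurable v := Complex.measurable_im.comp (measurable_Nz hG a)
  have bu : ∀ g, |u g| ≤ C := fun g => (Complex.abs_re_le_norm _).trans (hC _)
  have bv : ∀ g, |v g| ≤ C := fun g => (Complex.abs_im_le_norm _).trans (hC _)
  have hnorm : ∀ z : ℂ, ‖z‖ ^ 2 = z.re ^ 2 + z.im ^ 2 := by
    intro z
    rw [Complex.sq_norm, Complex.normSq_apply]
    ring
  have e1 : ∀ X, ‖dP F0 A G a (fun i => W i X)‖ ^ 2
      = (gr u 0 ᵥ* W) X ^ 2 + (gr v 0 ᵥ* W) X ^ 2 := by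
    intro X
    rw [hnorm, dP_re hG hC, dP_im hG hC]
    have e2 : Ds (fun g => (Nz F0 A G a g).re) 0 (fun i => W i X) = (gr u 0 ᵥ* W) X := by
      rw [← hu, Ds_gr mu bu, dotProduct_comm]
      rfl
    have e3 : Ds (fun g => (Nz F0 A G a g).im) 0 (fun i => W i X) = (gr v 0 ᵥ* W) X := by
      rw [← hv, Ds_gr mv bv, dotProduct_comm]
      rfl
    rw [e2, e3]
  simp only [e1]
  rw [Finset.sum_add_distrib]
  have b1 := (hW (gr u 0)).trans (mul_le_mul_of_nonneg_left (bessel mu bu 0) hκ)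
  have b2 := (hW (gr v 0)).trans (mul_le_mul_of_nonneg_left (bessel mv bv 0) hκ)
  refine (add_le_add b1 b2).trans (le_of_eq ?_)
  rw [← mul_add]
  congr 1
  rw [← integral_add (integrable_sq mu bu 0) (integrable_sq mv bv 0)]
  refine integral_congr_ae (Filter.Eventually.of_forall fun g => ?_)
  simp only [add_zero]
  rw [← hnorm]
  rfl

lemma measurable_dP (hG : Measurable G) (w : I → ℝ) : Measurable fun a => dP F0 A G a w := by
  unfold dP
  apply StronglyMeasurable.measurable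
  apply StronglyMeasurable.integral_prod_right'
    (f := fun q : (J → ℝ) × (I → ℝ) => ((w ⬝ᵥ q.2 : ℝ) : ℂ) * G (F0 *ᵥ q.1 + A *ᵥ q.2))
  apply Measurable.stronglyMeasurable
  refine Measurable.mul ?_ (hG.comp (((measurable_mulVec F0).comp measurable_fst).add
    ((measurable_mulVec A).comp measurable_snd)))
  exact Complex.measurable_ofReal.comp ((measurable_dot w).comp measurable_snd)

/-- crude bound of the derivative -/
lemma norm_dP_le (hG : Measurable G) (hC : ∀ F, ‖G F‖ ≤ C) (a : J → ℝ) (w : I → ℝ) :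
    ‖dP F0 A G a w‖ ^ 2 ≤ 2 * (C ^ 2 * ∑ i, w i ^ 2) := by
  have hnorm : ‖dP F0 A G a w‖ ^ 2 = (dP F0 A G a w).re ^ 2 + (dP F0 A G a w).im ^ 2 := by
    rw [Complex.sq_norm, Complex.normSq_apply]
    ring
  rw [hnorm, dP_re hG hC, dP_im hG hC]
  have mu : Measurable fun g => (Nz F0 A G a g).re :=
    Complex.measurable_re.comp (measurable_Nz hG a)
  have mv : Measurable fun g => (Nz F0 A G a g).im :=
    Complex.measurable_im.comp (measurable_Nz hG a)
  have b1 := Ds_sq_le mu (C := C) (fun g => (Complex.abs_re_le_norm _).trans (hC _)) 0 w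
  have b2 := Ds_sq_le mv (C := C) (fun g => (Complex.abs_im_le_norm _).trans (hC _)) 0 w
  linarith

lemma norm_dP_le' (hG : Measurable G) (hC : ∀ F, ‖G F‖ ≤ C) (w : I → ℝ) :
    ∃ c : ℝ, ∀ a : J → ℝ, ‖dP F0 A G a w‖ ≤ c := by
  refine ⟨Real.sqrt (2 * (C ^ 2 * ∑ i, w i ^ 2)), fun a => ?_⟩
  apply Real.le_sqrt_of_sq_le
  exact norm_dP_le hG hC a w

/-- **REVERSE POINCARE in `L²`** for random `a = C' b` -/
theorem revP_int {L : Type*} [Fintype L] (hG : Measurable G) (hC : ∀ F, ‖G F‖ ≤ C)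
    (C' : Matrix J L ℝ) (W : Matrix I K ℝ) {κ : ℝ}
    (hκ : 0 ≤ κ) (hW : ∀ v : I → ℝ, ∑ X, (v ᵥ* W) X ^ 2 ≤ κ * ∑ i, v i ^ 2) :
    ∑ X, ∫ b, ‖dP F0 A G (C' *ᵥ b) (fun i => W i X)‖ ^ 2 ∂(gau L)
      ≤ κ * ∫ b, ∫ g, ‖G (F0 *ᵥ (C' *ᵥ b) + A *ᵥ g)‖ ^ 2 ∂(gau I) ∂(gau L) := by
  have hint : ∀ X, Integrable (fun b => ‖dP F0 A G (C' *ᵥ b) (fun i => W i X)‖ ^ 2) (gau L) := by
    intro X
    obtain ⟨c, hc⟩ := norm_dP_le' (F0 := F0) (A := A) hG hC (fun i => W i X)
    refine Integrable.of_bound (C := c ^ 2) ?_ (Filter.Eventually.of_forall fun b => ?_)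
    · exact (((measurable_dP hG _).comp (measurable_mulVec C')).norm.pow_const 2).aestronglyMeasurable
    · rw [norm_pow, norm_norm]
      exact pow_le_pow_left₀ (norm_nonneg _) (hc _) 2
  rw [← integral_finsetSum _ fun X _ => hint X, ← integral_const_mul]
  refine integral_mono_of_nonneg (Filter.Eventually.of_forall fun b => ?_) ?_
    (Filter.Eventually.of_forall fun b => ?_)
  · exact Finset.sum_nonneg fun X _ => by positivity
  · refine Integrable.const_mul ?_ κ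
    refine Integrable.of_bound (C := C ^ 2) ?_ (Filter.Eventually.of_forall fun b => ?_)
    · exact ((measurable_mass (F0 := F0) (A := A) hG).comp
        (measurable_mulVec C')).aestronglyMeasurable
    · exact mass_bound hC (C' *ᵥ b)
  · exact revP hG hC (C' *ᵥ b) W hκ hW

/-- the same when all the partial derivatives have the same size -/
theorem revP_avg {L : Type*} [Fintype L] [Nonempty K] (hG : Measurable G) (hC : ∀ F, ‖G F‖ ≤ C)
    (C' : Matrix J L ℝ) (W : Matrix I K ℝ) {κ : ℝ}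
    (hκ : 0 ≤ κ) (hW : ∀ v : I → ℝ, ∑ X, (v ᵥ* W) X ^ 2 ≤ κ * ∑ i, v i ^ 2)
    (hinv : ∀ X Y, ∫ b, ‖dP F0 A G (C' *ᵥ b) (fun i => W i X)‖ ^ 2 ∂(gau L)
      = ∫ b, ‖dP F0 A G (C' *ᵥ b) (fun i => W i Y)‖ ^ 2 ∂(gau L)) (X : K) :
    ∫ b, ‖dP F0 A G (C' *ᵥ b) (fun i => W i X)‖ ^ 2 ∂(gau L)
      ≤ κ / Fintype.card K
        * ∫ b, ∫ g, ‖G (F0 *ᵥ (C' *ᵥ b) + A *ᵥ g)‖ ^ 2 ∂(gau I) ∂(gau L) := by
  have h := revP_int (F0 := F0) (A := A) hG hC C' W hκ hW
  have e : ∑ Y, ∫ b, ‖dP F0 A G (C' *ᵥ b) (fun i => W i Y)‖ ^ 2 ∂(gau L)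
      = Fintype.card K * ∫ b, ‖dP F0 A G (C' *ᵥ b) (fun i => W i X)‖ ^ 2 ∂(gau L) := by
    rw [Finset.sum_congr rfl fun Y _ => hinv Y X, Finset.sum_const, Finset.card_univ, nsmul_eq_mul]
  rw [e] at h
  have hc : (0 : ℝ) < Fintype.card K := by
    exact_mod_cast Fintype.card_pos
  rw [div_mul_eq_mul_div, le_div_iff₀ hc]
  linarith

end complex

end Vale.Agent.P159.H889
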