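import Vale.Agent.P159.H889.Vasm2

/-!
P159 / H889: THE GENERAL STEP OF THE CHARGED SECTOR, in the order of constants.
-/

namespace Vale.Agent.P159.H889

open Vale.Agent.P159.H972 (tn Good FL)
open Vale.Agent.P159.H801 (Ev)
open scoped Real

noncomputable section

/-- the error of the coefficient -/
def ZE (P : H972.Par) (a : ℝ) (n m s : ℕ) (e z Δ : ℝ) : ℝ :=
  Mw n m ^ (1 / 10 : ℝ) * WX (QP P e) (hS e) (tA n s) z Δ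
    + 2 * z * Real.exp ((2 - π / a) * ((m : ℝ) - n) * Real.log 2) * e ^ (87 / 100 : ℝ)

/-- the new deviation -/
def DV (P : H972.Par) (n m : ℕ) (e y g z z' Δ E : ℝ) : ℝ :=
  Mw n m ^ (-(3 / 4) : ℝ) * Δ + QP P e ^ 3 * (2 * E + y * e ^ (1 / 2 + g))
    + QP P e ^ 2 * ((z + z') * hS e) + (e * y) ^ 2

/-- **THE GENERAL STEP**: state at level `n`, tori `TV`, cells `2 ^ s`, numbers `e, y`; the second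
harmonic with exponent `g` -/
def VSG (b1 b2 pf : ℝ) (Q : ℕ) (C1 A1 : ℝ) : Prop :=
  Ev b1 b2 pf Q fun P c1 => ∀ (b a : ℝ) (n m s : ℕ) (e e' y g : ℝ), CxF P b a C1 c1 n s e y →
    Cw P n m e e' → 0 ≤ g → g ≤ 1 / 2 → CH2 P b n e (y * e ^ g) →
    ∀ (ζ : ℂ) (Δ E : ℝ), ζ ≠ 0 → ‖ζ‖ ≤ 1 → Δ ≤ 2 → 0 ≤ E → SV P b A1 n s e ζ Δ E →
    ∃ ζ' : ℂ, ‖ζ' - ζ * ((Real.exp ((2 - π / a) * ((m : ℝ) - n) * Real.log 2) : ℝ) : ℂ)‖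
        ≤ ZE P a n m s e ‖ζ‖ Δ ∧
      ∀ (s' : ℕ) (y' : ℝ), Cy P b C1 c1 m s s' e e' y y' →
        SV P b A1 m s' e' ζ' (DV P n m e y g ‖ζ‖ ‖ζ'‖ Δ E) (y * (QP P e ^ 5 * hS e))

/-- the general step with the numbers -/
def VSGn (b1 b2 pf : ℝ) (Q : ℕ) (C1 A1 : ℝ) : Prop :=
  Ev b1 b2 pf Q fun P c1 => ∀ (b a : ℝ) (n m s : ℕ) (e e' y g : ℝ), CxF P b a C1 c1 n s e y →
    Cw P n m e e' → 0 ≤ g → g ≤ 1 / 2 → CH2 P b n e (y * e ^ g) → 0 < b ∧ Nm P n m s e e' y ∧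
    ∀ (ζ : ℂ) (Δ E : ℝ), ζ ≠ 0 → ‖ζ‖ ≤ 1 → Δ ≤ 2 → 0 ≤ E → SV P b A1 n s e ζ Δ E →
    ∃ ζ' : ℂ, ‖ζ' - ζ * ((Real.exp ((2 - π / a) * ((m : ℝ) - n) * Real.log 2) : ℝ) : ℂ)‖
        ≤ ZE P a n m s e ‖ζ‖ Δ ∧
      ∀ (s' : ℕ) (y' : ℝ), Cy P b C1 c1 m s s' e e' y y' →
        SV P b A1 m s' e' ζ' (DV P n m e y g ‖ζ‖ ‖ζ'‖ Δ E) (y * (QP P e ^ 5 * hS e))

lemma VSGn.vsg {b1 b2 pf C1 A1 : ℝ} {Q : ℕ} (h : VSGn b1 b2 pf Q C1 A1) :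
    VSG b1 b2 pf Q C1 A1 :=
  Ev.mono h fun _ _ _ h b a n m s e e' y g F W hg0 hg1 hch =>
    (h b a n m s e e' y g F W hg0 hg1 hch).2.2

/-- **THE GENERAL STEP from the pieces** -/
theorem vsgn {b1 b2 pf C1 k0 c0 Cm A0 A1 A' : ℝ} {Q : ℕ} (hb1 : 0 < b1) (hC1 : 24 ≤ C1)
    (hA' : 0 ≤ A') (hA1 : 2 * A' + 1 ≤ A1)
    (hB : PcB b1 b2 pf Q C1 k0 c0 Cm) (hW : PcW b1 b2 pf Q C1 k0 c0 Cm A1)
    (hM : PcM b1 b2 pf Q C1 k0 c0 Cm A0 4) (hT : PcT b1 b2 pf Q C1 k0 c0 Cm A0 A')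
    (hH : PcH b1 b2 pf Q C1) (hN : PcN b1 b2 pf Q C1 A') (hG : PcG b1 b2 pf Q C1 k0 c0 Cm)
    (hO : PcO b1 b2 pf Q C1) (hE : PcE b1 b2 pf Q C1) : VSGn b1 b2 pf Q C1 A1 := by
  refine Ev.mono (pcs_ev hb1 hC1 hA' hA1 hB hW hM hT hH hN hG hO hE) ?_
  intro P c1 _ h b a n m s e e' y g F W hg0 hg1 hch
  obtain ⟨hb, hNm, hP, t1, t2, t3⟩ := h b a n m s e e' y g F W hg0 hg1 hch
  refine ⟨hb, hNm, fun ζ Δ E hζ hζ1 hΔ hE0 hS => ?_⟩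
  obtain ⟨ζ', h1, h2⟩ := step_core hb (by linarith) F.cx hNm hP F.a1 F.a2 W.nm t1 t3 t2 hζ hζ1
    hΔ hE0 hS
  exact ⟨ζ', h1, fun s' y' hY => h2 s' y' hY.cx hY.h1 hY.h2 hY.ss⟩

end

end Vale.Agent.P159.H889
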