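import Vale.Agent.P159.H889.Vasm2
import Vale.Agent.P159.H889.Vpd
import Vale.Agent.P159.H889.Vsg

/-!
P159 / H889: ASSEMBLY of the pieces for a fixed `b`, exponent of the cells inside the order of constants;
THE GENERAL STEP `vsgC`.
-/

namespace Vale.Agent.P159.H889

open MeasureTheory ProbabilityTheory Finset Matrix
open Vale.Agent.P159.TM.Spec (V)
open Vale.Agent.P159.TM.SpecC (wT)
open Vale.Agent.P159.H145 (mt)
open Vale.Agent.P159.H363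
open Vale.Agent.P159.H462 (Dom ahat)
open Vale.Agent.P159.H896 (Ph om WM Ah Acx Pc lf2)
open Vale.Agent.P159.H972 (tn Good RNG FL)
open Vale.Agent.P159.H801 (Ev)
open Vale.Agent.P159.H640 (sm_rpow TT_pow)
open scoped Real

noncomputable section

/-- **ASSEMBLY**, fixed `b` -/
theorem pcs_evC {b b1 b2 pf K k0 c0 Cm A0 A1 A' : ℝ} {Q : ℕ} (hb1 : 0 < b1) (hbb : b1 ≤ b)
    (hK : 0 < K) (hA' : 0 ≤ A') (hA1 : 2 * A' + 1 ≤ A1)
    (hB : EvC b1 b2 pf Q K (BdB b k0 c0 Cm)) (hW : EvC b1 b2 pf Q K (BdW b k0 c0 Cm A1))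
    (hM : EvC b1 b2 pf Q K (BdM b k0 c0 Cm A0 4)) (hT : EvC b1 b2 pf Q K (BdT b k0 c0 Cm A0 A'))
    (hH : EvC b1 b2 pf Q K (BdH b)) (hN : EvC b1 b2 pf Q K (BdN b A'))
    (hG : EvC b1 b2 pf Q K (BdG b k0 c0 Cm)) (hO : EvC b1 b2 pf Q K (BdO b))
    (hE : EvC b1 b2 pf Q K (BdE b)) :
    EvC b1 b2 pf Q K fun P c1 C1 => 24 ≤ C1 ∧
      ∀ (a : ℝ) (n m s : ℕ) (e e' y g : ℝ), CxF P b a C1 c1 n s e y →
      Cw P n m e e' → 0 ≤ g → g ≤ 1 / 2 → CH2 P b n e (y * e ^ g) →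
      Nm P n m s e e' y ∧ Pcs P b a C1 c1 A1 A' n m s e e' y (y * e ^ (1 / 2 + g)) ∧
      TV P n e (m + P.kE e') ∧ P.TT n e (m + P.kE e') ∧ ∀ r, TV P m e' r → P.TT n e r := by
  have hnum : EvC b1 b2 pf Q K fun P c1 C1 => 24 ≤ C1 ∧
      (∀ e : ℝ, 0 < e → e ≤ P.es → hS e ≤ 1 / 4) ∧
      (∀ (b : ℝ) (n m s : ℕ) (e e' y : ℝ), Cx P b C1 c1 n s e y → Cw P n m e e' →
        Nm P n m s e e' y) ∧
      ∀ (n m : ℕ) (e e' : ℝ), 0 < e → e ≤ P.es → Cw P n m e e' →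
      TV P n e (m + P.kE e') ∧ P.TT n e (m + P.kE e') ∧ (∀ r, TV P m e' r → P.TT n e r) ∧
      ∀ r, P.TT n e r → tn n * ((2 ^ r : ℕ) : ℝ) ^ 2 ≤ QP P e ^ 4 := by
    refine ev_numC (ρ0 := 1 / 40) (κ := 1 / 10) (Cmin := 24) (by norm_num) (by norm_num) ?_
    intro th thp q0 hth hthp hle hq hρ C0 hC0 c1 hc1 hc1'
    have hth1 : th ≤ 1 := by
      have : 0 ≤ 4 * (q0 : ℝ) * thp := by positivity
      linarith
    obtain ⟨E1, p1, n1⟩ := nm_exC (Cm := K * C0) (c1 := c1) (by positivity) hc1 (by linarith) hq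
      hth hthp hρ
    obtain ⟨E2, p2, n2⟩ := tor_num (q0 := q0) hth hthp
    obtain ⟨E3, p3, n3⟩ := sm_rpow (s := 22 / 25) (A := 1) (by norm_num)
      (show (0 : ℝ) < 1 / 4 by norm_num)
    refine ⟨min E1 (min E2 E3), by positivity, fun P hA h1 h2 h3 hC0' hes _ _ _ C1 _ a2 a3 =>
      ⟨by rw [hC0'] at a2; linarith, ?_, ?_, ?_⟩⟩
    · intro e he hle
      have := n3 e he (hle.trans (hes.trans ((min_le_right _ _).trans (min_le_right _ _))))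
      rwa [one_mul] at this
    · intro b n m s e e' y hC hw
      exact n1 P h1 h2 h3 C1 (by rw [hC0'] at a2; linarith) (by rw [hC0'] at a3; exact a3)
        b n m s e e' y (hC.es.trans (hes.trans (min_le_left _ _))) hC hw
    · intro n m e e' he hle hw
      exact n2 P hA h1 h2 h3 n m e e' he
        (hle.trans (hes.trans ((min_le_right _ _).trans (min_le_left _ _)))) hle hw
  have hall := (((((((((hB.and hW).and hM).and hT).and hH).and hN).and hG).and hO).and hE).and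
    hnum)
  refine hall.mono ?_
  rintro P c1 C1 - - - - ⟨⟨⟨⟨⟨⟨⟨⟨⟨qB, qW⟩, qM⟩, qT⟩, qH⟩, qN⟩, qG⟩, qO⟩, qE⟩, hC1, q14, qnm, qtor⟩
  refine ⟨hC1, fun a n m s e e' y g F W hg0 hg1 hch => ?_⟩
  have hC := F.cx
  have hb : 0 < b := by linarith
  have he0 := hC.e0
  have he1 : e ≤ 1 := by linarith [hC.e1]
  have hC10 : 0 < C1 := by linarith
  have hNm := qnm b n m s e e' y hC W
  obtain ⟨g1, g2, g3, g4⟩ := qtor n m e e' he0 hC.es W
  have hsn := hC.sn hC10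
  have hnm := W.nm
  have hQ20 := hNm.Q20
  have hQ0 : 0 < QP P e := by linarith
  have hy0 := hC.y0
  have hS14 := q14 e he0 hC.es
  have hSp : 0 < hS e := Real.rpow_pos_of_pos he0 _
  have h4 : hS e ≤ 1 / 4 := hS14
  have heg : e ^ (1 / 2 + g) ≤ 1 := Real.rpow_le_one he0.le he1 (by linarith)
  have heg0 : 0 ≤ y * e ^ (1 / 2 + g) := mul_nonneg hy0.le (Real.rpow_nonneg he0.le _)
  have hyQ : y * QP P e ^ 3 ≤ QP P e ^ 4 := by
    calc y * QP P e ^ 3 ≤ QP P e * QP P e ^ 3 :=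
          mul_le_mul_of_nonneg_right (by linarith [hC.ylt]) (by positivity)
      _ = _ := by ring
  have htm : tn m < tn n := by
    rw [tn_mul n m]
    have h2 := H972.tn_pos m
    have h3 : 2 ^ 2 ≤ Mw n m ^ 2 := pow_le_pow_left₀ (by norm_num) hNm.M2 2
    have h5 := mul_le_mul_of_nonneg_right h3 h2.le
    linarith
  refine ⟨hNm, ?_, g1, g2, g3⟩
  refine ⟨?_, ?_, ?_, ?_⟩
  · -- the window
    intro r _ _ h hr hmr
    have hBr := qB a n s e y F r hr h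
    obtain ⟨CC, γr, hWP⟩ := qW a n m s e e' y F W r hr hmr h hBr
    obtain ⟨o1, o2, o3⟩ := qO a n m s e e' y g F W hg0 hg1 hch r hr
    have hl : 2 ^ s ∣ 2 ^ r := pow_dvd_pow 2 (by omega)
    refine ⟨CC, γr, ⟨hWP.par, hWP.CC0, hWP.γ0, hWP.p1, fun x y => pA_acl hb.le hl
      (H972.tn_pos n) x y, H340.nf_acl hb hl (H972.tn_pos n) le_rfl, hBr.hs, hWP.size,
      o2.trans hyQ, fun x => (hWP.tail x).trans (t0_le_tA hC10 hC), heg0, o1⟩, hWP.g1, hWP.g2⟩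
  · -- the growth
    intro r _ _ h hr hmr
    exact qG a n m s e e' y F W r hr hmr h (qB a n s e y F r hr h)
  · -- the torus
    intro r r' _ _ _ h h' hr hmr hr' hmr'
    have hB1 := qB a n s e y F r hr h
    have hB2 := qB a n s e y F r' hr' h'
    obtain ⟨D1, R, hT1, hD1⟩ := qT a n m s e e' y F W r r' hr hmr hr' hmr' h h' hB1 hB2
      (qM a n s e y F r r' hr hr' h h' hB1 hB2)
    exact ⟨_, _, _, _, hT1, hD1⟩
  · -- the cells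
    intro r s1 D1 y1 _ _ _ _ h hr hmr hC' hy1 hy2 hss hD1
    have hBr := qB a n s e y F r hr h
    have hY : Cy P b C1 c1 m s s1 e e' y y1 := ⟨hC', hy1, hy2, hss⟩
    obtain ⟨o1, o2, o3⟩ := qO a n m s e e' y g F W hg0 hg1 hch r hr
    have hs1m := hC'.sn hC10
    have hl : 2 ^ s ∣ 2 ^ r := pow_dvd_pow 2 (by omega)
    have e2 : 2 ^ s * 2 ^ (s1 - s) = 2 ^ s1 := by rw [← pow_add, Nat.add_sub_cancel' hss]
    have hl2 : 2 ^ s * 2 ^ (s1 - s) ∣ 2 ^ r := by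
      rw [e2]
      exact pow_dvd_pow 2 (by omega)
    have hnum1 := qN a n m s s1 e e' y y1 F W hY r hr hmr D1 hD1
    obtain ⟨c, s₀, hDom, hrest⟩ := hnum1
    have hef := ef_num (N := 2 ^ r) (l := 2 ^ s) (t := tn n) (t' := tn m) hb hl (H972.tn_pos m)
      htm hDom hBr.two.dom hSp.le h4 hBr.hs o2 o1
    refine ⟨fun x y => pA_acl hb.le hl (H972.tn_pos n) x y,
      fun x y => pA_acl hb.le hl2 (H972.tn_pos m) x y, hBr.hs',
      qH a n m s s1 e e' y y1 F W hY r hr hmr,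
      Dc_next hC1 hA' hA1 hC W hC' hy2 hss hD1, size_one (by omega), g4 r hr,
      o3.trans hyQ, ⟨c, s₀, hDom, hrest⟩,
      qE a n m s s1 e e' y y1 F W hY r hr hmr, hef.trans ?_⟩
    have hQ34 : 8 * (QP P e ^ 3 + 1) ≤ QP P e ^ 4 := by
      have h1 : (1 : ℝ) ≤ QP P e ^ 3 := one_le_pow₀ (by linarith)
      have h2 : QP P e ^ 4 = QP P e * QP P e ^ 3 := by ring
      rw [h2]
      nlinarith
    have h5 : y * QP P e ^ 3 + y * e ^ (1 / 2 + g) ≤ y * (QP P e ^ 3 + 1) := by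
      have := mul_le_mul_of_nonneg_left heg hy0.le
      linarith
    calc 8 * hS e * (y * QP P e ^ 3 + y * e ^ (1 / 2 + g))
        ≤ 8 * hS e * (y * (QP P e ^ 3 + 1)) := mul_le_mul_of_nonneg_left h5 (by positivity)
      _ = y * ((8 * (QP P e ^ 3 + 1)) * hS e) := by ring
      _ ≤ y * (QP P e ^ 4 * hS e) :=
          mul_le_mul_of_nonneg_left (mul_le_mul_of_nonneg_right hQ34 hSp.le) hy0.le

/-- **THE GENERAL STEP** for one level, fixed parameters (`b`, `C1`, `A1`), old state on the base torus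
of the window only -/
def StepG (b A1 : ℝ) (P : H972.Par) (c1 C1 : ℝ) : Prop :=
  24 ≤ C1 ∧ ∀ (a : ℝ) (n m s : ℕ) (e e' y g : ℝ), CxF P b a C1 c1 n s e y →
    Cw P n m e e' → 0 ≤ g → g ≤ 1 / 2 → CH2 P b n e (y * e ^ g) → Nm P n m s e e' y ∧
    TV P n e (m + P.kE e') ∧ P.TT n e (m + P.kE e') ∧ (∀ r, TV P m e' r → P.TT n e r) ∧
    ∀ (ζ : ℂ) (Δ E : ℝ), ζ ≠ 0 → ‖ζ‖ ≤ 1 → Δ ≤ 2 → 0 ≤ E →
    SV1 P b A1 n s e (m + P.kE e') ζ Δ E →
    ∃ ζ' : ℂ, ‖ζ' - ζ * ((Real.exp ((2 - π / a) * ((m : ℝ) - n) * Real.log 2) : ℝ) : ℂ)‖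
        ≤ ZE P a n m s e ‖ζ‖ Δ ∧
      ∀ (s' : ℕ) (y' : ℝ), Cy P b C1 c1 m s s' e e' y y' →
        SV P b A1 m s' e' ζ' (DV P n m e y g ‖ζ‖ ‖ζ'‖ Δ E) (y * (QP P e ^ 5 * hS e))

/-- **THE GENERAL STEP from the pieces** -/
theorem vsgC {b b1 b2 pf K k0 c0 Cm A0 A1 A' : ℝ} {Q : ℕ} (hb1 : 0 < b1) (hbb : b1 ≤ b)
    (hK : 0 < K) (hA' : 0 ≤ A') (hA1 : 2 * A' + 1 ≤ A1)
    (hB : EvC b1 b2 pf Q K (BdB b k0 c0 Cm)) (hW : EvC b1 b2 pf Q K (BdW b k0 c0 Cm A1))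
    (hM : EvC b1 b2 pf Q K (BdM b k0 c0 Cm A0 4)) (hT : EvC b1 b2 pf Q K (BdT b k0 c0 Cm A0 A'))
    (hH : EvC b1 b2 pf Q K (BdH b)) (hN : EvC b1 b2 pf Q K (BdN b A'))
    (hG : EvC b1 b2 pf Q K (BdG b k0 c0 Cm)) (hO : EvC b1 b2 pf Q K (BdO b))
    (hE : EvC b1 b2 pf Q K (BdE b)) : EvC b1 b2 pf Q K (StepG b A1) := by
  refine (pcs_evC hb1 hbb hK hA' hA1 hB hW hM hT hH hN hG hO hE).mono ?_
  rintro P c1 C1 - - - - ⟨hC1, h⟩
  refine ⟨hC1, fun a n m s e e' y g F W hg0 hg1 hch => ?_⟩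
  obtain ⟨hNm, hP, t1, t2, t3⟩ := h a n m s e e' y g F W hg0 hg1 hch
  refine ⟨hNm, t1, t2, t3, fun ζ Δ E hζ hζ1 hΔ hE0 hS => ?_⟩
  obtain ⟨ζ', h1, h2⟩ := step_core1 (by linarith) (by linarith) F.cx hNm hP F.a1 F.a2 W.nm t3 t2
    hζ hζ1 hΔ hE0 hS
  exact ⟨ζ', h1, fun s' y' hY => h2 s' y' hY.cx hY.h1 hY.h2 hY.ss⟩

end

end Vale.Agent.P159.H889
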