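import Vale.Agent.P159.H889.Vform

/-!
P159 / H889: change of cells followed by one change of law (896's order: the cells are changed in the
form `Ah = A ahat`, the only change of law is `Ac Ah -> A_new`).
-/

namespace Vale.Agent.P159.H889

open MeasureTheory ProbabilityTheory Finset Matrix
open Vale.Agent.P159.TM.Spec (V)
open Vale.Agent.P159.H37 (gau gau_sum qf)
open Vale.Agent.P159.H363
open Vale.Agent.P159.H864 (TI sym fc mlt cl up)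
open Vale.Agent.P159.H462 (Dom ahat ti_ahat sym_ahat)
open Vale.Agent.P159.H708 (lfM avM m2 Ac Bm Sg)
open Vale.Agent.P159.H963 (CG GC vC)
open scoped Real

noncomputable section

variable {n ρ : ℕ} [NeZero n] [NeZero (n / ρ)]

/-- the numbers of `cell_step1` -/
def dC1 (n ρ : ℕ) (ν c s η₂ : ℝ) (nz K d : ℝ) : ℝ :=
  (ρ : ℝ) ^ 2 * (4 * d + nz * (2 * gce n ρ ν c s + qe ((n : ℝ) ^ 2 * ν) η₂)
    + 2 * (K + nz) * tq η₂)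

def lC1 (n ρ D : ℕ) (ν c s η₂ : ℝ) (K Lp η : ℝ) : ℝ :=
  (ρ : ℝ) ^ 2 * (2 * η + 4 * (n * √(16 * (ρ : ℝ) ^ 2 * ν / c * s)) * K
    + 2 * (Lp * (√(2 * (2 * (D : ℝ) + 1)) * ((ρ : ℝ) ^ 2 * √(c⁻¹ * s)))) + 3 * K * tq η₂)

/-- **change of cells, change of law** -/
theorem cell_step1 {A' : Matrix (V n) (V n) ℝ} {An : Matrix (V (n / ρ)) (V (n / ρ)) ℝ}
    {ν c s η₂ : ℝ} (hρ : ρ ∣ n) (h' : Dom A' ν c) (hn : Nf An)
    (hδ : 16 * (ρ : ℝ) ^ 2 * ν / c ≤ 1 / 2) (hS' : ∀ x y, 0 ≤ (1 - ν⁻¹ • A') x y)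
    (hSn : ∀ x y, 0 ≤ (1 - (ν * (ρ : ℝ) ^ 2)⁻¹ • An) x y)
    (hle : ∀ k, sym An k ≤ ν * (ρ : ℝ) ^ 2) (hs : (1 - ν⁻¹ • A') 0 0 ≤ s)
    (hs1 : 2 * n * (16 * (ρ : ℝ) ^ 2 * ν / c) * √s ≤ 1)
    (hs2 : 2 * n * √(16 * (ρ : ℝ) ^ 2 * ν / c * s) ≤ 1)
    (hη₂ : 0 < η₂) (hη₂' : η₂ ≤ 1 / 2) (HS2 : ∑ k, rel (Ac ρ A') An k ^ 2 ≤ η₂ ^ 2)
    {D D' : ℕ} (hD : D + ρ ≤ ρ * D') {z : ℂ} {K d η Lp : ℝ} {ψ lam : V n → (V n → ℝ) → ℂ}
    (hψ : Den A' ν z d ψ) (hl : Lcl A' D η Lp ψ lam) (hK : ∀ x F, ‖ψ x F‖ ≤ K)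
    (hKl : ∀ x F, ‖lam x F‖ ≤ K) :
    Den An (ν * (ρ : ℝ) ^ 2) (z * (GC ρ A' ν : ℂ)) (dC1 n ρ ν c s η₂ ‖z‖ K d)
        (dn (m2 ρ A') (Bm ρ A') ψ) ∧
      Lcl An D' (lC1 n ρ D ν c s η₂ K Lp η) ((ρ : ℝ) ^ 2 * Lp)
        (dn (m2 ρ A') (Bm ρ A') ψ) (lamc ρ A' lam) := by
  have hN' := Nf.of_dom h'
  have hν := h'.hν
  have hc := h'.hc
  have hρ0 := H708.rho_pos hρ
  have hδ0 := H708.delta_nonneg h' ρ
  have hs00 := H708.S00_nonneg h'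
  have hs0 : 0 ≤ s := hs00.trans hs
  have hK0 : 0 ≤ K := (norm_nonneg _).trans (hK 0 0)
  have hd0 : 0 ≤ d := (tn2_nonneg _ _).trans (hψ.dev 0)
  have hLp := hl.Lp_nonneg
  have hη0 : 0 ≤ η := (tn2_nonneg _ _).trans (hl.near 0)
  have hqe : ∀ η', 0 ≤ η' → 0 ≤ qe ((n : ℝ) ^ 2 * ν) η' := fun η' h0 => by
    unfold qe
    positivity
  have t2 := tq_nonneg η₂
  -- change of cells
  have D2 := H708.den_coarse_dom hρ h' hδ hS' hs hs1 hd0 hψ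
  have L2 := lcl_cell_dom hρ h' hδ hs hD hψ.m hK hl
  -- second change of law
  have hAc := H708.nf_Ac hρ hN'
  have hνρ : 0 < ν * (ρ : ℝ) ^ 2 := by positivity
  have hGC0 := H708.GC_pos ρ A' ν
  have hGC1 := H708.GC_le (A := A') (ν := ν) hρ
  have nzG : ‖z * (GC ρ A' ν : ℂ)‖ ≤ ‖z‖ * (ρ : ℝ) ^ 2 := by
    rw [norm_mul, Complex.norm_real, Real.norm_eq_abs, abs_of_pos hGC0]
    exact mul_le_mul_of_nonneg_left hGC1 (norm_nonneg _)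
  have hm2 : ∀ X, ∑ x, |m2 ρ A' x X| ≤ 2 * (ρ : ℝ) ^ 2 := by
    intro X
    have h1 : ∀ x, |m2 ρ A' x X| ≤ |lfM n ρ x X| + |(m2 ρ A' - lfM n ρ) x X| := by
      intro x
      rw [Matrix.sub_apply]
      have := abs_add_le (lfM n ρ x X) (m2 ρ A' x X - lfM n ρ x X)
      rw [add_sub_cancel] at this
      exact this
    refine (Finset.sum_le_sum fun x _ => h1 x).trans ?_
    rw [Finset.sum_add_distrib]
    have h2 : ∑ x, |lfM n ρ x X| = (ρ : ℝ) ^ 2 := by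
      have h3 : ∀ x, |lfM n ρ x X| = if (cl x : V (n / ρ)) = X then 1 else 0 := by
        intro x
        rw [H708.lf_apply hρ]
        split_ifs <;> simp
      simp only [h3]
      rw [← Finset.sum_filter, Finset.sum_const, nsmul_eq_mul, mul_one]
      exact H864.card_cell hρ X
    have h4 := H708.r_col_abs hρ h' hδ X
    have h5 : (ρ : ℝ) ^ 2 * (2 * n * √(16 * (ρ : ℝ) ^ 2 * ν / c * (1 - ν⁻¹ • A') 0 0))
        ≤ (ρ : ℝ) ^ 2 * 1 := by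
      refine mul_le_mul_of_nonneg_left (le_trans ?_ hs2) (by positivity)
      exact mul_le_mul_of_nonneg_left
        (Real.sqrt_le_sqrt (mul_le_mul_of_nonneg_left hs hδ0)) (by positivity)
    rw [h2]
    linarith
  have hKψ : ∀ X F, ‖dn (m2 ρ A') (Bm ρ A') ψ X F‖ ≤ 2 * (ρ : ℝ) ^ 2 * K := fun X F =>
    (norm_dn_le hK X F).trans (mul_le_mul_of_nonneg_right (hm2 X) hK0)
  have hKlam : ∀ X F, ‖lamc ρ A' lam X F‖ ≤ (ρ : ℝ) ^ 2 * K := by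
    intro X F
    unfold lamc
    refine (norm_sum_le _ _).trans ?_
    have h1 := Finset.sum_le_card_nsmul (univ.filter fun x : V n => (cl x : V (n / ρ)) = X)
      (fun x => ‖Pg (lfM n ρ) (Bm ρ A') (lam x) F‖) K fun x _ => norm_Pg_le (hKl x) F
    refine h1.trans (le_of_eq ?_)
    rw [nsmul_eq_mul, H864.card_cell hρ X]
  have hmc : ∀ X F, ‖mainf (1 - (ν * (ρ : ℝ) ^ 2)⁻¹ • Ac ρ A') X F‖ ≤ 2 := by
    intro X F
    refine (norm_mainf_le _ X F).trans ?_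
    have tS : TI (1 - (ν * (ρ : ℝ) ^ 2)⁻¹ • Ac ρ A') := TI.one.sub (hAc.ti.smul _)
    have h1 := H708.ssum_le hρ h' hδ hS' X
    have h2 : 2 * n * (16 * (ρ : ℝ) ^ 2 * ν / c) * √((1 - ν⁻¹ • A') 0 0) ≤ 1 :=
      (mul_le_mul_of_nonneg_left (Real.sqrt_le_sqrt hs) (by positivity)).trans hs1
    calc ∑ w, |(1 - (ν * (ρ : ℝ) ^ 2)⁻¹ • Ac ρ A') X w|
        = ∑ w, |(1 - (ν * (ρ : ℝ) ^ 2)⁻¹ • Ac ρ A') w X| :=
          Finset.sum_congr rfl fun w _ => by rw [tS.sy X w]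
      _ ≤ _ := h1
      _ ≤ 2 := by linarith
  have D3 := D2.law4 hAc hn hνρ hη₂ hη₂' hSn hle HS2
    (B := 2 * (ρ : ℝ) ^ 2 * (K + ‖z‖)) fun X F => by
      refine (norm_sub_le _ _).trans ?_
      rw [norm_mul]
      have a1 := hKψ X F
      have a2 := mul_le_mul nzG (hmc X F) (norm_nonneg _) (by positivity)
      linarith
  have L3 := L2.law4 hAc hn hη₂ hη₂' HS2 (fun X => measurable_dn hψ.m X)
    (B := 3 * (ρ : ℝ) ^ 2 * K) fun X F => by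
      refine (norm_sub_le _ _).trans ?_
      have a1 := hKψ X F
      have a2 := hKlam X F
      linarith
  have en : (((n / ρ : ℕ) : ℝ)) ^ 2 * (ν * (ρ : ℝ) ^ 2) = (n : ℝ) ^ 2 * ν := by
    rw [Nat.cast_div hρ hρ0.ne']
    field_simp
  constructor
  · refine ⟨D3.m, D3.bd, D3.ch, D3.cov, fun X => (D3.dev X).trans ?_⟩
    rw [en]
    have q2 := hqe η₂ hη₂.le
    have a1 : ‖z * (GC ρ A' ν : ℂ)‖ * qe ((n : ℝ) ^ 2 * ν) η₂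
        ≤ ‖z‖ * (ρ : ℝ) ^ 2 * qe ((n : ℝ) ^ 2 * ν) η₂ := mul_le_mul_of_nonneg_right nzG q2
    set δ := 16 * (ρ : ℝ) ^ 2 * ν / c with hδd
    have a2 : (1 + 2 * δ) * d ≤ 2 * d := mul_le_mul_of_nonneg_right (by linarith) hd0
    have a3 : (ρ : ℝ) ^ 2 * ((1 + 2 * δ) * d) ≤ (ρ : ℝ) ^ 2 * (2 * d) :=
      mul_le_mul_of_nonneg_left a2 (by positivity)
    unfold dC1 gce
    rw [← hδd]
    have e9 : (ρ : ℝ) ^ 2 * (4 * d + ‖z‖ * (2 * (4 * π * (ρ * √(c⁻¹ * s)) + 2 * n * √(δ * s))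
        + qe ((n : ℝ) ^ 2 * ν) η₂) + 2 * (K + ‖z‖) * tq η₂)
        = 2 * ((ρ : ℝ) ^ 2 * (‖z‖ * (4 * π * (ρ * √(c⁻¹ * s)) + 2 * n * √(δ * s)))
          + (ρ : ℝ) ^ 2 * (2 * d)) + 2 * (ρ : ℝ) ^ 2 * (K + ‖z‖) * tq η₂
          + ‖z‖ * (ρ : ℝ) ^ 2 * qe ((n : ℝ) ^ 2 * ν) η₂ := by
      ring
    rw [e9, mul_add ((ρ : ℝ) ^ 2)]
    linarith
  · refine ⟨L3.m, L3.bd, L3.ch, L3.cov, L3.loc, L3.lip, fun X => (L3.near X).trans (le_of_eq ?_)⟩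
    unfold lC1
    ring

end

end Vale.Agent.P159.H889
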