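import Vale.Agent.P159.H883.Res
import Vale.Agent.P159.H363.Vb8

/-!
P159 / H889: the maximum of finitely many Gaussian variables in `L²` by fourth moments:
`|max|_2 ≤ (4 #B)^{1/4} σ`.
-/

namespace Vale.Agent.P159.H889

open MeasureTheory ProbabilityTheory Finset Matrix
open Vale.Agent.P159.H37 (gau)
open Vale.Agent.P159.H363
open scoped Real

noncomputable section

variable {I Λ : Type*} [Fintype I]

/-- fourth power mean of the Gaussian variables `(M g)_v`, `v ∈ B` -/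
def mx4 (B : Finset Λ) (M : Matrix Λ I ℝ) (g : I → ℝ) : ℝ := √(√(∑ v ∈ B, (M v ⬝ᵥ g) ^ 4))

lemma mx4_nonneg (B : Finset Λ) (M : Matrix Λ I ℝ) (g : I → ℝ) : 0 ≤ mx4 B M g :=
  Real.sqrt_nonneg _

lemma le_mx4 {B : Finset Λ} (M : Matrix Λ I ℝ) (g : I → ℝ) {v : Λ} (hv : v ∈ B) :
    |M v ⬝ᵥ g| ≤ mx4 B M g := by
  unfold mx4
  refine Real.le_sqrt_of_sq_le (Real.le_sqrt_of_sq_le ?_)
  rw [sq_abs, ← pow_mul]
  exact Finset.single_le_sum (f := fun v => (M v ⬝ᵥ g) ^ (2 * 2))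
    (fun v _ => (even_two_mul 2).pow_nonneg _) hv

lemma integrable_four (v : I → ℝ) : Integrable (fun g : I → ℝ => (v ⬝ᵥ g) ^ 4) (gau I) :=
  ((H883.xg_ln v).pow 4).int

lemma gau_four' (v : I → ℝ) {σ : ℝ} (hσ : ∑ i, v i ^ 2 ≤ σ ^ 2) :
    ∫ g : I → ℝ, (v ⬝ᵥ g) ^ 4 ∂(gau I) ≤ 4 * σ ^ 4 := by
  have h := H883.gau_four v
  have e : H883.ln v v = ∑ i, v i ^ 2 := Finset.sum_congr rfl fun i _ => (pow_two _).symm
  rw [e] at h
  refine h.trans ?_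
  have h0 : 0 ≤ ∑ i, v i ^ 2 := Finset.sum_nonneg fun _ _ => sq_nonneg _
  have h1 : (∑ i, v i ^ 2) ^ 2 ≤ (σ ^ 2) ^ 2 := pow_le_pow_left₀ h0 hσ 2
  nlinarith

lemma measurable_mx4 (B : Finset Λ) (M : Matrix Λ I ℝ) :
    Measurable (mx4 B M : (I → ℝ) → ℝ) := by
  unfold mx4
  refine (Measurable.sqrt (Measurable.sqrt ?_))
  exact Finset.measurable_fun_sum _ fun v _ => (measurable_dot _).pow_const 4

/-- the second moment -/
lemma int_mx4 {B : Finset Λ} {M : Matrix Λ I ℝ} {σ : ℝ}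
    (hσ : ∀ v ∈ B, ∑ i, M v i ^ 2 ≤ σ ^ 2) :
    MemLp (fun g : I → ℝ => ((mx4 B M g : ℝ) : ℂ)) 2 (gau I) ∧
      ∫ g : I → ℝ, mx4 B M g ^ 2 ∂(gau I) ≤ √(4 * (B.card : ℝ)) * σ ^ 2 := by
  set X : (I → ℝ) → ℝ := fun g => ∑ v ∈ B, (M v ⬝ᵥ g) ^ 4 with hX
  have hX0 : ∀ g, 0 ≤ X g := fun g => Finset.sum_nonneg fun _ _ => by positivity
  have mX : Measurable X := Finset.measurable_fun_sum _ fun v _ => (measurable_dot _).pow_const 4
  have iX : Integrable X (gau I) := integrable_finsetSum _ fun v _ => integrable_four _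
  have bX : ∫ g, X g ∂(gau I) ≤ 4 * (B.card : ℝ) * σ ^ 4 := by
    have e0 : ∫ g, X g ∂(gau I) = ∑ v ∈ B, ∫ g : I → ℝ, (M v ⬝ᵥ g) ^ 4 ∂(gau I) :=
      integral_finsetSum _ fun v _ => integrable_four _
    rw [e0]
    refine (Finset.sum_le_card_nsmul _ _ (4 * σ ^ 4) fun v hv => gau_four' _ (hσ v hv)).trans
      (le_of_eq ?_)
    rw [nsmul_eq_mul]
    ring
  have ms : AEStronglyMeasurable (fun g : I → ℝ => ((√(X g) : ℝ) : ℂ)) (gau I) :=
    (Complex.measurable_ofReal.comp mX.sqrt).aestronglyMeasurable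
  have m1 : MemLp (fun g : I → ℝ => ((√(X g) : ℝ) : ℂ)) 2 (gau I) := by
    rw [memLp_two_iff_integrable_sq_norm ms]
    refine iX.congr (Filter.Eventually.of_forall fun g => ?_)
    simp only
    rw [Complex.norm_real, Real.norm_eq_abs, sq_abs, Real.sq_sqrt (hX0 g)]
  have i1 : Integrable (fun g => √(X g)) (gau I) := by
    have h := (m1.integrable (by norm_num)).norm
    refine h.congr (Filter.Eventually.of_forall fun g => ?_)
    simp only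
    rw [Complex.norm_real, Real.norm_eq_abs, abs_of_nonneg (Real.sqrt_nonneg _)]
  have h1 : ∫ g, √(X g) ∂(gau I) ≤ √(4 * (B.card : ℝ)) * σ ^ 2 := by
    have h2 := norm_integral_sq_le m1
    have e2 : ∫ g, ‖((√(X g) : ℝ) : ℂ)‖ ^ 2 ∂(gau I) = ∫ g, X g ∂(gau I) := by
      refine integral_congr_ae (Filter.Eventually.of_forall fun g => ?_)
      simp only
      rw [Complex.norm_real, Real.norm_eq_abs, sq_abs, Real.sq_sqrt (hX0 g)]
    have e3 : (∫ g, ((√(X g) : ℝ) : ℂ) ∂(gau I)) = ((∫ g, √(X g) ∂(gau I) : ℝ) : ℂ) :=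
      integral_ofReal
    have h0 : 0 ≤ ∫ g, √(X g) ∂(gau I) := integral_nonneg fun g => Real.sqrt_nonneg _
    rw [e2, e3, Complex.norm_real, Real.norm_eq_abs, abs_of_nonneg h0] at h2
    refine le_of_sq_le_sq ((h2.trans bX).trans (le_of_eq ?_)) (by positivity)
    rw [mul_pow, Real.sq_sqrt (by positivity)]
    ring
  have e4 : ∀ g, mx4 B M g ^ 2 = √(X g) := fun g => by
    unfold mx4
    rw [Real.sq_sqrt (Real.sqrt_nonneg _)]
  have mm : AEStronglyMeasurable (fun g : I → ℝ => ((mx4 B M g : ℝ) : ℂ)) (gau I) :=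
    (Complex.measurable_ofReal.comp (measurable_mx4 B M)).aestronglyMeasurable
  refine ⟨?_, ?_⟩
  · rw [memLp_two_iff_integrable_sq_norm mm]
    refine i1.congr (Filter.Eventually.of_forall fun g => ?_)
    simp only
    rw [Complex.norm_real, Real.norm_eq_abs, sq_abs, e4]
  · simp only [e4]
    exact h1

/-- **`|max|_2 ≤ (4 #B)^{1/4} σ`** -/
theorem n2_mx4 {B : Finset Λ} {M : Matrix Λ I ℝ} {σ K : ℝ} (hσ0 : 0 ≤ σ) (hK0 : 0 ≤ K)
    (hσ : ∀ v ∈ B, ∑ i, M v i ^ 2 ≤ σ ^ 2) (hK : 4 * (B.card : ℝ) ≤ K ^ 4) :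
    n2 (gau I) (fun g : I → ℝ => ((mx4 B M g : ℝ) : ℂ)) ≤ K * σ := by
  obtain ⟨h1, h2⟩ := int_mx4 hσ
  rw [n2_le h1 (mul_nonneg hK0 hσ0)]
  have e : ∀ g : I → ℝ, ‖((mx4 B M g : ℝ) : ℂ)‖ ^ 2 = mx4 B M g ^ 2 := fun g => by
    rw [Complex.norm_real, Real.norm_eq_abs, sq_abs]
  simp only [e]
  refine h2.trans ?_
  rw [mul_pow]
  refine mul_le_mul_of_nonneg_right ?_ (sq_nonneg _)
  refine Real.sqrt_le_iff.2 ⟨sq_nonneg _, ?_⟩
  rw [← pow_mul]
  exact hK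

end

end Vale.Agent.P159.H889
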