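import Vale.Agent.P159.H889.Cdist
import Vale.Agent.P159.H889.Vmax
import Vale.Agent.P159.H708.Coarse
import Vale.Agent.P159.H963.TransT

/-!
P159 / H889: local approximants of the densities are carried through the change of cells
(708's conditional mean `m2`, conditional root `Bm`). Only the smallness of `r = m2 - lfM` is used:
its range does not matter.
-/

namespace Vale.Agent.P159.H889

open MeasureTheory ProbabilityTheory Finset Matrix
open Vale.Agent.P159.TM.Spec (V)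
open Vale.Agent.P159.H37 (gau gau_sum qf)
open Vale.Agent.P159.H363
open Vale.Agent.P159.H864 (TI sym fc mlt cl up)
open Vale.Agent.P159.H708 (lfM avM m2 Ac Bm Sg)
open Vale.Agent.P159.H963 (TrCov CovC)
open scoped Real

noncomputable section

variable {N ρ : ℕ} [NeZero N] [NeZero (N / ρ)] {A : Matrix (V N) (V N) ℝ}

/-- local approximant on the coarse cells -/
def lamc (ρ : ℕ) [NeZero (N / ρ)] (A : Matrix (V N) (V N) ℝ) (lam : V N → (V N → ℝ) → ℂ)
    (X : V (N / ρ)) (f : V (N / ρ) → ℝ) : ℂ :=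
  ∑ x ∈ univ.filter (fun x : V N => cl x = X), Pg (lfM N ρ) (Bm ρ A) (lam x) f

lemma Pg_shc {M : Matrix (V N) (V (N / ρ)) ℝ} {B : Matrix (V N) (V N) ℝ}
    (hM : ∀ (c : V (N / ρ)) (x : V N) (X : V (N / ρ)), M (x + up c) (X + c) = M x X)
    (hB : ∀ (c : V (N / ρ)) (x y : V N), B (x + up c) (y + up c) = B x y)
    {ψ : V N → (V N → ℝ) → ℂ} (hψ : CovC ρ ψ) (c : V (N / ρ)) (x : V N) (f : V (N / ρ) → ℝ) :
    Pg M B (ψ (x + up c)) f = Pg M B (ψ x) (sh c f) := by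
  have h : TrCov M B (1 : Matrix (V (N / ρ)) (V (N / ρ)) ℝ) :=
    ⟨hM, hB, fun c X Y => by simp [Matrix.one_apply]⟩
  have h2 := h.Pg_sh hψ c x f
  rw [Matrix.mul_one] at h2
  exact h2

/-- two close linear parts in a local Lipschitz function -/
lemma Pg_lip2 {I J : Type*} [Fintype I] [Fintype J] {F0 F1 : Matrix (V N) J ℝ}
    {M : Matrix (V N) I ℝ} {lam : (V N → ℝ) → ℂ} (hm : Measurable lam) {K : ℝ}
    (hK : ∀ F, ‖lam F‖ ≤ K) {B : Finset (V N)} {Lp : ℝ}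
    (hlip : ∀ (F F' : V N → ℝ) (r : ℝ), (∀ y ∈ B, |F y - F' y| ≤ r) → ‖lam F - lam F'‖ ≤ Lp * r)
    (f f' : J → ℝ) {r : ℝ} (hr : ∀ y ∈ B, |(F0 *ᵥ f) y - (F1 *ᵥ f') y| ≤ r) :
    ‖Pg F0 M lam f - Pg F1 M lam f'‖ ≤ Lp * r := by
  unfold Pg
  rw [← integral_sub (integrable_Pg hm hK f) (integrable_Pg hm hK f')]
  have h1 : ∀ g : I → ℝ, ‖lam (F0 *ᵥ f + M *ᵥ g) - lam (F1 *ᵥ f' + M *ᵥ g)‖ ≤ Lp * r := by
    intro g
    refine hlip _ _ r fun y hy => ?_
    have e : (F0 *ᵥ f + M *ᵥ g) y - (F1 *ᵥ f' + M *ᵥ g) y = (F0 *ᵥ f) y - (F1 *ᵥ f') y := by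
      simp only [Pi.add_apply]
      ring
    rw [e]
    exact hr y hy
  have := norm_integral_le_of_norm_le_const (μ := gau I)
    (f := fun g => lam (F0 *ᵥ f + M *ᵥ g) - lam (F1 *ᵥ f' + M *ᵥ g)) (C := Lp * r)
    (Filter.Eventually.of_forall h1)
  simpa using this

/-- the coarse conditional mean is a contraction for the typical norms -/
lemma n2_Pgc_le (hρ : ρ ∣ N) (h : Nf A) {u : (V N → ℝ) → ℂ} (hm : Measurable u) {K : ℝ}
    (hK : ∀ F, ‖u F‖ ≤ K) :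
    tn2 (Ac ρ A) (Pg (m2 ρ A) (Bm ρ A) u) ≤ tn2 A u := by
  have hmem : MemLp (fun b => Pg (m2 ρ A) (Bm ρ A) u (pin (Ac ρ A) *ᵥ b)) 2 (gau (V (N / ρ))) :=
    memLp_bdd ((measurable_Pg hm).comp (measurable_mulVec _)).aestronglyMeasurable
      fun b => norm_Pg_le hK _
  unfold tn2
  rw [n2_le hmem (n2_nonneg _), n2_sq (memLp_tn hm hK A)]
  have h1 := Pg_contr (F0 := m2 ρ A * pin (Ac ρ A)) (A := Bm ρ A) hm hK
  simp only [Pg_mulVec] at h1
  refine h1.trans (le_of_eq ?_)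
  have h2 := H708.law_coarse_bdd hρ h (H708.Bm_mul hρ h) (fun F => ‖u F‖ ^ 2)
    (hm.norm.pow_const 2).stronglyMeasurable (C := K ^ 2) (fun F => by
      rw [norm_pow, norm_norm]
      exact pow_le_pow_left₀ (norm_nonneg _) (hK F) 2)
  simp only [← mulVec_mulVec]
  exact h2

/-- **local approximants are carried through the change of cells** -/
theorem lcl_cell (hρ : ρ ∣ N) (h : Nf A) {D D' : ℕ} (hD : D + ρ ≤ ρ * D') {η K Lp e4 σr : ℝ}
    {ψ lam : V N → (V N → ℝ) → ℂ} (hψm : ∀ x, Measurable (ψ x)) (hK : ∀ x F, ‖ψ x F‖ ≤ K)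
    (hl : Lcl A D η Lp ψ lam) (he4 : ∀ X, ∑ x, |(m2 ρ A - lfM N ρ) x X| ≤ e4) (hσ0 : 0 ≤ σr)
    (hσr : ∀ w, ∑ j, ((m2 ρ A - lfM N ρ) * pin (Ac ρ A)) w j ^ 2 ≤ σr ^ 2) :
    Lcl (Ac ρ A) D' ((ρ : ℝ) ^ 2 * η + e4 * K + (ρ : ℝ) ^ 2 * (Lp * (√(2 * (2 * (D : ℝ) + 1)) * σr)))
      ((ρ : ℝ) ^ 2 * Lp) (dn (m2 ρ A) (Bm ρ A) ψ) (lamc ρ A lam) := by
  classical
  have hLp := hl.Lp_nonneg
  obtain ⟨Kl, hKl⟩ := hl.bd
  have hKl0 : 0 ≤ Kl := (norm_nonneg _).trans (hKl 0 0)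
  have hK0 : 0 ≤ K := (norm_nonneg _).trans (hK 0 0)
  have hρ0 := H708.rho_pos hρ
  have hcard : ∀ X : V (N / ρ), ((univ.filter fun x : V N => cl x = X).card : ℝ) = (ρ : ℝ) ^ 2 :=
    fun X => H864.card_cell hρ X
  have hη0 : 0 ≤ η := (tn2_nonneg A _).trans (hl.near 0)
  set r : Matrix (V N) (V (N / ρ)) ℝ := m2 ρ A - lfM N ρ with hr
  refine ⟨fun X => ?_, ⟨(ρ : ℝ) ^ 2 * Kl, fun X f => ?_⟩, fun X f t => ?_, fun a X f => ?_,
    fun X f f' hff => ?_, fun X f f' s hs => ?_, fun X => ?_⟩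
  · unfold lamc
    exact Finset.measurable_fun_sum _ fun x _ => measurable_Pg (hl.m x)
  · unfold lamc
    refine (norm_sum_le _ _).trans ?_
    rw [← hcard X, ← nsmul_eq_mul]
    exact Finset.sum_le_card_nsmul _ _ _ fun x _ => norm_Pg_le (hKl x) f
  · unfold lamc
    rw [Finset.mul_sum]
    exact Finset.sum_congr rfl fun x _ => ch_Pg (H708.row_lf hρ) (hl.ch x) f t
  · -- covariance
    unfold lamc
    symm
    refine Finset.sum_equiv (Equiv.addRight (up a)) (fun x => ?_) (fun x _ => ?_)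
    · rw [Finset.mem_filter, Finset.mem_filter, Equiv.coe_addRight, H864.cl_add_up hρ]
      simp
    · rw [Equiv.coe_addRight]
      exact (Pg_shc (fun c x X => H708.lf_up hρ x X c)
        (fun c x y => H708.Bm_up hρ h c x y) (fun c x F => hl.cov (up c) x F) a x f).symm
  · -- locality
    unfold lamc
    refine Finset.sum_congr rfl fun x hx => ?_
    have hx' : cl x = X := (Finset.mem_filter.1 hx).2
    unfold Pg
    refine integral_congr_ae (Filter.Eventually.of_forall fun g => ?_)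
    refine hl.loc x _ _ fun y hy => ?_
    rw [Pi.add_apply, Pi.add_apply, H708.lf_mulVec hρ, H708.lf_mulVec hρ]
    congr 1
    refine hff _ ?_
    rw [← hx']
    exact cl_box hρ hD hy
  · -- Lipschitz
    unfold lamc
    rw [← Finset.sum_sub_distrib]
    refine (norm_sum_le _ _).trans ?_
    have h1 : ∀ x ∈ univ.filter (fun x : V N => cl x = X),
        ‖Pg (lfM N ρ) (Bm ρ A) (lam x) f - Pg (lfM N ρ) (Bm ρ A) (lam x) f'‖ ≤ Lp * s := by
      intro x hx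
      have hx' : cl x = X := (Finset.mem_filter.1 hx).2
      refine Pg_lip (hl.m x) (hKl x) (hl.lip x) f f' fun y hy => ?_
      rw [H708.lf_mulVec hρ, H708.lf_mulVec hρ]
      refine hs _ ?_
      rw [← hx']
      exact cl_box hρ hD hy
    refine (Finset.sum_le_card_nsmul _ _ _ h1).trans (le_of_eq ?_)
    rw [nsmul_eq_mul, hcard X]
    ring
  · -- closeness
    set T : Finset (V N) := univ.filter fun x : V N => cl x = X with hT
    have e0 : ∀ f : V (N / ρ) → ℝ, dn (m2 ρ A) (Bm ρ A) ψ X f - lamc ρ A lam X f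
        = ((∑ x, (r x X : ℂ) * Pg (m2 ρ A) (Bm ρ A) (ψ x) f)
          + ∑ x ∈ T, Pg (m2 ρ A) (Bm ρ A) (fun F => ψ x F - lam x F) f)
          + ∑ x ∈ T, (Pg (m2 ρ A) (Bm ρ A) (lam x) f - Pg (lfM N ρ) (Bm ρ A) (lam x) f) := by
      intro f
      have e1 : dn (m2 ρ A) (Bm ρ A) ψ X f = (∑ x, (r x X : ℂ) * Pg (m2 ρ A) (Bm ρ A) (ψ x) f)
          + ∑ x ∈ T, Pg (m2 ρ A) (Bm ρ A) (ψ x) f := by
        unfold dn
        rw [hT, Finset.sum_filter, ← Finset.sum_add_distrib]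
        refine Finset.sum_congr rfl fun x _ => ?_
        rw [hr, Matrix.sub_apply, H708.lf_apply hρ]
        split_ifs
        · push_cast
          ring
        · push_cast
          ring
      have e2 : ∀ x, Pg (m2 ρ A) (Bm ρ A) (fun F => ψ x F - lam x F) f
          = Pg (m2 ρ A) (Bm ρ A) (ψ x) f - Pg (m2 ρ A) (Bm ρ A) (lam x) f := fun x =>
        integral_sub (integrable_Pg (hψm x) (hK x) f) (integrable_Pg (hl.m x) (hKl x) f)
      rw [e1]
      unfold lamc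
      simp only [e2, Finset.sum_sub_distrib]
      ring
    have mdif : ∀ x, Measurable fun F => ψ x F - lam x F := fun x => (hψm x).sub (hl.m x)
    have bdif : ∀ x F, ‖ψ x F - lam x F‖ ≤ K + Kl := fun x F =>
      (norm_sub_le _ _).trans (add_le_add (hK x F) (hKl x F))
    have mP1 : ∀ x, MemLp (fun b => Pg (m2 ρ A) (Bm ρ A) (ψ x) (pin (Ac ρ A) *ᵥ b)) 2
        (gau (V (N / ρ))) := fun x =>
      memLp_bdd ((measurable_Pg (hψm x)).comp (measurable_mulVec _)).aestronglyMeasurable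
        fun b => norm_Pg_le (hK x) _
    have mP2 : ∀ x, MemLp (fun b => Pg (m2 ρ A) (Bm ρ A) (fun F => ψ x F - lam x F)
        (pin (Ac ρ A) *ᵥ b)) 2 (gau (V (N / ρ))) := fun x =>
      memLp_bdd ((measurable_Pg (mdif x)).comp (measurable_mulVec _)).aestronglyMeasurable
        fun b => norm_Pg_le (bdif x) _
    have mT1 : MemLp (fun b => ∑ x, (r x X : ℂ) * Pg (m2 ρ A) (Bm ρ A) (ψ x)
        (pin (Ac ρ A) *ᵥ b)) 2 (gau (V (N / ρ))) := memLp_sum _ fun x _ => (mP1 x).const_mul _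
    have mT2 : MemLp (fun b => ∑ x ∈ T, Pg (m2 ρ A) (Bm ρ A) (fun F => ψ x F - lam x F)
        (pin (Ac ρ A) *ᵥ b)) 2 (gau (V (N / ρ))) := memLp_sum _ fun x _ => mP2 x
    have mT3' : ∀ x, MemLp (fun b => Pg (m2 ρ A) (Bm ρ A) (lam x) (pin (Ac ρ A) *ᵥ b)
        - Pg (lfM N ρ) (Bm ρ A) (lam x) (pin (Ac ρ A) *ᵥ b)) 2 (gau (V (N / ρ))) := fun x =>
      (memLp_bdd ((measurable_Pg (hl.m x)).comp (measurable_mulVec _)).aestronglyMeasurable
        fun b => norm_Pg_le (hKl x) _).sub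
      (memLp_bdd ((measurable_Pg (hl.m x)).comp (measurable_mulVec _)).aestronglyMeasurable
        fun b => norm_Pg_le (hKl x) _)
    have mT3 : MemLp (fun b => ∑ x ∈ T, (Pg (m2 ρ A) (Bm ρ A) (lam x) (pin (Ac ρ A) *ᵥ b)
        - Pg (lfM N ρ) (Bm ρ A) (lam x) (pin (Ac ρ A) *ᵥ b))) 2 (gau (V (N / ρ))) :=
      memLp_sum _ fun x _ => mT3' x
    have n1 : n2 (gau (V (N / ρ))) (fun b => ∑ x, (r x X : ℂ) * Pg (m2 ρ A) (Bm ρ A) (ψ x)
        (pin (Ac ρ A) *ᵥ b)) ≤ e4 * K := by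
      have he0 : 0 ≤ e4 := (Finset.sum_nonneg fun _ _ => abs_nonneg _).trans (he4 X)
      refine n2_le_const mT1.aestronglyMeasurable (mul_nonneg he0 hK0) fun b => ?_
      refine (norm_sum_le _ _).trans ?_
      calc ∑ x, ‖(r x X : ℂ) * Pg (m2 ρ A) (Bm ρ A) (ψ x) (pin (Ac ρ A) *ᵥ b)‖
          ≤ ∑ x, |r x X| * K := by
            refine Finset.sum_le_sum fun x _ => ?_
            rw [norm_mul, Complex.norm_real, Real.norm_eq_abs]
            exact mul_le_mul_of_nonneg_left (norm_Pg_le (hK x) _) (abs_nonneg _)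
        _ = (∑ x, |r x X|) * K := by rw [Finset.sum_mul]
        _ ≤ e4 * K := mul_le_mul_of_nonneg_right (he4 X) hK0
    have n2' : n2 (gau (V (N / ρ))) (fun b => ∑ x ∈ T, Pg (m2 ρ A) (Bm ρ A)
        (fun F => ψ x F - lam x F) (pin (Ac ρ A) *ᵥ b)) ≤ (ρ : ℝ) ^ 2 * η := by
      refine (n2_sum_le T fun x _ => mP2 x).trans ?_
      rw [← hcard X, ← nsmul_eq_mul]
      exact Finset.sum_le_card_nsmul _ _ _ fun x _ =>
        (n2_Pgc_le hρ h (mdif x) (bdif x)).trans (hl.near x)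
    have n3 : n2 (gau (V (N / ρ))) (fun b => ∑ x ∈ T, (Pg (m2 ρ A) (Bm ρ A) (lam x)
        (pin (Ac ρ A) *ᵥ b) - Pg (lfM N ρ) (Bm ρ A) (lam x) (pin (Ac ρ A) *ᵥ b)))
        ≤ (ρ : ℝ) ^ 2 * (Lp * (√(2 * (2 * (D : ℝ) + 1)) * σr)) := by
      refine (n2_sum_le T fun x _ => mT3' x).trans ?_
      rw [← hcard X, ← nsmul_eq_mul]
      refine Finset.sum_le_card_nsmul _ _ _ fun x _ => ?_
      -- the increment of the field
      set mx : (V (N / ρ) → ℝ) → ℝ := mx4 (H462.box x D) (r * pin (Ac ρ A)) with hmx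
      have hmm : MemLp (fun b : V (N / ρ) → ℝ => ((mx b : ℝ) : ℂ)) 2 (gau (V (N / ρ))) :=
        (int_mx4 fun v _ => hσr v).1
      have hK4 : (0 : ℝ) ≤ √(2 * (2 * (D : ℝ) + 1)) := Real.sqrt_nonneg _
      have nmx : n2 (gau (V (N / ρ))) (fun b : V (N / ρ) → ℝ => ((mx b : ℝ) : ℂ))
          ≤ √(2 * (2 * (D : ℝ) + 1)) * σr := by
        refine n2_mx4 hσ0 hK4 (fun v _ => hσr v) ?_
        have e8 : √(2 * (2 * (D : ℝ) + 1)) ^ 4 = 4 * (2 * (D : ℝ) + 1) ^ 2 := by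
          rw [show (4 : ℕ) = 2 * 2 from rfl, pow_mul, Real.sq_sqrt (by positivity)]
          ring
        rw [e8]
        have := H462.card_box x D
        linarith
      have hpt : ∀ b : V (N / ρ) → ℝ, ‖Pg (m2 ρ A) (Bm ρ A) (lam x) (pin (Ac ρ A) *ᵥ b)
          - Pg (lfM N ρ) (Bm ρ A) (lam x) (pin (Ac ρ A) *ᵥ b)‖
          ≤ ‖((Lp : ℝ) : ℂ) * ((mx b : ℝ) : ℂ)‖ := by
        intro b
        rw [norm_mul, Complex.norm_real, Complex.norm_real, Real.norm_eq_abs,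
          Real.norm_eq_abs, abs_of_nonneg hLp, abs_of_nonneg (mx4_nonneg _ _ _)]
        refine Pg_lip2 (hl.m x) (hKl x) (hl.lip x) _ _ fun y hy => ?_
        have e6 : (m2 ρ A *ᵥ (pin (Ac ρ A) *ᵥ b)) y - (lfM N ρ *ᵥ (pin (Ac ρ A) *ᵥ b)) y
            = (r * pin (Ac ρ A)) y ⬝ᵥ b := by
          have e7 : m2 ρ A *ᵥ (pin (Ac ρ A) *ᵥ b) - lfM N ρ *ᵥ (pin (Ac ρ A) *ᵥ b)
              = (r * pin (Ac ρ A)) *ᵥ b := by
            rw [← sub_mulVec, ← hr, mulVec_mulVec]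
          exact congrFun e7 y
        rw [e6]
        exact le_mx4 _ _ hy
      refine (n2_mono (hmm.const_mul _) hpt).trans ?_
      rw [n2_const_mul, Complex.norm_real, Real.norm_eq_abs, abs_of_nonneg hLp]
      exact mul_le_mul_of_nonneg_left nmx hLp
    unfold tn2
    rw [n2_congr fun b => e0 _]
    refine (n2_add_le (mT1.add mT2) mT3).trans ?_
    have := (n2_add_le mT1 mT2).trans (add_le_add n1 n2')
    exact (add_le_add this n3).trans (le_of_eq (by ring))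

end

end Vale.Agent.P159.H889
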