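import Vale.Agent.P159.H889.VstepN
import Vale.Agent.P159.H767.Nr10
import Vale.Agent.P159.H972.StepG
import Vale.Agent.P159.H801.ParEv

/-!
P159 / H889: THE STEP OF THE CHARGED SECTOR IN THE LETTERS OF LIST P_up: tori, cells, state, context.
-/

namespace Vale.Agent.P159.H889

open MeasureTheory ProbabilityTheory Finset Matrix
open Vale.Agent.P159.TM.H859 (dirE)
open Vale.Agent.P159.TM.Spec (V)
open Vale.Agent.P159.TM.SpecC (wT)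
open Vale.Agent.P159.H37 (gau gau_sum qf)
open Vale.Agent.P159.H145 (mt)
open Vale.Agent.P159.H363
open Vale.Agent.P159.H864 (TI sym fc mlt cl up yt)
open Vale.Agent.P159.H462 (Dom ahat ti_ahat sym_ahat)
open Vale.Agent.P159.H896 (Ph om WM Ah Acx Pc lf2 tcf)
open Vale.Agent.P159.H340 (tce anw)
open Vale.Agent.P159.H733.Torg (ip pz Two)
open Vale.Agent.P159.H733.Vt (zb lft)
open Vale.Agent.P159.H767 (A3)
open Vale.Agent.P159.H972 (tn Good RNG FL)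
open Vale.Agent.P159.H801 (Ev)
open scoped Real

noncomputable section

/-- tori of the V state -/
def TV (P : H972.Par) (n : ℕ) (e : ℝ) (r : ℕ) : Prop :=
  n + P.kE e ≤ r ∧ r ≤ n + P.kE e + (P.q0 - 2) * (4 * P.w e)

/-- the largest admissible torus of the level `n` -/
def top (P : H972.Par) (n : ℕ) (e : ℝ) : ℕ := n + P.kE e + P.q0 * (4 * P.w e)

/-- `λ = l / ξ`, cells `l = 2 ^ s`, `ξ = 2 ^ n` -/
def lam (n s : ℕ) : ℝ := 2 ^ s / 2 ^ n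

/-- `L = log (ξ / l)` -/
def Lg (n s : ℕ) : ℝ := ((n : ℝ) - s) * Real.log 2

/-- the scalar mass in cell units, `ν = λ ^ 2` -/
def nu (n s : ℕ) : ℝ := tn n * ((2 ^ s : ℕ) : ℝ) ^ 2

/-- the losses: `Q = e ^ (-(th + 4 q0 thp))` -/
def QP (P : H972.Par) (e : ℝ) : ℝ := e ^ (-(P.th + 4 * P.q0 * P.thp))

/-- the radius of the cuts, in cells -/
def Dc (A1 : ℝ) (n s : ℕ) : ℕ := ⌈A1 * Lg n s / lam n s⌉₊

/-- `M = ξ_m / ξ_n` -/
def Mw (n m : ℕ) : ℝ := 2 ^ m / 2 ^ n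

/-- the reference form on the torus `2 ^ r`: the exact periodization of helper767's form of the torus
`2 ^ r3` -/
def Bq (b : ℝ) (n s r r3 : ℕ) [NeZero (2 ^ r / 2 ^ s)] [NeZero (2 ^ r3 / 2 ^ s)]
    (h : 2 ^ r / 2 ^ s ∣ 2 ^ r3 / 2 ^ s) : Matrix (V (2 ^ r / 2 ^ s)) (V (2 ^ r / 2 ^ s)) ℝ :=
  pz h (A3 (2 ^ r3) (2 ^ s) b (tn n))

/-- **the level**: level `n`, size `e`, number `y` (an upper bound of the background, and the number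
which fixes the cells `2 ^ s`) -/
structure Cx (P : H972.Par) (b C1 c1 : ℝ) (n s : ℕ) (e y : ℝ) : Prop where
  G : Good P b n e
  b1 : P.b1 ≤ b
  b2 : b ≤ P.b2
  e0 : 0 < e
  es : e ≤ P.es
  y0 : 0 < y
  y1 : y ^ (39 / 20 : ℝ) ≤ e
  yL : Real.log (1 / y) ≤ e ^ (-c1)
  vy : ∀ r, P.TT n e r → yt (2 ^ r) b (4 * tn n) ≤ e ^ (-(P.thp / 20)) * y
  s1 : (e * y) ^ (9 / 8 * C1) ≤ lam n s
  s2 : lam n s ≤ (e * y) ^ C1
  ns : n ≤ 2 * s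

/-- **the window** `n -> m`, sizes `e -> e'` -/
structure Cw (P : H972.Par) (n m : ℕ) (e e' : ℝ) : Prop where
  lo : e / 2 ≤ e'
  hi : e' ≤ e ^ (19 / 20 : ℝ)
  es : e' ≤ P.es
  w1 : 20 * n + P.w e ≤ 20 * m
  w2 : m ≤ n + 4 * P.w e

/-- **the state of the charged sector**, cells `2 ^ s`, complex natural activity `ζ`, natural
deviation `Δ`, error of the functional `E`, on all tori of `TV` -/
def SV (P : H972.Par) (b A1 : ℝ) (n s : ℕ) (e : ℝ) (ζ : ℂ) (Δ E : ℝ) : Prop :=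
  ∀ r, TV P n e r → ∀ [NeZero (2 ^ r / 2 ^ s)], ∃ Lp : ℝ,
    VB (2 ^ r) (2 ^ s) b (tn n) (ζ * (nu n s : ℂ)) (Δ * nu n s) (Dc A1 n s)
      (lam n s ^ (1 / 8 : ℝ) * nu n s) Lp E (QP P e ^ 2 * nu n s) (QP P e ^ 4)

/-- the reference form is good on the torus `2 ^ r` (helper767, helper692, helper375) -/
structure BR (b : ℝ) (n s r r3 : ℕ) (e a k0 c0 Cm : ℝ) [NeZero (2 ^ r / 2 ^ s)]
    [NeZero (2 ^ r3 / 2 ^ s)] (h : 2 ^ r / 2 ^ s ∣ 2 ^ r3 / 2 ^ s) : Prop where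
  two : Two h (Bq b n s r r3 h) (A3 (2 ^ r3) (2 ^ s) b (tn n)) (nu n s) c0 (k0 * lam n s) Cm
  nf : Nf (Bq b n s r r3 h)
  ha : ∀ u, (Bq b n s r r3 h *ᵥ u) ⬝ᵥ u ≤ (a + e ^ (1 / 2 : ℝ)) * dirE u
  hs : ∑ k, rel (acl (2 ^ r) (2 ^ s) b (tn n) (tn n)) (Bq b n s r r3 h) k ^ 2 ≤
    (e ^ (22 / 25 : ℝ)) ^ 2
  hs' : ∑ k, rel (Bq b n s r r3 h) (acl (2 ^ r) (2 ^ s) b (tn n) (tn n)) k ^ 2 ≤
    (e ^ (22 / 25 : ℝ)) ^ 2

end

end Vale.Agent.P159.H889
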