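import Vale.Agent.P159.H889.Vfn
import Vale.Agent.P159.H889.Vdef
import Vale.Agent.P159.H316.St1

/-!
P159 / H889: **THE V HALF OF THE STEP OF THE MASTER** (`VStep` of helper801) for the final V state `VF`,
from the general step `StepH` and the persistence of the background numbers (`PERS`), of the second
harmonic (`CHS`, `CBS`) and of `YBn` (`YBB`).
-/

namespace Vale.Agent.P159.H889

open Filter Topology
open Vale.Agent.P159.H972 (tn Good FL YBn)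
open Vale.Agent.P159.H864 (yt)
open Vale.Agent.P159.H801 (Ev FLC VStep MS xa)
open Vale.Agent.P159.H264 (kap)
open Vale.Agent.P159.H415 (CI)
open scoped Real

noncomputable section

variable {P : H972.Par} {b A1 C1 c1 : ℝ} {a u : ℕ → ℝ} {N0 : ℕ}

lemma kap_xa (a : ℕ → ℝ) (n : ℕ) : kap * xa a n = -((2 - π / a n) * Real.log 2) := by
  unfold kap xa
  have := Real.pi_ne_zero
  field_simp
  ring

/-- **the V half of the step**, one parameter -/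
theorem vstep_of (hC : 24 ≤ C1) (hc1 : 0 < c1) (hb0 : 0 < b) (hb : P.b1 ≤ b) (hb2 : b ≤ P.b2)
    (hG : StepH b A1 P (2 * c1) C1)
    (hNv : ∀ ε, 0 < ε → ε ≤ P.es → Nv c1 (1 / (8 * C1)) C1 (QP P ε) ε (P.w ε))
    (hNf : ∀ dl ε ε' : ℝ, 0 ≤ dl → dl ≤ 1 / 192 → 0 < ε → ε ≤ P.es → ε / 2 ≤ ε' →
      ε' ≤ ε ^ (19 / 20 : ℝ) → Nf3 P dl ε ε')
    (hpers : H316.PERS P b C1 (2 * c1) A1 N0) (hchs : H316.CHS P b (2 * c1))
    (hcbs : H316.CBS P b (2 * c1)) (hyb : H316.YBB P b N0) (ha : FLC P b a)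
    (h1 : ∀ n, N0 ≤ n → 4 ≤ n ∧ 1 ≤ a n ∧ a n ≤ 8 / 5 ∧
      |2 - π / a n| * Real.log 2 ≤ 1 / (8 * C1) / 4)
    (hu : ∀ m ε z, 0 < ε → ε ≤ P.es → Good P b m ε →
      (∃ (s : ℕ) (ζ : ℂ), VSs P b C1 A1 (1 / (8 * C1)) m ε z s ζ) → z ^ (39 / 20 : ℝ) ≤ ε →
      Real.log (1 / z) ≤ ε ^ (-(2 * c1)) → z ≤ u m) :
    VStep P b (VF P b C1 A1 (1 / (8 * C1))) u a (P.x1 / 100) (1 / 20) (17 / 20) c1 N0 := by
  intro n m ε ε' z hn hMS hz hεs hL hm1 hm2 hGm hε'1 hε'2 hε's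
  have e1 : (2 - 1 / 20 : ℝ) = 39 / 20 := by norm_num
  have e2 : (2 - 2 * (1 / 20) : ℝ) = 19 / 10 := by norm_num
  have e3 : (1 - 1 / 20 : ℝ) = 19 / 20 := by norm_num
  rw [e1] at hz
  rw [e2] at hε'1
  rw [e3] at hε'2
  obtain ⟨⟨s, ζ, hV⟩, hCB, -⟩ := hMS.V
  have hz0 := hV.z0
  have hε0 : 0 < ε := (Real.rpow_pos_of_pos hz0 _).trans_le hz
  have hε1 : ε ≤ 1 := hεs.trans (P.es1.trans (by norm_num))
  have h3 := (le_max_left _ _).trans hε'1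
  have h3' := (le_max_right _ _).trans hε'1
  have hε'0 : 0 < ε' := lt_of_lt_of_le (by positivity) h3
  obtain ⟨hn4, ha1, ha2, hx⟩ := h1 n hn
  have hm0 : N0 ≤ m := by omega
  have hdl0 : 0 < 1 / (8 * C1) := by positivity
  have hdl : 1 / (8 * C1) ≤ 1 / 192 := one_div_le_one_div_of_le (by norm_num) (by linarith)
  have hCd : C1 * (1 / (8 * C1)) ≤ 1 / 8 := by
    have : C1 * (1 / (8 * C1)) = 1 / 8 := by field_simp
    exact this.le
  set dl : ℝ := 1 / (8 * C1) with hdle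
  have hNε := hNv ε hε0 hεs
  have hfl : ∀ r, P.TT n ε r → FL b (tn n) (a n) (17 * ε ^ P.pf) (2 ^ r) :=
    fun r hr => ha n ε hε0 hεs hMS.P ε le_rfl hεs r hr
  have hCx := hV.cx hMS.P hb hb2 hε0 hεs hc1.le hz hL
  have F : CxF P b (a n) C1 (2 * c1) n s ε z := ⟨hCx, ha1, ha2, hfl⟩
  have W : Cw P n m ε ε' := ⟨h3, hε'2, hε's, by omega, hm2⟩
  obtain ⟨hNm, t1, t2, -, -⟩ := hG.2 (a n) n m s ε ε' z (1 / 2) F W (by norm_num) le_rfl hV.ch
  obtain ⟨ζ', q1, q2, q3, q4, q5⟩ := vs_step_pt2 hc1 hdl0 hCd hb hb2 hG hNε hn4 ha1 ha2 hx hfl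
    hMS.P hGm hV hz hε0 hεs hL hm1 hm2 h3 h3' hε'2 hε's
  have hnf := hNf dl ε ε' hdl0.le hdl hε0 hεs h3 hε'2
  -- sizes
  have hnm : (n : ℝ) + P.w ε ≤ m := by exact_mod_cast hm1
  have hw0 : (0 : ℝ) ≤ P.w ε := Nat.cast_nonneg _
  have hnm2 : (m : ℝ) - n ≤ 4 * P.w ε := by
    have : (m : ℝ) ≤ n + 4 * P.w ε := by exact_mod_cast hm2
    linarith
  obtain ⟨-, -, g3⟩ := G0_two (a := a n) (M := Mw n m) rfl (by linarith) hx hdl
  have hlz : Real.log z - Real.log ‖ζ'‖ ≤ 1 + dl / 4 * ((m : ℝ) - n) := by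
    have k1 := (abs_le.1 q2).1
    have k2 := (abs_le.1 g3).1
    have k3 := hNε.a14
    linarith
  have hzz : z ≤ Real.exp (1 + dl * P.w ε) * ‖ζ'‖ := by
    have k1 : Real.log z ≤ (1 + dl * P.w ε) + Real.log ‖ζ'‖ := by
      have : dl / 4 * ((m : ℝ) - n) ≤ dl / 4 * (4 * P.w ε) :=
        mul_le_mul_of_nonneg_left hnm2 (by positivity)
      linarith
    have k2 := Real.exp_le_exp.2 k1
    rwa [Real.exp_log hz0, Real.exp_add, Real.exp_log q1] at k2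
  -- the ratio for the harmonics
  have hw192 : (192 : ℝ) ≤ P.w ε := by linarith [hNε.a13]
  have hmn0 : 0 ≤ (m : ℝ) - n := by linarith
  have hcast : ((m - n : ℕ) : ℝ) = (m : ℝ) - n := by
    rw [Nat.cast_sub (by omega)]
  have hratio : ∀ c : ℝ, 1 / 5 ≤ c → z ≤ (2 : ℝ) ^ (c * ((m - n : ℕ) : ℝ)) * ‖ζ'‖ := by
    intro c hc
    have hl2 := Real.log_two_gt_d9
    have k1 : Real.log z ≤ c * ((m - n : ℕ) : ℝ) * Real.log 2 + Real.log ‖ζ'‖ := by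
      rw [hcast]
      have k2 : dl / 4 * ((m : ℝ) - n) ≤ 1 / 192 / 4 * ((m : ℝ) - n) :=
        mul_le_mul_of_nonneg_right (by linarith) hmn0
      have k3 : 1 / 5 * ((m : ℝ) - n) * Real.log 2 ≤ c * ((m : ℝ) - n) * Real.log 2 :=
        mul_le_mul_of_nonneg_right (mul_le_mul_of_nonneg_right hc hmn0) (by linarith)
      have k4 : 1 / 5 * ((m : ℝ) - n) * (1 / 2) ≤ 1 / 5 * ((m : ℝ) - n) * Real.log 2 :=
        mul_le_mul_of_nonneg_left (by linarith) (by positivity)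
      linarith
    have k2 := Real.exp_le_exp.2 k1
    rwa [Real.exp_log hz0, Real.exp_add, Real.exp_log q1,
      show c * ((m - n : ℕ) : ℝ) * Real.log 2 = Real.log 2 * (c * ((m - n : ℕ) : ℝ)) by ring,
      ← Real.rpow_def_of_pos two_pos] at k2
  -- the background numbers
  have hP : ∀ r, m + P.kE ε' ≤ r →
      yt (2 ^ r) b (4 * tn m) ≤ ε ^ (-(P.thp / 400)) * z := by
    have h78 : 0 < ε ^ (7 / 8 : ℝ) := Real.rpow_pos_of_pos hε0 _
    have k := hpers n m s ε ε' z ζ (z * ε ^ (7 / 8 : ℝ)) (z * ε ^ (439 / 500 : ℝ)) hn hCx W hm1 hGm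
      hV.sv (by positivity) (mul_nonneg hz0.le (Real.rpow_nonneg hε0.le _)) ?_ ?_ ?_ ?_ ?_
    · intro r hr
      have := k r hr
      rwa [hV.nz] at this
    · rw [hV.nz]
      have k1 : (2 : ℝ) ^ (((m : ℝ) - n) / 4) ≤ QP P ε := by
        refine le_trans ?_ hNm.MQ
        have k2 : Mw n m = (2 : ℝ) ^ ((m : ℝ) - n) := by
          unfold Mw
          rw [Real.rpow_sub two_pos, Real.rpow_natCast, Real.rpow_natCast]
        rw [k2]
        exact Real.rpow_le_rpow_of_exponent_le one_le_two (by linarith)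
      have k3 := hNε.a1
      have k4 := hNε.a14
      have k5 : QP P ε * ε ^ (7 / 8 : ℝ) ≤ 1 := by
        have : QP P ε * (2 * ε ^ (7 / 8 : ℝ)) = 2 * (QP P ε * ε ^ (7 / 8 : ℝ)) := by ring
        rw [this] at k3
        linarith
      calc (2 : ℝ) ^ (((m : ℝ) - n) / 4) * (z * ε ^ (7 / 8 : ℝ))
          = ((2 : ℝ) ^ (((m : ℝ) - n) / 4) * ε ^ (7 / 8 : ℝ)) * z := by ring
        _ ≤ (QP P ε * ε ^ (7 / 8 : ℝ)) * z :=
            mul_le_mul_of_nonneg_right (mul_le_mul_of_nonneg_right k1 h78.le) hz0.le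
        _ ≤ 1 * z := mul_le_mul_of_nonneg_right k5 hz0.le
        _ = z := one_mul z
    · rw [hV.nz, mul_comm]
      exact mul_le_mul_of_nonneg_right (Real.rpow_le_rpow_of_exponent_ge hε0 hε1 (by norm_num))
        hz0.le
    · rw [hV.nz]
      exact le_mul_of_one_le_left hz0.le
        (Real.one_le_rpow_of_pos_of_le_one_of_nonpos hε0 hε1 (by norm_num))
    · rw [hV.nz]
      exact mul_le_of_le_one_left hz0.le (Real.rpow_le_one hε0.le hε1 (by norm_num))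
    · intro r hr
      rw [hV.nz]
      exact hV.vy r hr
  have g0 : 0 < ε ^ (-(P.thp / 400)) := Real.rpow_pos_of_pos hε0 _
  have hPz : ε ^ (-(P.thp / 400)) * z ≤
      ε ^ (-(P.thp / 400)) * Real.exp (1 + dl * P.w ε) * ‖ζ'‖ := by
    rw [mul_assoc]
    exact mul_le_mul_of_nonneg_left hzz g0.le
  have hvy : ∀ r, P.TT m ε' r → yt (2 ^ r) b (4 * tn m) ≤ ε' ^ (-(P.thp / 20)) * ‖ζ'‖ :=
    fun r hr => (hP r hr.1).trans (hPz.trans (mul_le_mul_of_nonneg_right hnf.n1 q1.le))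
  -- the harmonics
  have ci : CI P b (2 * c1) n m ε ε' z ‖ζ'‖ := ⟨hε0, hεs, h3, hε's, by omega, hm2, hMS.P, hGm,
    hz0, q1, hz, q3, q4, hV.vy _ t2, hvy, hratio _ (by norm_num)⟩
  have hch := hchs.1 n m ε ε' z ‖ζ'‖ (1 / 2) (1 / 2) ci (by norm_num) le_rfl
    (by have := P.thp0; linarith) hV.ch
  have hcb := hcbs.1 n m ε ε' z ‖ζ'‖ 2 2 ci hε'2 (hratio _ le_rfl)
    (by have := P.thp0; linarith) le_rfl (by have := P.thp0; linarith) hCB
  obtain ⟨s', hV'⟩ := q5 hvy hch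
  -- `YBn`
  have hY0 : YBn P b m ε' (ε' ^ (-(P.thp / 200)) * (ε ^ (-(P.thp / 400)) * z)) :=
    hyb m ε' _ hm0 hε'0 hε's hGm (by positivity) (hnf.n3 z hz0 hz) (hP _ le_rfl)
  have hYle : ε' ^ (-(P.thp / 200)) * (ε ^ (-(P.thp / 400)) * z) ≤
      ε' ^ (-(P.x1 / 100)) * ‖ζ'‖ := by
    have g1 : 0 < ε' ^ (-(P.thp / 200)) := Real.rpow_pos_of_pos hε'0 _
    calc ε' ^ (-(P.thp / 200)) * (ε ^ (-(P.thp / 400)) * z)
        ≤ ε' ^ (-(P.thp / 200)) * (ε ^ (-(P.thp / 400)) * Real.exp (1 + dl * P.w ε) * ‖ζ'‖) :=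
          mul_le_mul_of_nonneg_left hPz g1.le
      _ = (ε' ^ (-(P.thp / 200)) * (ε ^ (-(P.thp / 400)) * Real.exp (1 + dl * P.w ε))) * ‖ζ'‖ := by
          ring
      _ ≤ ε' ^ (-(P.x1 / 100)) * ‖ζ'‖ := mul_le_mul_of_nonneg_right hnf.n2 q1.le
  have hY : YBn P b m ε' (ε' ^ (-(P.x1 / 100)) * ‖ζ'‖) :=
    ⟨hY0.1.trans_le hYle, fun e he1 he2 r hr => (hY0.2.1 e he1 he2 r hr).trans
      (max_le_max hYle le_rfl), fun e he1 he2 r hr => (hY0.2.2 e he1 he2 r hr).trans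
      (max_le_max hYle le_rfl)⟩
  refine ⟨‖ζ'‖, ⟨⟨s', ζ', hV'⟩, hcb, q3⟩, q1, hY, ?_, ?_⟩
  · have k1 := hu m ε' ‖ζ'‖ hε'0 hε's hGm ⟨s', ζ', hV'⟩ q3 q4
    refine k1.trans (le_mul_of_one_le_left (q1.le.trans k1) ?_)
    exact Real.one_le_rpow_of_pos_of_le_one_of_nonpos hε'0 (hε's.trans (P.es1.trans (by norm_num)))
      (by have := P.x10; linarith)
  · rw [kap_xa]
    refine le_trans (le_of_eq ?_) q2
    congr 1
    ring

end

end Vale.Agent.P159.H889
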