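import Vale.Agent.P159.H889.Vfin
import Vale.Agent.P159.H415.Pers2

/-!
P159 / H889: the V half of the step of the master, in the order of constants.
-/

namespace Vale.Agent.P159.H889

open Filter Topology
open Vale.Agent.P159.H972 (tn Good FL YBn)
open Vale.Agent.P159.H864 (yt)
open Vale.Agent.P159.H801 (Ev FLC VStep MS xa)
open scoped Real

noncomputable section

variable {b b1 b2 pf K : ℝ} {Q : ℕ}

/-- helper415's step of `CH2` -/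
theorem chs_ev (hb1 : 0 < b1) (h1 : b1 ≤ b) (hpf : 0 < pf) (Q : ℕ) :
    Ev b1 b2 pf Q fun P c1 => H316.CHS P b c1 :=
  (H415.ev_ch2b (b2 := b2) hb1 h1 hpf Q).mono fun _ c1 _ h =>
    ⟨fun n m e e' y y' g g' ci => h.2.1 c1 n m e e' y y' g g' h.1 ci, h.2.2⟩

/-- helper43's step of `CHB` -/
theorem cbs_ev (hb1 : 0 < b1) (h1 : b1 ≤ b) (hpf : 0 < pf) (Q : ℕ) :
    Ev b1 b2 pf Q fun P c1 => H316.CBS P b c1 :=
  ((H43.ev_chbc hb1 b2 pf Q).and (H415.ev_typT (b2 := b2) hb1 h1 hpf Q)).mono fun _ _ _ h =>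
    h.1 b h.2

/-- the numbers of the V state -/
theorem nv_ev (hK : 0 < K) : EvC b1 b2 pf Q K fun P c1 C1 => 0 < c1 ∧ ∀ ε, 0 < ε → ε ≤ P.es →
    Nv c1 (1 / (8 * C1)) C1 (QP P ε) ε (P.w ε) := by
  refine ev_numC (ρ0 := 1 / 4000) (κ := 1) (Cmin := 1) (by norm_num) one_pos ?_
  intro th thp q0 hth hthp hle hq hρ C0 hC0 c1 hc1 hc1'
  have hC00 : 0 < C0 := by linarith
  obtain ⟨E0, hE0, hE⟩ := nv_ex (c1 := c1) (dl0 := 1 / (8 * (K * C0))) (Cm := K * C0) (thp := thp)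
    (ρ := th + 4 * q0 * thp) hc1 (by positivity) hthp (by positivity) hρ
  refine ⟨E0, hE0, fun P hA e1 e2 e3 e4 hes _ _ _ C1 b1' b2' b3' => ⟨hc1, fun ε hε hεs => ?_⟩⟩
  rw [e4] at b3'
  have h := hE ε (P.w ε) hε (hεs.trans hes) ?_ (1 / (8 * C1)) C1
    (one_div_le_one_div_of_le (by linarith) (by linarith)) b3'
  · have e5 : QP P ε = ε ^ (-(th + 4 * q0 * thp)) := by
      unfold QP
      rw [e1, e2, e3]
    rw [e5]
    exact h
  · rw [← e2]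
    exact Nat.le_ceil _

/-- the last parameter times a constant -/
theorem EvC.mul {k : ℝ} {G : H972.Par → ℝ → ℝ → Prop} (hk : 0 < k) (h : EvC b1 b2 pf Q K G) :
    EvC b1 b2 pf Q K fun P c1 C1 => G P (k * c1) C1 :=
  ev_mul (F := fun P c1 => ∀ C1 : ℝ, 1 ≤ C1 → P.C0 ≤ C1 → C1 ≤ K * P.C0 → G P c1 C1) hk h

/-- **the V half of the step of the master** -/
theorem vstep_ev {A1 κ : ℝ} (hb1 : 0 < b1) (h1 : b1 ≤ b) (h2 : b ≤ b2) (hpf : 1 / 2 < pf)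
    (hpf1 : pf ≤ 1) (hK : 0 < K) (hκ : 0 ≤ κ) (hG : EvC b1 b2 pf Q K (StepH b A1))
    (hcrk : EvC b1 b2 pf Q K fun P c1 C1 => ∀ a : ℕ → ℝ, FLC P b a →
      Tendsto a atTop (𝓝 (π / 2)) → ∀ᶠ N0 in atTop, H316.CRK P b C1 c1 κ N0)
    (hY : Ev b1 b2 pf Q fun P _ => ∀ a : ℕ → ℝ, FLC P b a → Tendsto a atTop (𝓝 (π / 2)) →
      ∀ᶠ N0 in atTop, H316.YBB P b N0) :
    EvC b1 b2 pf Q K fun P c1 C1 => ∀ a : ℕ → ℝ, FLC P b a → Tendsto a atTop (𝓝 (π / 2)) →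
      ∀ u : ℕ → ℝ, (∀ m ε z, 0 < ε → ε ≤ P.es → Good P b m ε →
        (∃ (s : ℕ) (ζ : ℂ), VSs P b C1 A1 (1 / (8 * C1)) m ε z s ζ) → z ^ (39 / 20 : ℝ) ≤ ε →
        Real.log (1 / z) ≤ ε ^ (-(2 * c1)) → z ≤ u m) →
      ∀ᶠ N0 in atTop,
        VStep P b (VF P b C1 A1 (1 / (8 * C1))) u a (P.x1 / 100) (1 / 20) (17 / 20) c1 N0 := by
  have hpers := EvC.mul (k := 2) two_pos (H415.ev_pers (b := b) (b1 := b1) (b2 := b2) (pf := pf)
    (K := K) (κ := κ) (Q := Q) hb1 h1 h2 hpf hpf1 hκ)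
  have hcrk2 := EvC.mul (k := 2) two_pos hcrk
  have hG2 := EvC.mul (k := 2) two_pos hG
  have hrest : EvC b1 b2 pf Q K fun P c1 _ => (P.b1 = b1 ∧ P.b2 = b2) ∧
      (H316.CHS P b (2 * c1) ∧ H316.CBS P b (2 * c1)) ∧
      (∀ a : ℕ → ℝ, FLC P b a → Tendsto a atTop (𝓝 (π / 2)) → ∀ᶠ N0 in atTop, H316.YBB P b N0) ∧
      ∀ dl ε ε' : ℝ, 0 ≤ dl → dl ≤ 1 / 192 → 0 < ε → ε ≤ P.es → ε / 2 ≤ ε' →
        ε' ≤ ε ^ (19 / 20 : ℝ) → Nf3 P dl ε ε' := by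
    have e1 : Ev b1 b2 pf Q fun P _ => P.b1 = b1 ∧ P.b2 = b2 :=
      ev_true fun _ _ _ g1 g2 _ => ⟨g1, g2⟩
    have e2 := ev_mul (k := 2) two_pos
      ((chs_ev (b2 := b2) hb1 h1 (by linarith : 0 < pf) Q).and
        (cbs_ev (b2 := b2) hb1 h1 (by linarith : 0 < pf) Q))
    exact (e1.and (e2.and (hY.and (nf3_ev b1 b2 pf Q)))).mono fun P c1 _ h _ _ _ _ => h
  refine (((hG2.and hpers).and (hcrk2.and hrest)).and (nv_ev hK)).mono ?_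
  rintro P c1 C1 hA - - - ⟨⟨⟨gG, gP⟩, gC, ⟨gb1, gb2⟩, ⟨gch, gcb⟩, gY, gN⟩, hc1, gNv⟩ a ha hlim u hu
  have hpi := Real.pi_gt_d2
  have hpi2 := Real.pi_lt_d2
  have hC24 := gG.1
  have hdl : 0 < 1 / (8 * C1) / 4 := by positivity
  have a1 : ∀ᶠ n in atTop, 1 ≤ a n ∧ a n ≤ 8 / 5 :=
    (hlim.eventually (eventually_ge_nhds (show (1 : ℝ) < π / 2 by linarith))).and
      (hlim.eventually (eventually_le_nhds (show π / 2 < (8 / 5 : ℝ) by linarith)))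
  have a2 : ∀ᶠ n in atTop, |2 - π / a n| * Real.log 2 ≤ 1 / (8 * C1) / 4 := by
    have h5 : Tendsto (fun n => |2 - π / a n| * Real.log 2) atTop (𝓝 0) := by
      have h6 : Tendsto (fun n => π / a n) atTop (𝓝 (π / (π / 2))) :=
        tendsto_const_nhds.div hlim (by positivity)
      have h7 : π / (π / 2) = 2 := by field_simp
      rw [h7] at h6
      have h8 := ((h6.const_sub 2).abs).mul_const (Real.log 2)
      simpa using h8
    exact h5.eventually (eventually_le_nhds hdl)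
  obtain ⟨N1, hN1⟩ := eventually_atTop.1 ((eventually_ge_atTop 4).and (a1.and a2))
  filter_upwards [eventually_ge_atTop N1, gP a ha hlim, gC a ha hlim, gY a ha hlim] with N0 hN0 k1
    k2 k3
  refine vstep_of hC24 hc1 (hb1.trans_le h1) (gb1.trans_le h1) (h2.trans_eq gb2.symm) gG gNv gN
    (k1 k2 A1) gch gcb k3 ha (fun n hn => ?_) hu
  obtain ⟨j1, j2, j3⟩ := hN1 n (hN0.trans hn)
  exact ⟨j1, j2.1, j2.2, j3⟩

end

end Vale.Agent.P159.H889
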