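import Vale.Agent.P159.H889.Vvs
import Vale.Agent.P159.H889.Vasm4

/-!
P159 / H889: PERSISTENCE OF THE V STATE OF THE MASTER, one window: the new activity, its logarithm,
all fields of the state except the background (`vy`, `ch`).
-/

namespace Vale.Agent.P159.H889

open Vale.Agent.P159.H972 (tn Good FL)
open Vale.Agent.P159.H864 (yt)
open Vale.Agent.P159.H801 (Ev)
open scoped Real

noncomputable section

variable {P : H972.Par} {b A1 C1 c1 dl a : ℝ} {n m s s' : ℕ} {ε ε' z e e' y y' : ℝ}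

lemma tA_le (hC1 : 24 ≤ C1) (hC : Cx P b C1 c1 n s e y) : tA n s ≤ y * e ^ 3 := by
  have hx0 := hC.x0
  have he1 : e ≤ 1 := by linarith [hC.e1]
  have hy0 := hC.y0
  have hy1 := hC.ylt.le
  have h1 : tA n s ≤ (e * y) ^ (3 : ℝ) := by
    unfold tA
    calc lam n s ^ (1 / 8 : ℝ) ≤ ((e * y) ^ C1) ^ (1 / 8 : ℝ) :=
          Real.rpow_le_rpow (lam_pos n s).le hC.s2 (by norm_num)
      _ = (e * y) ^ (C1 * (1 / 8)) := by rw [← Real.rpow_mul hx0.le]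
      _ ≤ (e * y) ^ (3 : ℝ) :=
          Real.rpow_le_rpow_of_exponent_ge hx0 (hC.xle.trans he1) (by linarith)
  have h2 : (e * y) ^ (3 : ℝ) = (e * y) ^ 3 := by exact_mod_cast Real.rpow_natCast (e * y) 3
  rw [h2] at h1
  refine h1.trans ?_
  have h3 : y ^ 3 ≤ y := by
    calc y ^ 3 = y * (y * y) := by ring
      _ ≤ y * 1 := mul_le_mul_of_nonneg_left (mul_le_one₀ hy1 hy0.le hy1) hy0.le
      _ = y := mul_one y
  calc (e * y) ^ 3 = y ^ 3 * e ^ 3 := by ring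
    _ ≤ y * e ^ 3 := mul_le_mul_of_nonneg_right h3 (pow_nonneg hC.e0.le 3)

/-- the context of the old level -/
lemma VSs.cx {ζ : ℂ} (hV : VSs P b C1 A1 dl n ε z s ζ) (hG : Good P b n ε) (hb : P.b1 ≤ b)
    (hb2 : b ≤ P.b2) (hε0 : 0 < ε) (hε : ε ≤ P.es) (hc1 : 0 ≤ c1) (hz : z ^ (39 / 20 : ℝ) ≤ ε)
    (hL : Real.log (1 / z) ≤ ε ^ (-c1)) : Cx P b C1 (2 * c1) n s ε z where
  G := hG
  b1 := hb
  b2 := hb2
  e0 := hε0
  es := hε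
  y0 := hV.z0
  y1 := hz
  yL := hL.trans (Real.rpow_le_rpow_of_exponent_ge hε0 (hε.trans (P.es1.trans (by norm_num)))
    (by linarith))
  vy := hV.vy
  s1 := hV.s1
  s2 := hV.s2
  ns := hV.ns

/-- the bare growth -/
lemma G0_two {M : ℝ} (hM : M = Mw n m) (hnm : (n : ℝ) ≤ m) (hx : |2 - π / a| * Real.log 2 ≤ dl / 4)
    (hdl : dl ≤ 1 / 192) :
    M ^ (-(1 / 2) : ℝ) ≤ Real.exp ((2 - π / a) * ((m : ℝ) - n) * Real.log 2) ∧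
      Real.exp ((2 - π / a) * ((m : ℝ) - n) * Real.log 2) ≤ M ^ (1 / 2 : ℝ) ∧
      |(2 - π / a) * ((m : ℝ) - n) * Real.log 2| ≤ dl / 4 * ((m : ℝ) - n) := by
  have hl2 := Real.log_two_gt_d9
  have hd : 0 ≤ (m : ℝ) - n := by linarith
  have h1 : |(2 - π / a) * ((m : ℝ) - n) * Real.log 2| ≤ dl / 4 * ((m : ℝ) - n) := by
    rw [abs_mul, abs_mul, abs_of_nonneg hd, abs_of_pos (by linarith : 0 < Real.log 2)]
    calc |2 - π / a| * ((m : ℝ) - n) * Real.log 2 = (|2 - π / a| * Real.log 2) * ((m : ℝ) - n) := by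
          ring
      _ ≤ _ := mul_le_mul_of_nonneg_right hx hd
  have h2 : dl / 4 * ((m : ℝ) - n) ≤ 1 / 2 * (((m : ℝ) - n) * Real.log 2) := by
    have : dl / 4 ≤ 1 / 2 * Real.log 2 := by linarith
    have := mul_le_mul_of_nonneg_right this hd
    linarith
  have h3 := abs_le.1 (h1.trans h2)
  refine ⟨?_, ?_, h1⟩
  · rw [hM, Real.rpow_def_of_pos (Mw_pos n m), Mw_log]
    exact Real.exp_le_exp.2 (by linarith [h3.1])
  · rw [hM, Real.rpow_def_of_pos (Mw_pos n m), Mw_log]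
    exact Real.exp_le_exp.2 (by linarith [h3.2])

/-- **PERSISTENCE OF THE V STATE**, one window -/
theorem vs_step_pt2 (hc1 : 0 < c1) (hdl : 0 < dl) (hCd : C1 * dl ≤ 1 / 8)
    (hb : P.b1 ≤ b) (hb2 : b ≤ P.b2) (hG : StepH b A1 P (2 * c1) C1)
    (hNv : Nv c1 dl C1 (QP P ε) ε (P.w ε)) (hn : 4 ≤ n) (ha1 : 1 ≤ a) (ha2 : a ≤ 8 / 5)
    (hx : |2 - π / a| * Real.log 2 ≤ dl / 4)
    (hfl : ∀ r, P.TT n ε r → FL b (tn n) a (17 * ε ^ P.pf) (2 ^ r))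
    (hGn : Good P b n ε) (hGm : Good P b m ε') {ζ : ℂ} (hV : VSs P b C1 A1 dl n ε z s ζ)
    (hz : z ^ (39 / 20 : ℝ) ≤ ε) (hε0 : 0 < ε) (hε : ε ≤ P.es)
    (hL : Real.log (1 / z) ≤ ε ^ (-c1)) (h1 : n + P.w ε ≤ m) (h2 : m ≤ n + 4 * P.w ε)
    (h3 : ε / 2 ≤ ε') (h3' : z ^ (19 / 10 : ℝ) ≤ ε') (h4 : ε' ≤ ε ^ (19 / 20 : ℝ))
    (h5 : ε' ≤ P.es) :
    ∃ ζ' : ℂ, 0 < ‖ζ'‖ ∧
      |Real.log ‖ζ'‖ - Real.log z - (2 - π / a) * ((m : ℝ) - n) * Real.log 2| ≤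
        ε ^ (17 / 20 : ℝ) ∧ ‖ζ'‖ ^ (39 / 20 : ℝ) ≤ ε' ∧ Real.log (1 / ‖ζ'‖) ≤ ε' ^ (-(2 * c1)) ∧
      ((∀ r, P.TT m ε' r → yt (2 ^ r) b (4 * tn m) ≤ ε' ^ (-(P.thp / 20)) * ‖ζ'‖) →
        CH2 P b m ε' (‖ζ'‖ * ε' ^ (1 / 2 : ℝ)) →
        ∃ s' : ℕ, VSs P b C1 A1 dl m ε' ‖ζ'‖ s' ζ') := by
  have hC := hV.cx hGn hb hb2 hε0 hε hc1.le hz hL
  have F : CxF P b a C1 (2 * c1) n s ε z := ⟨hC, ha1, ha2, hfl⟩
  have W : Cw P n m ε ε' := ⟨h3, h4, h5, by omega, h2⟩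
  obtain ⟨hC24, hS⟩ := hG
  obtain ⟨hNm, t1, -, -, hstep⟩ := hS a n m s ε ε' z (1 / 2) F W (by norm_num) le_rfl hV.ch
  have hz0 := hV.z0
  have hz1 := hC.ylt
  have hnz := hV.nz
  have hε1 : ε ≤ 1 := hε.trans (P.es1.trans (by norm_num))
  have hζ : ζ ≠ 0 := norm_pos_iff.1 (by rw [hnz]; exact hz0)
  have h78 : 0 ≤ ε ^ (7 / 8 : ℝ) := Real.rpow_nonneg hε0.le _
  have h781 : ε ^ (7 / 8 : ℝ) ≤ 1 := Real.rpow_le_one hε0.le hε1 (by norm_num)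
  have hE0 : 0 ≤ z * ε ^ (439 / 500 : ℝ) := mul_nonneg hz0.le (Real.rpow_nonneg hε0.le _)
  have hΔ2 : z * ε ^ (7 / 8 : ℝ) ≤ 2 := by
    have := mul_le_mul hz1.le h781 h78 zero_le_one
    linarith
  obtain ⟨ζ', k1, k2⟩ := hstep ζ _ _ hζ (by rw [hnz]; exact hz1.le) hΔ2 hE0 (hV.sv _ t1)
  -- numbers
  have hM1 := hNm.M1.le
  have hMQ := hNm.MQ
  have hQ20 := hNm.Q20
  have hQ1 : 1 ≤ QP P ε := by linarith
  have hM0 := Mw_pos n m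
  have hnm : (n : ℝ) ≤ m := by
    have : n ≤ m := W.nm
    exact_mod_cast this
  have hdl1 : dl ≤ 1 / 192 := by nlinarith
  obtain ⟨g1, g2, g3⟩ := G0_two (a := a) (M := Mw n m) rfl hnm hx hdl1
  set G0 : ℝ := Real.exp ((2 - π / a) * ((m : ℝ) - n) * Real.log 2) with hG0
  have hG0p : 0 < G0 := Real.exp_pos _
  have hτ := tA_le hC24 hC
  have hsize := coef_size (Q := QP P ε) (g := ε ^ (17 / 20 : ℝ)) (h := H889.hS ε)
    (τ := tA n s) hε0 hz0 hM1 hQ1 hMQ g1 hτ (Real.rpow_nonneg hε0.le _) hNv.a1 hNv.a2 hNv.a3 hNv.a4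
  have hg0 : 0 ≤ ε ^ (17 / 20 : ℝ) := Real.rpow_nonneg hε0.le _
  have k1' : ‖ζ' - ζ * ((G0 : ℝ) : ℂ)‖ ≤ 1 / 2 * ε ^ (17 / 20 : ℝ) * (‖ζ‖ * G0) := by
    refine k1.trans ?_
    rw [hnz]
    refine le_trans (le_of_eq ?_) hsize
    unfold ZE WX
    rw [← hG0]
  obtain ⟨p1, p2, p3, p4⟩ := coef_log hζ hG0p k1' (by linarith [hNv.a14])
  rw [hnz] at p2 p3 p4
  rw [hG0, Real.log_exp] at p2
  have p2' : |Real.log ‖ζ'‖ - Real.log z - (2 - π / a) * ((m : ℝ) - n) * Real.log 2| ≤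
      ε ^ (17 / 20 : ℝ) := by linarith
  -- sizes
  have hz'0 := p1
  have hQ0 : 0 < QP P ε := by linarith
  have hG0Q : G0 ≤ QP P ε := by
    refine g2.trans (le_trans ?_ hMQ)
    calc Mw n m ^ (1 / 2 : ℝ) ≤ Mw n m ^ (1 : ℝ) :=
          Real.rpow_le_rpow_of_exponent_le hM1 (by norm_num)
      _ = _ := Real.rpow_one _
  have hGQ : 1 ≤ QP P ε * G0 := by
    calc (1 : ℝ) ≤ Mw n m ^ (1 / 2 : ℝ) := Real.one_le_rpow hM1 (by norm_num)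
      _ = Mw n m * Mw n m ^ (-(1 / 2) : ℝ) := by
          nth_rewrite 2 [← Real.rpow_one (Mw n m)]
          rw [← Real.rpow_add hM0]
          norm_num
      _ ≤ QP P ε * G0 := mul_le_mul hMQ g1 (Real.rpow_nonneg hM0.le _) hQ0.le
  have hzQ : z ≤ 2 * QP P ε * ‖ζ'‖ := by
    have h6 : z * 1 ≤ z * (QP P ε * G0) := mul_le_mul_of_nonneg_left hGQ hz0.le
    have h7 := mul_le_mul_of_nonneg_left p3 hQ0.le
    linarith
  have hzQ2 : ‖ζ'‖ ≤ 2 * QP P ε * z := by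
    have h6 : z * G0 ≤ z * QP P ε := mul_le_mul_of_nonneg_left hG0Q hz0.le
    linarith
  have h100 : 0 < ε ^ (1 / 100 : ℝ) := Real.rpow_pos_of_pos hε0 _
  have hy1 : ε ^ (1 / 100 : ℝ) * z ≤ ‖ζ'‖ := by
    calc ε ^ (1 / 100 : ℝ) * z ≤ ε ^ (1 / 100 : ℝ) * (2 * QP P ε * ‖ζ'‖) :=
          mul_le_mul_of_nonneg_left hzQ h100.le
      _ = (2 * QP P ε * ε ^ (1 / 100 : ℝ)) * ‖ζ'‖ := by ring
      _ ≤ 1 * ‖ζ'‖ := mul_le_mul_of_nonneg_right hNv.a9 hz'0.le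
      _ = _ := one_mul _
  have hy2 : ε ^ (1 / 100 : ℝ) * ‖ζ'‖ ≤ z := by
    calc ε ^ (1 / 100 : ℝ) * ‖ζ'‖ ≤ ε ^ (1 / 100 : ℝ) * (2 * QP P ε * z) :=
          mul_le_mul_of_nonneg_left hzQ2 h100.le
      _ = (2 * QP P ε * ε ^ (1 / 100 : ℝ)) * z := by ring
      _ ≤ 1 * z := mul_le_mul_of_nonneg_right hNv.a9 hz0.le
      _ = _ := one_mul _
  have hε'0 : 0 < ε' := lt_of_lt_of_le (by positivity) h3
  have hε'1 : ε' ≤ 1 / 2 := h5.trans P.es1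
  -- `y1`
  have hy1' : ‖ζ'‖ ^ (39 / 20 : ℝ) ≤ ε' := by
    have e1 : ‖ζ'‖ ^ (39 / 20 : ℝ) ≤ (2 * QP P ε * z) ^ (39 / 20 : ℝ) :=
      Real.rpow_le_rpow hz'0.le hzQ2 (by norm_num)
    have e2 : (2 * QP P ε * z) ^ (39 / 20 : ℝ) =
        (2 * QP P ε) ^ (39 / 20 : ℝ) * (z ^ (1 / 20 : ℝ) * z ^ (19 / 10 : ℝ)) := by
      rw [Real.mul_rpow (by positivity) hz0.le, ← Real.rpow_add hz0]
      norm_num
    have e3 : (2 * QP P ε) ^ (39 / 20 : ℝ) ≤ 4 * QP P ε ^ 2 := by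
      calc (2 * QP P ε) ^ (39 / 20 : ℝ) ≤ (2 * QP P ε) ^ (2 : ℝ) :=
            Real.rpow_le_rpow_of_exponent_le (by linarith) (by norm_num)
        _ = (2 * QP P ε) ^ 2 := by exact_mod_cast Real.rpow_natCast (2 * QP P ε) 2
        _ = _ := by ring
    have e4 : z ^ (1 / 20 : ℝ) ≤ ε ^ (1 / 39 : ℝ) := by
      have h6 := Real.rpow_le_rpow (Real.rpow_nonneg hz0.le _) hz
        (show (0 : ℝ) ≤ 1 / 39 by norm_num)
      rw [← Real.rpow_mul hz0.le] at h6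
      norm_num at h6
      norm_num
      exact h6
    have h19 : 0 ≤ z ^ (19 / 10 : ℝ) := Real.rpow_nonneg hz0.le _
    have h120 : 0 ≤ z ^ (1 / 20 : ℝ) := Real.rpow_nonneg hz0.le _
    rw [e2] at e1
    refine e1.trans (le_trans ?_ h3')
    calc (2 * QP P ε) ^ (39 / 20 : ℝ) * (z ^ (1 / 20 : ℝ) * z ^ (19 / 10 : ℝ))
        = ((2 * QP P ε) ^ (39 / 20 : ℝ) * z ^ (1 / 20 : ℝ)) * z ^ (19 / 10 : ℝ) := by ring
      _ ≤ (4 * QP P ε ^ 2 * ε ^ (1 / 39 : ℝ)) * z ^ (19 / 10 : ℝ) :=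
          mul_le_mul_of_nonneg_right (mul_le_mul e3 e4 h120 (by positivity)) h19
      _ ≤ 1 * z ^ (19 / 10 : ℝ) := mul_le_mul_of_nonneg_right hNv.a10 h19
      _ = _ := one_mul _
  -- `yL`
  have hyL' : Real.log (1 / ‖ζ'‖) ≤ ε' ^ (-(2 * c1)) := by
    have e1 : Real.log (1 / ‖ζ'‖) ≤ Real.log (1 / z) + Real.log (2 * QP P ε) := by
      rw [← Real.log_mul (by positivity) (by positivity)]
      refine Real.log_le_log (by positivity) ?_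
      rw [one_div_mul_eq_div, div_le_div_iff₀ hz'0 hz0]
      linarith
    have e2 : ε ^ (-(19 / 10 * c1)) = (ε ^ (19 / 20 : ℝ)) ^ (-(2 * c1)) := by
      rw [← Real.rpow_mul hε0.le]
      congr 1
      ring
    have e3 : (ε ^ (19 / 20 : ℝ)) ^ (-(2 * c1)) ≤ ε' ^ (-(2 * c1)) :=
      Real.rpow_le_rpow_of_nonpos hε'0 h4 (by linarith)
    have e4 := hNv.a11
    rw [e2] at e4
    linarith
  refine ⟨ζ', p1, p2', hy1', hyL', fun hvy hch => ?_⟩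
  -- cells
  have hz'1 : ‖ζ'‖ ≤ 1 := by
    by_contra hc
    have h6 : 1 ≤ ‖ζ'‖ ^ (39 / 20 : ℝ) := Real.one_le_rpow (not_le.1 hc).le (by norm_num)
    linarith
  have hx'1 : ε' * ‖ζ'‖ ≤ 1 / 2 := by
    calc ε' * ‖ζ'‖ ≤ 1 / 2 * 1 := mul_le_mul hε'1 hz'1 hz'0.le (by norm_num)
      _ = _ := by norm_num
  have hx0 : 0 < ε * z := mul_pos hε0 hz0
  have hx'0 : 0 < ε' * ‖ζ'‖ := mul_pos hε'0 hz'0
  have hnm' : (n : ℝ) + P.w ε ≤ m := by exact_mod_cast h1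
  have hlx : Real.log (ε * z) - Real.log (ε' * ‖ζ'‖) ≤ 2 + dl / 4 * ((m : ℝ) - n) := by
    rw [Real.log_mul hε0.ne' hz0.ne', Real.log_mul hε'0.ne' hz'0.ne']
    have e1 : Real.log ε - Real.log ε' ≤ 1 := by
      have h6 : Real.log (ε / 2) ≤ Real.log ε' := Real.log_le_log (by positivity) h3
      rw [Real.log_div hε0.ne' (by norm_num)] at h6
      linarith [Real.log_two_lt_d9]
    have e2 := (abs_le.1 p2').1
    have e3 := (abs_le.1 g3).1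
    have e4 := hNv.a14
    linarith
  have hw0 : (0 : ℝ) ≤ P.w ε := Nat.cast_nonneg _
  have hxx : C1 * (Real.log (ε * z) - Real.log (ε' * ‖ζ'‖)) ≤ ((m : ℝ) - n) * Real.log 2 := by
    have hl2 := Real.log_two_gt_d9
    have hC10 : 0 ≤ C1 := by linarith
    have e1 := mul_le_mul_of_nonneg_left hlx hC10
    have e2 : C1 * dl / 4 * ((m : ℝ) - n) ≤ 1 / 8 / 4 * ((m : ℝ) - n) :=
      mul_le_mul_of_nonneg_right (by linarith) (by linarith)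
    have e3 := hNv.a13
    have e4 : 1 / 2 * ((m : ℝ) - n) ≤ ((m : ℝ) - n) * Real.log 2 := by
      have := mul_le_mul_of_nonneg_left (show (1 / 2 : ℝ) ≤ Real.log 2 by linarith)
        (show 0 ≤ (m : ℝ) - n by linarith)
      linarith
    have e5 : C1 * (2 + dl / 4 * ((m : ℝ) - n)) = 2 * C1 + C1 * dl / 4 * ((m : ℝ) - n) := by ring
    linarith
  have hdx : -Real.log (ε' * ‖ζ'‖) ≤ dl * m := by
    have e1 := hV.dx
    have e2 := hNv.a12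
    have e3 : dl * P.w ε ≤ dl * ((m : ℝ) - n) := mul_le_mul_of_nonneg_left (by linarith) hdl.le
    have e4 : dl * (m : ℝ) = dl * n + dl * ((m : ℝ) - n) := by ring
    rw [e4]
    linarith
  obtain ⟨s', hss, hs1', hs2', hns'⟩ := cells_ex hC24 hCd hx0 hx'0 hx'1 hV.s2 hxx hdx (by omega)
  have hC' : Cx P b C1 (2 * c1) m s' ε' ‖ζ'‖ := ⟨hGm, hb, hb2, hε'0, h5, hz'0, hy1', hyL', hvy,
    hs1', hs2', hns'⟩
  have hY : Cy P b C1 (2 * c1) m s s' ε ε' z ‖ζ'‖ := ⟨hC', hy1, hy2, hss⟩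
  have k3 := k2 s' ‖ζ'‖ hY
  refine ⟨s', rfl, hz'0, hvy, hs1', hs2', hns', hdx, k3.mono ?_ ?_, hch⟩
  · -- the deviation
    have e11 : ε ^ (1 / 2 + 1 / 2 : ℝ) = ε := by norm_num
    have hh0 : 0 ≤ H889.hS ε := Real.rpow_nonneg hε0.le _
    have key := dev_step (Q := QP P ε) (E := z * ε ^ (439 / 500 : ℝ)) (E1 := z * ε)
      (x := (ε * z) ^ 2) hε0 hz0 hM1 hNm.M32 hMQ h3 g1 p3 p4 hh0 ?_ hNv.a6 ?_
    · unfold DV
      rw [e11, hnz]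
      exact key
    · have e1 := mul_le_mul_of_nonneg_left hNv.a5 hz0.le
      calc QP P ε ^ 4 * (2 * (z * ε ^ (439 / 500 : ℝ)) + z * ε)
          = z * (QP P ε ^ 4 * (2 * ε ^ (439 / 500 : ℝ) + ε)) := by ring
        _ ≤ _ := e1
    · have e1 := mul_le_mul_of_nonneg_left hNv.a7 hz0.le
      have e2 : z * z ≤ z * 1 := mul_le_mul_of_nonneg_left hz1.le hz0.le
      have e3 : 0 ≤ QP P ε * ε ^ 2 := by positivity
      calc QP P ε * (ε * z) ^ 2 = (z * z) * (QP P ε * ε ^ 2) := by ring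
        _ ≤ (z * 1) * (QP P ε * ε ^ 2) := mul_le_mul_of_nonneg_right e2 e3
        _ = z * (QP P ε * ε ^ 2) := by ring
        _ ≤ _ := e1
  · -- the functional
    have e11 : ε ^ (1 / 2 + 1 / 2 : ℝ) = ε := by norm_num
    have hmx : max (H889.hS ε) (ε ^ (1 / 2 + 1 / 2 : ℝ)) = H889.hS ε := by
      rw [e11]
      refine max_eq_left ?_
      calc ε = ε ^ (1 : ℝ) := (Real.rpow_one ε).symm
        _ ≤ _ := Real.rpow_le_rpow_of_exponent_ge hε0 hε1 (by norm_num)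
    rw [hmx]
    exact fun_step hε0 hz0 hM1 hMQ h3 (by norm_num) (by norm_num) g1 p3 hNv.a8

/-- **PERSISTENCE OF THE V STATE**, one window (short form) -/
theorem vs_step_pt (hc1 : 0 < c1) (hdl : 0 < dl) (hCd : C1 * dl ≤ 1 / 8)
    (hb : P.b1 ≤ b) (hb2 : b ≤ P.b2) (hG : StepH b A1 P (2 * c1) C1)
    (hNv : Nv c1 dl C1 (QP P ε) ε (P.w ε)) (hn : 4 ≤ n) (ha1 : 1 ≤ a) (ha2 : a ≤ 8 / 5)
    (hx : |2 - π / a| * Real.log 2 ≤ dl / 4)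
    (hfl : ∀ r, P.TT n ε r → FL b (tn n) a (17 * ε ^ P.pf) (2 ^ r))
    (hGn : Good P b n ε) (hGm : Good P b m ε') {ζ : ℂ} (hV : VSs P b C1 A1 dl n ε z s ζ)
    (hz : z ^ (39 / 20 : ℝ) ≤ ε) (hε0 : 0 < ε) (hε : ε ≤ P.es)
    (hL : Real.log (1 / z) ≤ ε ^ (-c1)) (h1 : n + P.w ε ≤ m) (h2 : m ≤ n + 4 * P.w ε)
    (h3 : ε / 2 ≤ ε') (h3' : z ^ (19 / 10 : ℝ) ≤ ε') (h4 : ε' ≤ ε ^ (19 / 20 : ℝ))
    (h5 : ε' ≤ P.es) :
    ∃ ζ' : ℂ, 0 < ‖ζ'‖ ∧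
      |Real.log ‖ζ'‖ - Real.log z - (2 - π / a) * ((m : ℝ) - n) * Real.log 2| ≤
        ε ^ (17 / 20 : ℝ) ∧
      ((∀ r, P.TT m ε' r → yt (2 ^ r) b (4 * tn m) ≤ ε' ^ (-(P.thp / 20)) * ‖ζ'‖) →
        CH2 P b m ε' (‖ζ'‖ * ε' ^ (1 / 2 : ℝ)) →
        ∃ s' : ℕ, VSs P b C1 A1 dl m ε' ‖ζ'‖ s' ζ') := by
  obtain ⟨ζ', q1, q2, -, -, q5⟩ := vs_step_pt2 hc1 hdl hCd hb hb2 hG hNv hn ha1 ha2 hx hfl hGn hGm
    hV hz hε0 hε hL h1 h2 h3 h3' h4 h5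
  exact ⟨ζ', q1, q2, q5⟩

end

end Vale.Agent.P159.H889
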