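import Vale.Agent.P159.H889.Vvs
import Vale.Agent.P159.H889.Vvs2

/-!
P159 / H889: numbers of the last step: from the background numbers of helper415's `PERS` to the fields
`vy` and `YBn` of the new state.
-/

namespace Vale.Agent.P159.H889

open Vale.Agent.P159.H972 (tn Good FL)
open Vale.Agent.P159.H801 (Ev)
open Vale.Agent.P159.H640 (sm_rpow)
open scoped Real

noncomputable section

/-- the numbers -/
structure Nf3 (P : H972.Par) (dl ε ε' : ℝ) : Prop where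
  n1 : ε ^ (-(P.thp / 400)) * Real.exp (1 + dl * P.w ε) ≤ ε' ^ (-(P.thp / 20))
  n2 : ε' ^ (-(P.thp / 200)) * (ε ^ (-(P.thp / 400)) * Real.exp (1 + dl * P.w ε)) ≤
    ε' ^ (-(P.x1 / 100))
  n3 : ∀ z : ℝ, 0 < z → z ^ (39 / 20 : ℝ) ≤ ε → ε ^ (-(P.thp / 400)) * z ≤ 4 * ε' ^ (1 / 4 : ℝ)

lemma exp_w {P : H972.Par} {dl ε : ℝ} (hdl0 : 0 ≤ dl) (hdl : dl ≤ 1 / 192) (hε : 0 < ε)
    (hε1 : ε ≤ 1) : Real.exp (1 + dl * P.w ε) ≤ Real.exp 2 * ε ^ (-(P.thp / 100)) := by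
  have hl2 := Real.log_two_gt_d9
  have hthp := P.thp0
  have hlg : 0 ≤ Real.log (1 / ε) := Real.log_nonneg ((le_div_iff₀ hε).2 (by linarith))
  have h1 : (P.w ε : ℝ) ≤ P.thp * Real.logb 2 (1 / ε) + 1 :=
    (Nat.ceil_lt_add_one (mul_nonneg hthp.le (Real.logb_nonneg one_lt_two
      ((le_div_iff₀ hε).2 (by linarith))))).le
  have h2 : dl * P.w ε ≤ 1 + P.thp / 100 * Real.log (1 / ε) := by
    have h3 := mul_le_mul_of_nonneg_left h1 hdl0
    have h4 : dl * (P.thp * Real.logb 2 (1 / ε)) ≤ P.thp / 100 * Real.log (1 / ε) := by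
      unfold Real.logb
      have h5 : dl * (P.thp * (Real.log (1 / ε) / Real.log 2)) =
          dl / Real.log 2 * (P.thp * Real.log (1 / ε)) := by ring
      have h6 : dl / Real.log 2 ≤ 1 / 100 := by
        rw [div_le_iff₀ (by linarith)]
        linarith
      rw [h5]
      calc dl / Real.log 2 * (P.thp * Real.log (1 / ε)) ≤ 1 / 100 * (P.thp * Real.log (1 / ε)) :=
            mul_le_mul_of_nonneg_right h6 (mul_nonneg hthp.le hlg)
        _ = _ := by ring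
    linarith
  have h7 : ε ^ (-(P.thp / 100)) = Real.exp (P.thp / 100 * Real.log (1 / ε)) := by
    rw [Real.rpow_def_of_pos hε, one_div, Real.log_inv]
    congr 1
    ring
  rw [h7, ← Real.exp_add]
  exact Real.exp_le_exp.2 (by linarith)

/-- the numbers hold for small sizes -/
theorem nf3_ev (b1 b2 pf : ℝ) (Q : ℕ) : Ev b1 b2 pf Q fun P _ => ∀ dl ε ε' : ℝ, 0 ≤ dl →
    dl ≤ 1 / 192 → 0 < ε → ε ≤ P.es → ε / 2 ≤ ε' → ε' ≤ ε ^ (19 / 20 : ℝ) → Nf3 P dl ε ε' := by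
  refine ev_num (ρ0 := 1) (κ := 1) one_pos one_pos ?_
  intro th thp q0 hth hthp hle hq hρ c1 hc1 hc1'
  obtain ⟨E1, p1, n1⟩ := sm_rpow (s := 14 / 400 * thp) (A := Real.exp 2) (by positivity) one_pos
  refine ⟨E1, p1, fun P hA e1 e2 e3 hes _ _ _ dl ε ε' hdl0 hdl hε hεs h3 h4 => ?_⟩
  have hε1 : ε ≤ 1 := hεs.trans (P.es1.trans (by norm_num))
  have hε'0 : 0 < ε' := lt_of_lt_of_le (by positivity) h3
  have hε'1 : ε' ≤ 1 := h4.trans (Real.rpow_le_one hε.le hε1 (by norm_num))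
  have hthp0 := P.thp0
  have hthp1 := hA.thp1
  have hx1 : 96 * P.thp ≤ P.x1 := by
    have := hA.hx
    have := P.th0
    linarith
  have k1 := n1 ε hε (hεs.trans hes)
  rw [← e2] at k1
  have k2 := exp_w (P := P) hdl0 hdl hε hε1
  have g0 : 0 < ε ^ (-(P.thp / 400)) := Real.rpow_pos_of_pos hε _
  -- the main number
  have k3 : ε ^ (-(P.thp / 400)) * Real.exp (1 + dl * P.w ε) ≤ ε ^ (-(19 / 400 * P.thp)) := by
    calc ε ^ (-(P.thp / 400)) * Real.exp (1 + dl * P.w ε)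
        ≤ ε ^ (-(P.thp / 400)) * (Real.exp 2 * ε ^ (-(P.thp / 100))) :=
          mul_le_mul_of_nonneg_left k2 g0.le
      _ = (Real.exp 2 * ε ^ (14 / 400 * P.thp)) * ε ^ (-(19 / 400 * P.thp)) := by
          have h5 : ε ^ (-(P.thp / 400)) * ε ^ (-(P.thp / 100)) =
              ε ^ (14 / 400 * P.thp) * ε ^ (-(19 / 400 * P.thp)) := by
            rw [← Real.rpow_add hε, ← Real.rpow_add hε]
            congr 1
            ring
          calc _ = Real.exp 2 * (ε ^ (-(P.thp / 400)) * ε ^ (-(P.thp / 100))) := by ring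
            _ = _ := by rw [h5]; ring
      _ ≤ 1 * ε ^ (-(19 / 400 * P.thp)) :=
          mul_le_mul_of_nonneg_right k1 (Real.rpow_nonneg hε.le _)
      _ = _ := one_mul _
  -- negative powers of the new size
  have k4 : ∀ c : ℝ, 0 ≤ c → ε ^ (-(19 / 20 * c)) ≤ ε' ^ (-c) := by
    intro c hc
    calc ε ^ (-(19 / 20 * c)) = (ε ^ (19 / 20 : ℝ)) ^ (-c) := by
          rw [← Real.rpow_mul hε.le]
          congr 1
          ring
      _ ≤ ε' ^ (-c) := Real.rpow_le_rpow_of_nonpos hε'0 h4 (by linarith)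
  refine ⟨?_, ?_, ?_⟩
  · refine k3.trans (le_trans (le_of_eq ?_) (k4 (P.thp / 20) (by positivity)))
    congr 1
    ring
  · have g1 : 0 < ε' ^ (-(P.thp / 200)) := Real.rpow_pos_of_pos hε'0 _
    have k5 : ε ^ (-(19 / 400 * P.thp)) ≤ ε' ^ (-(P.thp / 20)) := by
      refine le_trans (le_of_eq ?_) (k4 (P.thp / 20) (by positivity))
      congr 1
      ring
    calc ε' ^ (-(P.thp / 200)) * (ε ^ (-(P.thp / 400)) * Real.exp (1 + dl * P.w ε))
        ≤ ε' ^ (-(P.thp / 200)) * ε' ^ (-(P.thp / 20)) :=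
          mul_le_mul_of_nonneg_left (k3.trans k5) g1.le
      _ = ε' ^ (-(P.thp / 200) + -(P.thp / 20)) := by rw [← Real.rpow_add hε'0]
      _ ≤ ε' ^ (-(P.x1 / 100)) :=
          Real.rpow_le_rpow_of_exponent_ge hε'0 hε'1 (by linarith)
  · intro z hz hzε
    have hz2 : z ≤ ε ^ (20 / 39 : ℝ) := by
      have h5 := Real.rpow_le_rpow (Real.rpow_nonneg hz.le _) hzε (show (0 : ℝ) ≤ 20 / 39 by norm_num)
      rw [← Real.rpow_mul hz.le] at h5
      norm_num at h5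
      norm_num
      exact h5
    have h6 : ε ^ (1 / 4 : ℝ) / 2 ≤ ε' ^ (1 / 4 : ℝ) :=
      half_rpow hε h3 (by norm_num) (by norm_num)
    have h7 : 0 ≤ ε ^ (1 / 4 : ℝ) := Real.rpow_nonneg hε.le _
    calc ε ^ (-(P.thp / 400)) * z ≤ ε ^ (-(P.thp / 400)) * ε ^ (20 / 39 : ℝ) :=
          mul_le_mul_of_nonneg_left hz2 g0.le
      _ = ε ^ (-(P.thp / 400) + 20 / 39) := by rw [← Real.rpow_add hε]
      _ ≤ ε ^ (1 / 4 : ℝ) := Real.rpow_le_rpow_of_exponent_ge hε hε1 (by linarith)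
      _ ≤ 4 * ε' ^ (1 / 4 : ℝ) := by linarith

end

end Vale.Agent.P159.H889
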