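import Vale.Agent.P159.H889.Vstep

/-!
P159 / H889: forms on the cell torus: `Dom` after a window, the relative difference of two coarse
forms is controlled by the relative difference of the fine forms, composition.
-/

namespace Vale.Agent.P159.H889

open MeasureTheory ProbabilityTheory Finset Matrix
open Vale.Agent.P159.TM.Spec (V)
open Vale.Agent.P159.TM.H764 (EE)
open Vale.Agent.P159.H363
open Vale.Agent.P159.H864 (TI sym als Wl rd)
open Vale.Agent.P159.H462 (Dom ahat ti_ahat sym_ahat)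
open Vale.Agent.P159.H708 (Ac)
open scoped Real

noncomputable section

variable {n ρ : ℕ} [NeZero n] [NeZero (n / ρ)]

/-- the form after a window -/
theorem dom_Aahat {A : Matrix (V n) (V n) ℝ} {ν c s : ℝ} (h : Dom A ν c) (hs : 0 < s) :
    Dom (A * ahat s A) (ν⁻¹ + s)⁻¹ c := by
  have hν := h.hν
  have hc := h.hc
  have e : ∀ k, sym (A * ahat s A) k = sym A k / (1 + s * sym A k) := fun k => by
    rw [H864.sym_mul h.ti (ti_ahat s A), sym_ahat, div_eq_mul_inv]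
  have hpos : ∀ k, 0 < 1 + s * sym A k := fun k => by
    have := h.nn k
    positivity
  refine ⟨h.ti.mul (ti_ahat s A), by positivity, hc, fun k => ?_, fun k => ?_, ?_, fun k => ?_⟩
  · rw [e]
    exact div_nonneg (h.nn k) (hpos k).le
  · rw [e, div_le_iff₀ (hpos k), inv_mul_eq_div, le_div_iff₀ (by positivity)]
    have h1 : sym A k * ν⁻¹ ≤ 1 := by
      rw [← div_eq_mul_inv, div_le_one hν]
      exact h.le k
    nlinarith
  · rw [e, h.zero, zero_div]
  · rw [e]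
    have h0 := H462.EE_nonneg k
    have h1 := h.ge k
    set E := EE k with hE
    set a := sym A k with ha
    have hνE : 0 < ν + c * E := by positivity
    rw [div_le_iff₀ hνE] at h1
    have e1 : (ν⁻¹ + s)⁻¹ = ν / (1 + s * ν) := by
      field_simp
    have hsν : 0 < 1 + s * ν := by positivity
    rw [e1]
    have hpk := hpos k
    rw [← ha] at hpk
    have hden : 0 < ν / (1 + s * ν) + c * E := by positivity
    rw [div_le_div_iff₀ hden hpk]
    have e2 : ν / (1 + s * ν) * (c * E) * (1 + s * a)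
        = (ν * (c * E) * (1 + s * a)) / (1 + s * ν) := by ring
    have e3 : a * (ν / (1 + s * ν) + c * E)
        = (a * (ν + c * E * (1 + s * ν))) / (1 + s * ν) := by
      field_simp
    rw [e2, e3]
    refine div_le_div_of_nonneg_right ?_ hsν.le
    have h2 : 0 ≤ s * (c * E) := by positivity
    nlinarith

lemma rel_zero (A₁ A₂ : Matrix (V n) (V n) ℝ) : rel A₁ A₂ 0 = 0 := by
  unfold rel
  rw [if_pos rfl]

lemma rel_ne {A₁ A₂ : Matrix (V n) (V n) ℝ} {k : V n} (hk : k ≠ 0) :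
    rel A₁ A₂ k = sym A₁ k / sym A₂ k - 1 := by
  unfold rel
  rw [if_neg hk]

/-- **coarse forms** -/
theorem rel_Ac_le {A₁ A₂ : Matrix (V n) (V n) ℝ} (hρ : ρ ∣ n) (h₁ : Nf A₁) (h₂ : Nf A₂) :
    ∑ k, rel (Ac ρ A₁) (Ac ρ A₂) k ^ 2 ≤ ∑ p, rel A₁ A₂ p ^ 2 := by
  classical
  have hρ0 := H708.rho_pos hρ
  rw [← Finset.sum_fiberwise (s := (Finset.univ : Finset (V n))) (g := fun p => (rd p : V (n / ρ)))]
  refine Finset.sum_le_sum fun k _ => ?_
  by_cases hk : k = 0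
  · rw [hk, rel_zero]
    exact le_trans (by norm_num) (Finset.sum_nonneg fun _ _ => sq_nonneg _)
  set F : Finset (V n) := univ.filter fun p : V n => (rd p : V (n / ρ)) = k with hF
  have hne : ∀ p ∈ F, p ≠ 0 := by
    intro p hp h0
    rw [hF, Finset.mem_filter, h0, H864.rd_zero hρ] at hp
    exact hk hp.2.symm
  set R : ℝ := √(∑ p ∈ F, rel A₁ A₂ p ^ 2) with hR
  have hR0 : 0 ≤ R := Real.sqrt_nonneg _
  have hR2 : R ^ 2 = ∑ p ∈ F, rel A₁ A₂ p ^ 2 :=
    Real.sq_sqrt (Finset.sum_nonneg fun _ _ => sq_nonneg _)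
  have hrel : ∀ p ∈ F, |rel A₁ A₂ p| ≤ R := by
    intro p hp
    refine Real.abs_le_sqrt ?_
    exact Finset.single_le_sum (f := fun p => rel A₁ A₂ p ^ 2) (fun _ _ => sq_nonneg _) hp
  set a1 : ℝ := ∑ p ∈ F, (sym A₁ p)⁻¹ * Wl ρ p with ha1
  set a2 : ℝ := ∑ p ∈ F, (sym A₂ p)⁻¹ * Wl ρ p with ha2
  have s1 : sym (Ac ρ A₁) k = (((ρ : ℝ) ^ 2)⁻¹ * a1)⁻¹ := by
    unfold Ac
    rw [H708.sym_pI, H708.sym_Kc hρ]
    rfl
  have s2 : sym (Ac ρ A₂) k = (((ρ : ℝ) ^ 2)⁻¹ * a2)⁻¹ := by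
    unfold Ac
    rw [H708.sym_pI, H708.sym_Kc hρ]
    rfl
  have p1 : 0 < a1 := by
    have h := (H708.nf_Ac hρ h₁).pos k hk
    rw [s1] at h
    have h' := inv_pos.1 h
    have : 0 < ((ρ : ℝ) ^ 2)⁻¹ := by positivity
    exact (mul_pos_iff_of_pos_left this).1 h'
  have p2 : 0 < a2 := by
    have h := (H708.nf_Ac hρ h₂).pos k hk
    rw [s2] at h
    have h' := inv_pos.1 h
    have : 0 < ((ρ : ℝ) ^ 2)⁻¹ := by positivity
    exact (mul_pos_iff_of_pos_left this).1 h'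
  have e1 : rel (Ac ρ A₁) (Ac ρ A₂) k = (a2 - a1) / a1 := by
    rw [rel_ne hk, s1, s2]
    field_simp
  have e2 : a2 - a1 = ∑ p ∈ F, (sym A₁ p)⁻¹ * Wl ρ p * rel A₁ A₂ p := by
    rw [ha1, ha2, ← Finset.sum_sub_distrib]
    refine Finset.sum_congr rfl fun p hp => ?_
    rw [rel_ne (hne p hp)]
    have q1 := (h₁.pos p (hne p hp)).ne'
    have q2 := (h₂.pos p (hne p hp)).ne'
    field_simp
  have e3 : |a2 - a1| ≤ a1 * R := by
    rw [e2]
    refine (Finset.abs_sum_le_sum_abs _ _).trans ?_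
    rw [ha1, Finset.sum_mul]
    refine Finset.sum_le_sum fun p hp => ?_
    have q1 : 0 ≤ (sym A₁ p)⁻¹ * Wl ρ p :=
      mul_nonneg (inv_nonneg.2 (h₁.nn p)) (H864.Wl_nonneg p)
    rw [abs_mul, abs_of_nonneg q1]
    exact mul_le_mul_of_nonneg_left (hrel p hp) q1
  rw [e1, ← hR2, div_pow, div_le_iff₀ (by positivity)]
  calc (a2 - a1) ^ 2 = |a2 - a1| ^ 2 := (sq_abs _).symm
    _ ≤ (a1 * R) ^ 2 := pow_le_pow_left₀ (abs_nonneg _) e3 2
    _ = R ^ 2 * a1 ^ 2 := by ring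

/-- composition of relative differences -/
theorem rel_trans {A₁ A₂ A₃ : Matrix (V n) (V n) ℝ} (h₂ : Nf A₂)
    (h : ∑ k, rel A₁ A₂ k ^ 2 ≤ 1 / 4) :
    ∑ k, rel A₁ A₃ k ^ 2
      ≤ 5 * (∑ k, rel A₁ A₂ k ^ 2 + ∑ k, rel A₂ A₃ k ^ 2) := by
  rw [← Finset.sum_add_distrib, Finset.mul_sum]
  refine Finset.sum_le_sum fun k _ => ?_
  by_cases hk : k = 0
  · rw [hk, rel_zero, rel_zero, rel_zero]
    norm_num
  have q2 := (h₂.pos k hk).ne'
  set r := rel A₁ A₂ k with hr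
  set q := rel A₂ A₃ k with hq
  have e : rel A₁ A₃ k = r + q + r * q := by
    rw [hr, hq, rel_ne hk, rel_ne hk, rel_ne hk]
    by_cases q3 : sym A₃ k = 0
    · rw [q3]
      simp
      ring
    · field_simp
      ring
  have h1 : r ^ 2 ≤ 1 / 4 :=
    (Finset.single_le_sum (f := fun k => rel A₁ A₂ k ^ 2) (fun _ _ => sq_nonneg _)
      (Finset.mem_univ k)).trans h
  have h2 : |r| ≤ 1 / 2 := by
    refine abs_le_of_sq_le_sq ?_ (by norm_num)
    linarith
  have h3 := abs_le.1 h2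
  rw [e]
  have e2 : r + q + r * q = r + (1 + r) * q := by ring
  rw [e2]
  have h4 : (1 + r) ^ 2 ≤ 9 / 4 := by nlinarith
  have h5 : (r + (1 + r) * q) ^ 2 ≤ 2 * r ^ 2 + 2 * ((1 + r) * q) ^ 2 := by
    nlinarith [sq_nonneg (r - (1 + r) * q)]
  have h6 : ((1 + r) * q) ^ 2 ≤ 9 / 4 * q ^ 2 := by
    rw [mul_pow]
    exact mul_le_mul_of_nonneg_right h4 (sq_nonneg _)
  nlinarith [sq_nonneg r, sq_nonneg q]

end

end Vale.Agent.P159.H889
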