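import Vale.Agent.P159.H889.Vloc

/-!
P159 / H889: change of the typical law (363's `typ_change`, Hilbert-Schmidt small change of the
form) for the deviation of the densities and for their local approximants.
-/

namespace Vale.Agent.P159.H889

open MeasureTheory ProbabilityTheory Finset Matrix
open Vale.Agent.P159.TM.Spec (V)
open Vale.Agent.P159.H37 (gau gau_sum qf)
open Vale.Agent.P159.H363
open Vale.Agent.P159.H864 (TI sym fc mlt)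
open Vale.Agent.P159.H462 (Dom)
open scoped Real

noncomputable section

variable {N : ℕ} [NeZero N] {A₁ A₂ : Matrix (V N) (V N) ℝ}

/-- tail term of the change of law -/
def tk (κ η : ℝ) : ℝ := √2 * √(κ ^ (-(1 / (2 * η))))

lemma tk_nonneg (κ η : ℝ) : 0 ≤ tk κ η := mul_nonneg (Real.sqrt_nonneg _) (Real.sqrt_nonneg _)

/-- change of law for the `L²` norm of a bounded function -/
theorem tn2_change (h₁ : Nf A₁) (h₂ : Nf A₂) {η κ B : ℝ} (hη : 0 < η) (hη2 : η ≤ 1 / 2)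
    (hκ : 1 ≤ κ) (hHS : ∑ k, rel A₁ A₂ k ^ 2 ≤ η ^ 2) {u : (V N → ℝ) → ℂ} (hu : Measurable u)
    (hB : ∀ F, ‖u F‖ ≤ B) : tn2 A₂ u ≤ √κ * tn2 A₁ u + B * tk κ η := by
  have hB0 : 0 ≤ B := (norm_nonneg _).trans (hB 0)
  have hκ0 : 0 ≤ κ := by linarith
  have h := typ_change h₁ h₂ hη hη2 hκ hHS (f := fun F => ‖u F‖ ^ 2) (hu.norm.pow_const 2)
    (fun F => by positivity) (B := B ^ 2) (fun F => pow_le_pow_left₀ (norm_nonneg _) (hB F) 2)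
  rw [← tn2_sq hu hB A₂, ← tn2_sq hu hB A₁] at h
  have hp : 0 ≤ κ ^ (-(1 / (2 * η))) := Real.rpow_nonneg hκ0 _
  have h0 : 0 ≤ √κ * tn2 A₁ u + B * tk κ η :=
    add_nonneg (mul_nonneg (Real.sqrt_nonneg _) (tn2_nonneg _ _)) (mul_nonneg hB0 (tk_nonneg _ _))
  refine le_of_sq_le_sq (h.trans ?_) h0
  have e1 : (√κ * tn2 A₁ u) ^ 2 = κ * tn2 A₁ u ^ 2 := by rw [mul_pow, Real.sq_sqrt hκ0]
  have e2 : (B * tk κ η) ^ 2 = 2 * B ^ 2 * κ ^ (-(1 / (2 * η))) := by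
    unfold tk
    rw [mul_pow, mul_pow, Real.sq_sqrt (by norm_num : (0 : ℝ) ≤ 2), Real.sq_sqrt hp]
    ring
  have h3 : 0 ≤ (√κ * tn2 A₁ u) * (B * tk κ η) :=
    mul_nonneg (mul_nonneg (Real.sqrt_nonneg _) (tn2_nonneg _ _)) (mul_nonneg hB0 (tk_nonneg _ _))
  nlinarith

/-- **(L) for the deviation** -/
theorem Den.law (h₁ : Nf A₁) (h₂ : Nf A₂) {ν η κ s B d : ℝ} (hν : 0 < ν) (hη : 0 < η)
    (hη2 : η ≤ 1 / 2) (hκ : 1 ≤ κ) (hle : ∀ k, sym A₂ k ≤ ν)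
    (hHS : ∑ k, rel A₁ A₂ k ^ 2 ≤ η ^ 2) (hs : ∀ x, ∑ w, |(1 - ν⁻¹ • A₂) x w| ≤ s) {z : ℂ}
    {ψ : V N → (V N → ℝ) → ℂ} (h : Den A₁ ν z d ψ)
    (hB : ∀ x F, ‖ψ x F - z * mainf (1 - ν⁻¹ • A₁) x F‖ ≤ B) :
    Den A₂ ν z (√κ * d + B * tk κ η + ‖z‖ * (η + s * (2 * π * (η / √((N : ℝ) ^ 2 * ν))))) ψ := by
  obtain ⟨K, hK⟩ := h.bd
  refine ⟨h.m, h.bd, h.ch, h.cov, fun x => ?_⟩
  have e : ∀ F, ψ x F - z * mainf (1 - ν⁻¹ • A₂) x F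
      = (ψ x F - z * mainf (1 - ν⁻¹ • A₁) x F)
        + z * (mainf (1 - ν⁻¹ • A₁) x F - mainf (1 - ν⁻¹ • A₂) x F) := fun F => by ring
  rw [tn2_congr e]
  have m1 : Measurable fun F => ψ x F - z * mainf (1 - ν⁻¹ • A₁) x F :=
    (h.m x).sub ((measurable_mainf _ x).const_mul _)
  have m2 : Measurable fun F => z * (mainf (1 - ν⁻¹ • A₁) x F - mainf (1 - ν⁻¹ • A₂) x F) :=
    ((measurable_mainf _ x).sub (measurable_mainf _ x)).const_mul _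
  have b2 : ∀ F, ‖z * (mainf (1 - ν⁻¹ • A₁) x F - mainf (1 - ν⁻¹ • A₂) x F)‖
      ≤ ‖z‖ * ((∑ y, ∑ w, |(1 - ν⁻¹ • A₁) y w|) + ∑ y, ∑ w, |(1 - ν⁻¹ • A₂) y w|) := by
    intro F
    rw [norm_mul]
    exact mul_le_mul_of_nonneg_left ((norm_sub_le _ _).trans
      (add_le_add (norm_mainf_bdd _ x F) (norm_mainf_bdd _ x F))) (norm_nonneg _)
  refine (tn2_add_le m1 m2 (hB x) b2 A₂).trans (add_le_add ?_ ?_)
  · refine (tn2_change h₁ h₂ hη hη2 hκ hHS m1 (hB x)).trans (add_le_add ?_ (le_refl _))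
    exact mul_le_mul_of_nonneg_left (h.dev x) (Real.sqrt_nonneg _)
  · rw [tn2_const_mul]
    exact mul_le_mul_of_nonneg_left (mainf_change h₁ h₂ hν hη.le hle hHS x (hs x)) (norm_nonneg _)

/-- **(L) for the local approximants** -/
theorem Lcl.law (h₁ : Nf A₁) (h₂ : Nf A₂) {η κ B ηl Lp : ℝ} {D : ℕ} (hη : 0 < η)
    (hη2 : η ≤ 1 / 2) (hκ : 1 ≤ κ) (hHS : ∑ k, rel A₁ A₂ k ^ 2 ≤ η ^ 2)
    {ψ lam : V N → (V N → ℝ) → ℂ} (hψ : ∀ x, Measurable (ψ x)) (h : Lcl A₁ D ηl Lp ψ lam)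
    (hB : ∀ x F, ‖ψ x F - lam x F‖ ≤ B) :
    Lcl A₂ D (√κ * ηl + B * tk κ η) Lp ψ lam := by
  refine ⟨h.m, h.bd, h.ch, h.cov, h.loc, h.lip, fun x => ?_⟩
  refine (tn2_change h₁ h₂ hη hη2 hκ hHS ((hψ x).sub (h.m x)) (hB x)).trans
    (add_le_add ?_ (le_refl _))
  exact mul_le_mul_of_nonneg_left (h.near x) (Real.sqrt_nonneg _)

end

end Vale.Agent.P159.H889
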