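import Vale.Agent.P159.H889.Vtor

/-!
P159 / H889: numbers of the step of the charged sector.
-/

namespace Vale.Agent.P159.H889

open Finset Matrix
open scoped Real

noncomputable section

/-- the relative error of the main function, torus of side at least one correlation length -/
lemma qe_le {x h : ℝ} (hx : 1 ≤ x) (hh : 0 ≤ h) : qe x h ≤ 8 * h := by
  unfold qe
  have h1 : 1 ≤ √x := Real.one_le_sqrt.2 hx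
  have h2 : 2 * π / √x ≤ 2 * π := div_le_self (by positivity) h1
  have h3 := Real.pi_lt_d2
  have h4 : 1 + 2 * π / √x ≤ 8 := by linarith
  calc h * (1 + 2 * π / √x) ≤ h * 8 := mul_le_mul_of_nonneg_left h4 hh
    _ = 8 * h := by ring

lemma qe_nonneg {x h : ℝ} (hh : 0 ≤ h) : 0 ≤ qe x h := by
  unfold qe
  positivity

/-- deviation in front of the window -/
lemma num_S {n : ℕ} {ν h zn Q Δ τ ηm : ℝ} (hν : 0 < ν) (hn : 1 ≤ (n : ℝ) ^ 2 * ν) (hh : 0 ≤ h)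
    (hQ : 1 ≤ Q) (hzn : 0 ≤ zn) (hznQ : zn ≤ Q ^ 2) (hτ : 0 ≤ τ) (hq : tq h ≤ τ) (hηm : ηm ≤ τ) :
    dB n ν h (zn * ν) (Q ^ 2 * ν) (Δ * ν)
        + ((2 * (τ * ν) + 2 * (Q ^ 2 * ν) * tq h) + zn * ν * ηm)
      ≤ ν * (2 * Δ + 8 * (zn * h) + 7 * (Q ^ 2 * τ)) := by
  have h1 := qe_le hn hh
  have h2 : zn * ν * qe ((n : ℝ) ^ 2 * ν) h ≤ zn * ν * (8 * h) :=
    mul_le_mul_of_nonneg_left h1 (by positivity)
  have h3 : (Q ^ 2 * ν + zn * ν) * tq h ≤ (Q ^ 2 * ν + zn * ν) * τ :=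
    mul_le_mul_of_nonneg_left hq (by positivity)
  have h4 : 2 * (Q ^ 2 * ν) * tq h ≤ 2 * (Q ^ 2 * ν) * τ := mul_le_mul_of_nonneg_left hq (by positivity)
  have h5 : zn * ν * ηm ≤ zn * ν * τ := mul_le_mul_of_nonneg_left hηm (by positivity)
  have h6 : zn * ν * τ ≤ Q ^ 2 * ν * τ := by
    have := mul_le_mul_of_nonneg_right (mul_le_mul_of_nonneg_right hznQ hν.le) hτ
    exact this
  have h7 : ν * τ ≤ Q ^ 2 * ν * τ := by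
    have : 1 * (ν * τ) ≤ Q ^ 2 * (ν * τ) :=
      mul_le_mul_of_nonneg_right (one_le_pow₀ hQ) (by positivity)
    linarith
  unfold dB
  have e : ν * (2 * Δ + 8 * (zn * h) + 7 * (Q ^ 2 * τ))
      = 2 * (Δ * ν) + zn * ν * (8 * h) + 7 * (Q ^ 2 * ν * τ) := by ring
  rw [e]
  nlinarith

/-- the local part in front of the window -/
lemma num_η {h ν zn Q τ ηm : ℝ} (hν : 0 < ν) (hQ : 1 ≤ Q) (hzn : 0 ≤ zn) (hznQ : zn ≤ Q ^ 2)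
    (hτ : 0 ≤ τ) (hq : tq h ≤ τ) (hηm : ηm ≤ τ) :
    (2 * (τ * ν) + 2 * (Q ^ 2 * ν) * tq h) + zn * ν * ηm ≤ ν * (5 * (Q ^ 2 * τ)) := by
  have h4 : 2 * (Q ^ 2 * ν) * tq h ≤ 2 * (Q ^ 2 * ν) * τ := mul_le_mul_of_nonneg_left hq (by positivity)
  have h5 : zn * ν * ηm ≤ zn * ν * τ := mul_le_mul_of_nonneg_left hηm (by positivity)
  have h6 : zn * ν * τ ≤ Q ^ 2 * ν * τ := by
    have := mul_le_mul_of_nonneg_right (mul_le_mul_of_nonneg_right hznQ hν.le) hτ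
    exact this
  have h7 : ν * τ ≤ Q ^ 2 * ν * τ := by
    have : 1 * (ν * τ) ≤ Q ^ 2 * (ν * τ) :=
      mul_le_mul_of_nonneg_right (one_le_pow₀ hQ) (by positivity)
    linarith
  have e : ν * (5 * (Q ^ 2 * τ)) = 5 * (Q ^ 2 * ν * τ) := by ring
  rw [e]
  linarith

/-- the error of the functional in front of the window -/
lemma num_E {n : ℕ} {ν s M X : ℝ} (hν : 0 < ν) (hn : 1 ≤ (n : ℝ) ^ 2 * ν) (hM : 2 ≤ M)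
    (hs : s * ν = M ^ 2 - 1) (hX : 0 ≤ X) :
    (2 * π)⁻¹ * (√(s * (n : ℝ) ^ 2))⁻¹ * X ≤ ν * X := by
  have h1 : 1 ≤ s * ν := by rw [hs]; nlinarith
  have h2 : (ν⁻¹) ^ 2 ≤ s * (n : ℝ) ^ 2 := by
    rw [inv_pow, inv_eq_one_div, div_le_iff₀ (by positivity)]
    have e : s * (n : ℝ) ^ 2 * ν ^ 2 = (s * ν) * ((n : ℝ) ^ 2 * ν) := by ring
    rw [e]
    nlinarith
  have h3 : ν⁻¹ ≤ √(s * (n : ℝ) ^ 2) := Real.le_sqrt_of_sq_le h2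
  have h4 : (√(s * (n : ℝ) ^ 2))⁻¹ ≤ ν := by
    have := inv_anti₀ (inv_pos.2 hν) h3
    rwa [inv_inv] at this
  have h5 : (2 * π)⁻¹ ≤ 1 := inv_le_one_of_one_le₀ (by
    have := Real.pi_gt_three
    linarith)
  have h6 : (2 * π)⁻¹ * (√(s * (n : ℝ) ^ 2))⁻¹ ≤ 1 * ν :=
    mul_le_mul h5 h4 (by positivity) zero_le_one
  rw [one_mul] at h6
  exact mul_le_mul_of_nonneg_right h6 hX

/-- the deviation after the window, first torus -/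
lemma num_d1 {n : ℕ} {ν h zn Q Δ τ ηm CC s M e e1 om : ℝ} (hν : 0 < ν)
    (hn : 1 ≤ (n : ℝ) ^ 2 * ν) (hh : 0 ≤ h) (hQ : 1 ≤ Q) (hzn : 0 ≤ zn) (hznQ : zn ≤ Q ^ 2)
    (hτ : 0 ≤ τ) (hq : tq h ≤ τ) (hηm : ηm ≤ τ) (hCC : 0 ≤ CC) (hM : 2 ≤ M)
    (hs : s * ν = M ^ 2 - 1) (he : 0 ≤ e) (he1 : 0 ≤ e1) (hom0 : 0 ≤ om) (hom : om ≤ Q ^ 4) :
    CC * (dB n ν h (zn * ν) (Q ^ 2 * ν) (Δ * ν)
        + ((2 * (τ * ν) + 2 * (Q ^ 2 * ν) * tq h) + zn * ν * ηm))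
      + ((2 * (τ * ν) + 2 * (Q ^ 2 * ν) * tq h) + zn * ν * ηm)
      + (2 * π)⁻¹ * (√(s * (n : ℝ) ^ 2))⁻¹ * ((2 * e + (om + Q ^ 4) * tq h) + e1)
      ≤ ν * (CC * (2 * Δ + 8 * (zn * h) + 7 * (Q ^ 2 * τ)) + 7 * (Q ^ 4 * τ) + 2 * e + e1) := by
  have a1 := mul_le_mul_of_nonneg_left
    (num_S (Δ := Δ) hν hn hh hQ hzn hznQ hτ hq hηm) hCC
  have a2 := num_η (h := h) hν hQ hzn hznQ hτ hq hηm
  have tq0 := tq_nonneg h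
  have hX : 0 ≤ (2 * e + (om + Q ^ 4) * tq h) + e1 := by positivity
  have a3 := num_E hν hn hM hs hX
  have a4 : (om + Q ^ 4) * tq h ≤ (2 * Q ^ 4) * τ :=
    mul_le_mul (by linarith) hq tq0 (by positivity)
  have a5 : Q ^ 2 ≤ Q ^ 4 := pow_le_pow_right₀ hQ (by norm_num)
  have a6 : Q ^ 2 * τ ≤ Q ^ 4 * τ := mul_le_mul_of_nonneg_right a5 hτ
  have a7 : ν * ((2 * e + (om + Q ^ 4) * tq h) + e1) ≤ ν * (2 * e + 2 * Q ^ 4 * τ + e1) :=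
    mul_le_mul_of_nonneg_left (by linarith) hν.le
  have a8 : ν * (5 * (Q ^ 2 * τ)) ≤ ν * (5 * (Q ^ 4 * τ)) :=
    mul_le_mul_of_nonneg_left (by linarith) hν.le
  calc _ ≤ CC * (ν * (2 * Δ + 8 * (zn * h) + 7 * (Q ^ 2 * τ))) + ν * (5 * (Q ^ 4 * τ))
        + ν * (2 * e + 2 * Q ^ 4 * τ + e1) := by linarith
    _ = _ := by ring

/-- the deviation on the second torus -/
lemma num_dT {r d1 ηa t1 nz1 Km tkk mT τ0 ν' Q τ : ℝ} (hr : r ≤ τ0) (hηa : ηa ≤ τ0)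
    (ht1 : t1 ≤ τ0) (htk : tkk ≤ τ0) (hm : mT ≤ τ0) (hτ0 : 0 ≤ τ0) (hQ : 1 ≤ Q) (hnz : 0 ≤ nz1)
    (hnz1 : nz1 ≤ Q ^ 4) (hKm : Km ≤ 1) (hKm0 : 0 ≤ Km) (hτ : 20 * Q ^ 4 * τ0 ≤ ν' * τ) :
    r + (2 * (d1 + ηa + nz1 * (2 * π * t1)) + (Km + nz1) * tkk) + nz1 * mT
      ≤ 2 * d1 + ν' * τ := by
  have hπ := Real.pi_lt_d2
  have hπ0 := Real.pi_pos
  have b1 : nz1 * (2 * π * t1) ≤ nz1 * (2 * π * τ0) :=
    mul_le_mul_of_nonneg_left (mul_le_mul_of_nonneg_left ht1 (by positivity)) hnz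
  have b2 : nz1 * (2 * π * τ0) ≤ nz1 * (6.3 * τ0) :=
    mul_le_mul_of_nonneg_left (mul_le_mul_of_nonneg_right (by linarith) hτ0) hnz
  have b3 : (Km + nz1) * tkk ≤ (Km + nz1) * τ0 := mul_le_mul_of_nonneg_left htk (by positivity)
  have b4 : nz1 * mT ≤ nz1 * τ0 := mul_le_mul_of_nonneg_left hm hnz
  have b5 : nz1 * τ0 ≤ Q ^ 4 * τ0 := mul_le_mul_of_nonneg_right hnz1 hτ0
  have b6 : Km * τ0 ≤ 1 * τ0 := mul_le_mul_of_nonneg_right hKm hτ0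
  have b7 : 1 * τ0 ≤ Q ^ 4 * τ0 := mul_le_mul_of_nonneg_right (one_le_pow₀ hQ) hτ0
  nlinarith

/-- the next deviation in natural units -/
lemma num_dCS {n ρ : ℕ} {ν M c s₀ h zn1 Q d1 dT τ gd : ℝ} (hν : 0 < ν)
    (hM : 2 ≤ M) (hMQ : M ≤ Q) (hn : 1 ≤ (n : ℝ) ^ 2 * (ν / M ^ 2)) (hh : 0 ≤ h) (hτ : 0 ≤ τ)
    (hz : 0 ≤ zn1) (hz1 : zn1 ≤ Q ^ 4) (hd : dT ≤ 2 * d1 + ν / M ^ 2 * τ)
    (hg : gce n ρ (ν / M ^ 2) c s₀ ≤ τ) (hq : tq h ≤ τ) (hgd : gd ≤ τ) :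
    dCS n ρ (ν / M ^ 2) c s₀ h h (zn1 * (ν / M ^ 2)) (π⁻¹ * ν) dT
        + zn1 * (ν / M ^ 2) * ((ρ : ℝ) ^ 2 * gd)
      ≤ (16 * M ^ 2 * (d1 / ν) + 40 * (zn1 * h) + 26 * (Q ^ 4 * τ))
        * (ν / M ^ 2 * (ρ : ℝ) ^ 2) := by
  have hQ : 1 ≤ Q := by linarith
  have hν' : 0 < ν / M ^ 2 := by positivity
  set ν' := ν / M ^ 2 with hν'd
  have eν : ν = M ^ 2 * ν' := by rw [hν'd]; field_simp
  have hπ3 := Real.pi_gt_three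
  have q1 := qe_le hn hh
  have c1 : zn1 * ν' * (4 * qe ((n : ℝ) ^ 2 * ν') h + 2 * gce n ρ ν' c s₀
      + qe ((n : ℝ) ^ 2 * ν') h) ≤ zn1 * ν' * (40 * h + 2 * τ) :=
    mul_le_mul_of_nonneg_left (by linarith) (by positivity)
  have c2 : (π⁻¹ * ν + zn1 * ν') * (4 * tq h + 2 * tq h) ≤ (M ^ 2 * ν' + zn1 * ν') * (6 * τ) := by
    have h1 : π⁻¹ * ν ≤ M ^ 2 * ν' := by
      rw [← eν]
      exact mul_le_of_le_one_left hν.le (inv_le_one_of_one_le₀ (by linarith))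
    have := tq_nonneg h
    exact mul_le_mul (by linarith) (by linarith) (by positivity) (by positivity)
  have c3 : zn1 * ν' * ((ρ : ℝ) ^ 2 * gd) ≤ zn1 * ν' * ((ρ : ℝ) ^ 2 * τ) :=
    mul_le_mul_of_nonneg_left (mul_le_mul_of_nonneg_left hgd (by positivity)) (by positivity)
  have c4 : 8 * dT ≤ 16 * d1 + 8 * (ν' * τ) := by linarith
  have c5 : 16 * d1 = 16 * M ^ 2 * (d1 / ν) * ν' := by
    rw [eν]
    field_simp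
  have hM2 : M ^ 2 ≤ Q ^ 4 := by
    calc M ^ 2 ≤ Q ^ 2 := pow_le_pow_left₀ (by linarith) hMQ 2
      _ ≤ Q ^ 4 := pow_le_pow_right₀ hQ (by norm_num)
  have hQ4 : 1 ≤ Q ^ 4 := one_le_pow₀ hQ
  have c6 : (M ^ 2 * ν' + zn1 * ν') * (6 * τ) ≤ ν' * (12 * (Q ^ 4 * τ)) := by
    have h1 : M ^ 2 * ν' + zn1 * ν' ≤ 2 * Q ^ 4 * ν' := by nlinarith
    calc (M ^ 2 * ν' + zn1 * ν') * (6 * τ) ≤ (2 * Q ^ 4 * ν') * (6 * τ) :=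
          mul_le_mul_of_nonneg_right h1 (by positivity)
      _ = _ := by ring
  have c7 : zn1 * ν' * (40 * h + 2 * τ) ≤ ν' * (40 * (zn1 * h)) + ν' * (2 * (Q ^ 4 * τ)) := by
    have h1 : zn1 * τ ≤ Q ^ 4 * τ := mul_le_mul_of_nonneg_right hz1 hτ
    nlinarith
  have c8 : zn1 * ν' * ((ρ : ℝ) ^ 2 * τ) ≤ (ρ : ℝ) ^ 2 * (ν' * (Q ^ 4 * τ)) := by
    have h1 : zn1 * τ ≤ Q ^ 4 * τ := mul_le_mul_of_nonneg_right hz1 hτ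
    have h2 : (ρ : ℝ) ^ 2 * (ν' * (zn1 * τ)) ≤ (ρ : ℝ) ^ 2 * (ν' * (Q ^ 4 * τ)) := by gcongr
    calc zn1 * ν' * ((ρ : ℝ) ^ 2 * τ) = (ρ : ℝ) ^ 2 * (ν' * (zn1 * τ)) := by ring
      _ ≤ _ := h2
  have c9 : 8 * (ν' * τ) ≤ 8 * (ν' * (Q ^ 4 * τ)) := by
    have h1 : 1 * τ ≤ Q ^ 4 * τ := mul_le_mul_of_nonneg_right hQ4 hτ
    rw [one_mul] at h1
    have h2 : ν' * τ ≤ ν' * (Q ^ 4 * τ) := mul_le_mul_of_nonneg_left h1 hν'.le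
    linarith
  unfold dCS
  have hin : 8 * dT + zn1 * ν' * (4 * qe ((n : ℝ) ^ 2 * ν') h + 2 * gce n ρ ν' c s₀
      + qe ((n : ℝ) ^ 2 * ν') h) + (π⁻¹ * ν + zn1 * ν') * (4 * tq h + 2 * tq h)
      ≤ ν' * (16 * M ^ 2 * (d1 / ν) + 40 * (zn1 * h) + 22 * (Q ^ 4 * τ)) := by
    rw [c5] at c4
    nlinarith
  have hfin := mul_le_mul_of_nonneg_left hin (sq_nonneg (ρ : ℝ))
  have h0 : 0 ≤ (ρ : ℝ) ^ 2 * (ν' * (Q ^ 4 * τ)) := by positivity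
  calc _ ≤ (ρ : ℝ) ^ 2 * (ν' * (16 * M ^ 2 * (d1 / ν) + 40 * (zn1 * h) + 22 * (Q ^ 4 * τ)))
        + (ρ : ℝ) ^ 2 * (ν' * (Q ^ 4 * τ)) := by
          have := c3.trans c8
          linarith
    _ ≤ _ := by
          have e2 : (16 * M ^ 2 * (d1 / ν) + 40 * (zn1 * h) + 26 * (Q ^ 4 * τ)) * (ν' * (ρ : ℝ) ^ 2)
              = (ρ : ℝ) ^ 2 * (ν' * (16 * M ^ 2 * (d1 / ν) + 40 * (zn1 * h) + 22 * (Q ^ 4 * τ)))
                + 4 * ((ρ : ℝ) ^ 2 * (ν' * (Q ^ 4 * τ))) := by ring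
          rw [e2]
          linarith

/-- the next local error in natural units -/
lemma num_lCS {n ρ D1 : ℕ} {ν M c s₀ h τq τ' ηw : ℝ} (hν : 0 < ν) (hM : 2 ≤ M)
    (hq : tq h ≤ τq)
    (hg : 4 * (ηw * M ^ 2 / ν) + M ^ 2 * (2 * (n * √(16 * (ρ : ℝ) ^ 2 * (ν / M ^ 2) / c * s₀)))
      + M ^ 2 * (√(2 * (2 * (D1 : ℝ) + 1)) * ((ρ : ℝ) ^ 2 * √(c⁻¹ * s₀))) + 3 * M ^ 2 * τq ≤ τ') :
    lCS n ρ D1 (ν / M ^ 2) c s₀ h h (π⁻¹ * ν) (π⁻¹ * ν) ηw ≤ τ' * (ν / M ^ 2 * (ρ : ℝ) ^ 2) := by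
  have hν' : 0 < ν / M ^ 2 := by positivity
  set ν' := ν / M ^ 2 with hν'd
  have eν : ν = M ^ 2 * ν' := by rw [hν'd]; field_simp
  have hπ3 := Real.pi_gt_three
  have hpi : π⁻¹ * ν ≤ M ^ 2 * ν' * (1 / 3) := by
    rw [← eν, mul_comm]
    exact mul_le_mul_of_nonneg_left (by
      rw [inv_eq_one_div]
      exact one_div_le_one_div_of_le (by norm_num) hπ3.le) hν.le
  have hpi0 : 0 ≤ π⁻¹ * ν := by positivity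
  set g1 := (n : ℝ) * √(16 * (ρ : ℝ) ^ 2 * ν' / c * s₀) with hg1
  set g2 := √(2 * (2 * (D1 : ℝ) + 1)) * ((ρ : ℝ) ^ 2 * √(c⁻¹ * s₀)) with hg2
  have hg10 : 0 ≤ g1 := by positivity
  have hg20 : 0 ≤ g2 := by positivity
  have tq0 := tq_nonneg h
  have d1 : 4 * g1 * (π⁻¹ * ν) ≤ 4 * g1 * (M ^ 2 * ν' * (1 / 3)) :=
    mul_le_mul_of_nonneg_left hpi (by positivity)
  have d2 : 2 * (π⁻¹ * ν * g2) ≤ 2 * (M ^ 2 * ν' * (1 / 3) * g2) :=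
    mul_le_mul_of_nonneg_left (mul_le_mul_of_nonneg_right hpi hg20) (by norm_num)
  have d3 : π⁻¹ * ν * (4 * tq h + 3 * tq h) ≤ M ^ 2 * ν' * (1 / 3) * (7 * τq) :=
    mul_le_mul hpi (by linarith) (by positivity) (by positivity)
  have d4 : 4 * ηw = ν' * (4 * (ηw * M ^ 2 / ν)) := by
    rw [eν]
    field_simp
  have hτq : 0 ≤ τq := tq0.trans hq
  unfold lCS
  have hin : 4 * ηw + 4 * g1 * (π⁻¹ * ν) + 2 * (π⁻¹ * ν * g2)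
      + π⁻¹ * ν * (4 * tq h + 3 * tq h) ≤ ν' * τ' := by
    have h1 := mul_le_mul_of_nonneg_left hg hν'.le
    have z1 : 0 ≤ ν' * (M ^ 2 * g1) := by positivity
    have z2 : 0 ≤ ν' * (M ^ 2 * g2) := by positivity
    have z3 : 0 ≤ ν' * (M ^ 2 * τq) := by positivity
    nlinarith
  have := mul_le_mul_of_nonneg_left hin (sq_nonneg (ρ : ℝ))
  calc _ ≤ (ρ : ℝ) ^ 2 * (ν' * τ') := this
    _ = _ := by ring

end

end Vale.Agent.P159.H889
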