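import Vale.Agent.P159.H889.Vstate

/-!
P159 / H889: the window of the real state on one torus.
-/

namespace Vale.Agent.P159.H889

open MeasureTheory ProbabilityTheory Finset Matrix
open Vale.Agent.P159.TM.Spec (V)
open Vale.Agent.P159.TM.SpecC (wT)
open Vale.Agent.P159.H37 (gau gau_sum qf)
open Vale.Agent.P159.H145 (mt)
open Vale.Agent.P159.H363
open Vale.Agent.P159.H864 (TI sym fc mlt cl up)
open Vale.Agent.P159.H462 (Dom ahat ti_ahat sym_ahat)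
open Vale.Agent.P159.H708 (lfM avM m2 Ac Bm Sg)
open Vale.Agent.P159.H963 (CG GC vC)
open Vale.Agent.P159.H896 (Ph om WM Ah Acx Pc lf2 tcf)
open Vale.Agent.P159.H340 (tce anw)
open scoped Real

noncomputable section

variable {N l : ℕ} [NeZero N] [NeZero (N / l)] {b t t' : ℝ}

lemma measurable_PhF (hb : 0 ≤ b) (ht : 0 < t) : Measurable fun F : V (N / l) → ℝ =>
    Ph (wT b N) (mt N t) 1 (lf N l F) :=
  ((continuous_Ph (wm_mt hb ht) 1).comp continuous_lf).measurable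

/-- the first harmonic against the functional of the state -/
lemma tn2_W (hb : 0 ≤ b) (ht : 0 < t) {A : Matrix (V (N / l)) (V (N / l)) ℝ}
    {Ψ : (V (N / l) → ℝ) → ℂ} (mΨ : Measurable Ψ) (bΨ : ∃ K : ℝ, ∀ F, ‖Ψ F‖ ≤ K) {e e1 : ℝ}
    (he : tn2 A (fun F => Ph (wT b N) (mt N t) 1 (lf N l F) - Ψ F) ≤ e)
    (he1 : ∀ F, ‖Ph (wT b N) (mt N t) 1 (lf N l F) - Wc N l b t F‖ ≤ e1) :
    tn2 A (fun F => Wc N l b t F - Ψ F) ≤ e + e1 := by
  obtain ⟨K, hK⟩ := bΨ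
  have hwm := wm_mt (N := N) hb ht
  have e0 : ∀ F, Wc N l b t F - Ψ F = (Ph (wT b N) (mt N t) 1 (lf N l F) - Ψ F)
      - (Ph (wT b N) (mt N t) 1 (lf N l F) - Wc N l b t F) := fun F => by ring
  rw [tn2_congr e0]
  have m1 : Measurable fun F : V (N / l) → ℝ => Ph (wT b N) (mt N t) 1 (lf N l F) - Ψ F :=
    (measurable_PhF hb ht).sub mΨ
  have m2 : Measurable fun F : V (N / l) → ℝ =>
      Ph (wT b N) (mt N t) 1 (lf N l F) - Wc N l b t F :=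
    (measurable_PhF hb ht).sub (continuous_Wc hb ht).measurable
  refine (tn2_sub_le m1 m2 (K := om (wT b N) (mt N t) 1 + K) (fun F =>
    (norm_sub_le _ _).trans (add_le_add (H896.norm_Ph_le hwm 1 _) (hK F))) he1 A).trans
    (add_le_add he ?_)
  exact n2_le_const ((m2.comp (measurable_mulVec _)).aestronglyMeasurable)
    ((norm_nonneg _).trans (he1 0)) fun g => he1 _

/-- **(W) for the real state** -/
theorem VT.win (hb : 0 < b) (hl : l ∣ N) (ht' : 0 < t') (h1 : t' < t) {c a : ℝ} {D : ℕ}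
    {r₀ L r γr ρ : ℝ}
    (hP : Par (N / l) (acl N l b t t) (t * (l : ℝ) ^ 2) c (sn l t t') a D r₀ L r γr ρ)
    {z : ℂ} (hz : z ≠ 0) {d η Lp e e1 ηm : ℝ} (hV : VT N l b t z d D η Lp e)
    (hm : ∀ x, tn2 (acl N l b t t) (fun F => mainf (1 - (t * (l : ℝ) ^ 2)⁻¹ • acl N l b t t) x F
      - mainf (1 - (t * (l : ℝ) ^ 2)⁻¹ • acl N l b t t) x (cutx D x F)) ≤ ηm)
    (he1 : ∀ F, ‖Ph (wT b N) (mt N t) 1 (lf N l F) - Wc N l b t F‖ ≤ e1) :
    ∃ κ : ℂ, ‖z‖ * ‖κ‖ ≤ γr * (d + (η + ‖z‖ * ηm)) ∧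
      Den (Ah N l b t t t') (t' * (l : ℝ) ^ 2)
        (z * ((Real.exp (-(2 * π ^ 2 * H363.vv (sn l t t') (t * (l : ℝ) ^ 2)
          (acl N l b t t))) : ℝ) + κ))
        (γr * (π * ρ + 2 / (sn l t t' * (t * (l : ℝ) ^ 2))) * (d + (η + ‖z‖ * ηm))
          + (η + ‖z‖ * ηm)
          + (2 * π)⁻¹ * (√(sn l t t' * ((N / l : ℕ) : ℝ) ^ 2))⁻¹ * (e + e1))
        (dn (ahat (sn l t t') (acl N l b t t)) (gm (sn l t t') (acl N l b t t))
          (uc N l b t)) := by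
  have ht : 0 < t := ht'.trans h1
  obtain ⟨Ψ, ψ, lam, hΨ, cΨ, hden, hlcl, he⟩ := hV.ex
  have hW := tn2_W hb.le ht hΨ.m hΨ.bd he he1
  obtain ⟨κ, h2, h3⟩ := vwin_den hP hz hΨ (dif_Wc hb.le ht hl) cΨ (ch_Wc hb.le ht) hden hlcl
    (cov_uc hb.le ht hl) (fun x => ch_uc hb.le ht x) hm hW
  rw [nu_next hl ht' h1] at h3
  exact ⟨κ, h2, h3⟩

end

end Vale.Agent.P159.H889
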