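import Vale.Agent.P159.H889.Vcel1
import Vale.Agent.P159.H889.Vreal
import Vale.Agent.P159.H896.CombU
import Vale.Agent.P159.H340.Al4

/-!
P159 / H889: THE STATE OF THE CHARGED SECTOR on one torus, and the step on one torus from the
densities after the window to the state on the next cells.

* `ST A Φ ν z d D η Lp e` : exists `Ψ, ψ, lam` with `Dif`, `Ch`, `Den`, `Lcl` and `|Φ - Ψ| ≤ e` in the
  typical law; `ST.mono`, `ST.cast`;
* `VT N l b t z d D η Lp e` : the real state, scalar mass `t`, cells `l`;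
* `VT.next` : `(C) + (L) + (E)`.
-/

namespace Vale.Agent.P159.H889

open MeasureTheory ProbabilityTheory Finset Matrix
open Vale.Agent.P159.TM.Spec (V)
open Vale.Agent.P159.TM.SpecC (wT)
open Vale.Agent.P159.H37 (gau gau_sum qf)
open Vale.Agent.P159.H145 (mt)
open Vale.Agent.P159.H363
open Vale.Agent.P159.H864 (TI sym fc mlt cl up)
open Vale.Agent.P159.H462 (Dom ahat ti_ahat sym_ahat)
open Vale.Agent.P159.H708 (lfM avM m2 Ac Bm Sg)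
open Vale.Agent.P159.H963 (CG GC vC)
open Vale.Agent.P159.H896 (Ph om WM Ah Acx Pc lf2 tcf)
open Vale.Agent.P159.H340 (tce anw)
open scoped Real

noncomputable section

/-- **the state of the charged sector** on the cell torus `V n`, typical law of the form `A`,
charge functional `Φ` -/
structure ST {n : ℕ} [NeZero n] (A : Matrix (V n) (V n) ℝ) (Φ : (V n → ℝ) → ℂ) (ν : ℝ) (z : ℂ)
    (d : ℝ) (D : ℕ) (η Lp e : ℝ) : Prop where
  ex : ∃ (Ψ : (V n → ℝ) → ℂ) (ψ lam : V n → (V n → ℝ) → ℂ), Dif Ψ ψ ∧ Ch Ψ ∧ Den A ν z d ψ ∧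
    Lcl A D η Lp ψ lam ∧ tn2 A (fun F => Φ F - Ψ F) ≤ e

section gen

variable {n : ℕ} [NeZero n] {A : Matrix (V n) (V n) ℝ}

lemma Den.mono {ν : ℝ} {z : ℂ} {d d' : ℝ} {ψ : V n → (V n → ℝ) → ℂ} (h : Den A ν z d ψ)
    (hd : d ≤ d') : Den A ν z d' ψ :=
  ⟨h.m, h.bd, h.ch, h.cov, fun x => (h.dev x).trans hd⟩

lemma box_mono {x : V n} {D D' : ℕ} (h : D ≤ D') : H462.box x D ⊆ H462.box x D' := by
  intro y hy
  rw [H462.mem_box] at hy ⊢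
  exact ⟨hy.1.trans h, hy.2.trans h⟩

lemma Lcl.mono {D D' : ℕ} {η η' Lp Lp' : ℝ} {ψ lam : V n → (V n → ℝ) → ℂ}
    (h : Lcl A D η Lp ψ lam) (hD : D ≤ D') (hη : η ≤ η') (hL : Lp ≤ Lp') :
    Lcl A D' η' Lp' ψ lam := by
  refine ⟨h.m, h.bd, h.ch, h.cov, fun x F F' hF => h.loc x F F' fun y hy => hF y (box_mono hD hy),
    fun x F F' r hr => ?_, fun x => (h.near x).trans hη⟩
  have hr0 : 0 ≤ r := (abs_nonneg _).trans (hr x (self_mem_box x D'))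
  exact (h.lip x F F' r fun y hy => hr y (box_mono hD hy)).trans
    (mul_le_mul_of_nonneg_right hL hr0)

theorem ST.mono {Φ : (V n → ℝ) → ℂ} {ν : ℝ} {z : ℂ} {d d' η η' Lp Lp' e e' : ℝ} {D D' : ℕ}
    (h : ST A Φ ν z d D η Lp e) (hd : d ≤ d') (hD : D ≤ D') (hη : η ≤ η') (hL : Lp ≤ Lp')
    (he : e ≤ e') : ST A Φ ν z d' D' η' Lp' e' := by
  obtain ⟨Ψ, ψ, lam, h1, h2, h3, h4, h5⟩ := h.ex
  exact ⟨Ψ, ψ, lam, h1, h2, h3.mono hd, h4.mono hD hη hL, h5.trans he⟩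

end gen

/-- the state does not see the name of the side of the torus -/
theorem ST.cast {n m : ℕ} [NeZero n] [NeZero m] (h : n = m) {A : Matrix (V m) (V m) ℝ}
    {Φ : (V m → ℝ) → ℂ} {ν : ℝ} {z : ℂ} {d : ℝ} {D : ℕ} {η Lp e : ℝ}
    (hS : ST (A.submatrix (tce h) (tce h)) (fun f' => Φ (f' ∘ (tce h).symm)) ν z d D η Lp e) :
    ST A Φ ν z d D η Lp e := by
  subst h
  have e1 : (tce (rfl : n = n)) = Equiv.refl (V n) := Equiv.ext fun x => H340.tce_rfl x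
  rw [H340.sub_tce, e1] at hS
  exact hS

/-- **the real state**: torus `N`, cells `l`, scalar mass `t` -/
def VT (N l : ℕ) [NeZero N] [NeZero (N / l)] (b t : ℝ) (z : ℂ) (d : ℝ) (D : ℕ) (η Lp e : ℝ) :
    Prop :=
  ST (acl N l b t t) (fun F => Ph (wT b N) (mt N t) 1 (lf N l F)) (t * (l : ℝ) ^ 2) z d D η Lp e

/-! ### one torus -/

section one

variable {n : ℕ} [NeZero n] {A : Matrix (V n) (V n) ℝ}

lemma norm_lamw_le {ν c s : ℝ} (h : Dom A ν c) (hs : 0 < s) (hoff : ∀ x y, x ≠ y → A x y ≤ 0)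
    {R0 D1 : ℕ} {mu : V n → (V n → ℝ) → ℂ} {K : ℝ} (hK : ∀ x F, ‖mu x F‖ ≤ K) (x : V n)
    (f : V n → ℝ) : ‖lamw s A R0 D1 mu x f‖ ≤ K := by
  have h0 : ∀ x y, 0 ≤ ahat s A x y := ahat_nonneg h hs hoff
  have hK0 : 0 ≤ K := (norm_nonneg _).trans (hK 0 0)
  have hsub : ∑ y ∈ H462.box x R0, ahat s A y x ≤ 1 := by
    have h1 := ahat_col h hs hoff x
    rw [← h1]
    calc ∑ y ∈ H462.box x R0, ahat s A y x ≤ ∑ y, ahat s A y x :=
          Finset.sum_le_sum_of_subset_of_nonneg (Finset.subset_univ _) fun y _ _ => h0 y x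
      _ = ∑ y, |ahat s A y x| := Finset.sum_congr rfl fun y _ => (abs_of_nonneg (h0 y x)).symm
  unfold lamw
  refine (norm_sum_le _ _).trans ?_
  calc ∑ y ∈ H462.box x R0, ‖(ahat s A y x : ℂ) * Pg (ahat s A) (gm s A) (mu y) (cutx D1 x f)‖
      ≤ ∑ y ∈ H462.box x R0, ahat s A y x * K := by
        refine Finset.sum_le_sum fun y _ => ?_
        rw [norm_mul, Complex.norm_real, Real.norm_eq_abs, abs_of_nonneg (h0 y x)]
        exact mul_le_mul_of_nonneg_left (norm_Pg_le (hK y) _) (h0 y x)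
    _ = (∑ y ∈ H462.box x R0, ahat s A y x) * K := by rw [Finset.sum_mul]
    _ ≤ 1 * K := mul_le_mul_of_nonneg_right hsub hK0
    _ = K := one_mul _

lemma S_ahat_nonneg {ν c s : ℝ} (h : Dom A ν c) (hs : 0 < s) (hoff : ∀ x y, x ≠ y → A x y ≤ 0)
    (hS : ∀ x y, 0 ≤ (1 - ν⁻¹ • A) x y) (x y : V n) :
    0 ≤ (1 - (((ν⁻¹ + s)⁻¹ : ℝ)⁻¹) • (A * ahat s A)) x y := by
  rw [← S_ahat h hs, Matrix.mul_apply]
  exact Finset.sum_nonneg fun w _ => mul_nonneg (hS x w) (ahat_nonneg h hs hoff w y)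

end one

/-! ### the real step -/

section real

variable {N l ρ : ℕ} [NeZero N] [NeZero (N / l)] [NeZero (N / l / ρ)] [NeZero (N / (l * ρ))]
  {b t t' : ℝ}

/-- the main parameter after the window -/
lemma nu_next (hl : l ∣ N) (ht' : 0 < t') (h1 : t' < t) :
    ((t * (l : ℝ) ^ 2)⁻¹ + sn l t t')⁻¹ = t' * (l : ℝ) ^ 2 := by
  have hl0 : (0 : ℝ) < l := by exact_mod_cast H864.l_pos hl
  have ht : 0 < t := ht'.trans h1
  unfold sn
  rw [inv_eq_iff_eq_inv, mul_inv, mul_inv]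
  field_simp
  ring

lemma norm_mc_le (hb : 0 ≤ b) (ht : 0 < t) (hl : l ∣ N) (D0 : ℕ) (x : V (N / l))
    (F : V (N / l) → ℝ) : ‖mc N l b t D0 x F‖ ≤ (2 * π)⁻¹ * (t * (l : ℝ) ^ 2) :=
  norm_uc_le hb ht hl x _

lemma norm_Wc_le (hb : 0 ≤ b) (ht : 0 < t) (hl : l ∣ N) (F : V (N / l) → ℝ) :
    ‖Wc N l b t F‖ ≤ (2 * π)⁻¹ * (t * (N : ℝ) ^ 2) := by
  have hl0 : (0 : ℝ) < l := by exact_mod_cast H864.l_pos hl
  rw [← sum_uc hb ht]
  refine (norm_sum_le _ _).trans ?_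
  refine (Finset.sum_le_card_nsmul _ _ _ fun x _ => norm_uc_le hb ht hl x F).trans (le_of_eq ?_)
  rw [Finset.card_univ, nsmul_eq_mul, TM.H764.card_V, Nat.cast_div hl hl0.ne']
  field_simp

/-- the local error of the densities after the window -/
def lW (n : ℕ) [NeZero n] (A : Matrix (V n) (V n) ℝ) (s : ℝ) (R0 D0 R : ℕ) (η K Lp : ℝ) : ℝ :=
  η + tl (ahat s A) R0 * K
    + Lp * ((2 * ((R0 + D0 : ℕ) : ℝ) + 1) ^ 2 * tl (ahat s A) R * (2 * sg (A * ahat s A)))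

/-- **(C) + (L) + (E) on one torus**: from the densities after the window to the next state -/
theorem VT.next (hb : 0 < b) (hl : l ∣ N) (hρ : ρ ∣ N / l) (ht' : 0 < t') (h1 : t' < t) {c : ℝ}
    (hD : Dom (acl N l b t t) (t * (l : ℝ) ^ 2) c)
    (hoff : ∀ x y, x ≠ y → acl N l b t t x y ≤ 0)
    (hS : ∀ x y, 0 ≤ (1 - (t * (l : ℝ) ^ 2)⁻¹ • acl N l b t t) x y)
    (hSn : ∀ x y, 0 ≤ (1 - (t' * ((l * ρ : ℕ) : ℝ) ^ 2)⁻¹ • acl N (l * ρ) b t' t') x y)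
    {s₀ : ℝ} (hδ : 16 * (ρ : ℝ) ^ 2 * (t' * (l : ℝ) ^ 2) / c ≤ 1 / 2)
    (hs : (1 - (t' * (l : ℝ) ^ 2)⁻¹ • Ah N l b t t t') 0 0 ≤ s₀)
    (hs1 : 2 * (N / l : ℕ) * (16 * (ρ : ℝ) ^ 2 * (t' * (l : ℝ) ^ 2) / c) * √s₀ ≤ 1)
    (hs2 : 2 * (N / l : ℕ) * √(16 * (ρ : ℝ) ^ 2 * (t' * (l : ℝ) ^ 2) / c * s₀) ≤ 1)
    {η₂ : ℝ} (hη₂ : 0 < η₂) (hη₂' : η₂ ≤ 1 / 2)
    (HS2 : ∑ k, rel (Acx N l ρ b t t t') (anw N l ρ b t') k ^ 2 ≤ η₂ ^ 2)
    {z : ℂ} {d : ℝ}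
    (hden : Den (Ah N l b t t t') (t' * (l : ℝ) ^ 2) z d
      (dn (ahat (sn l t t') (acl N l b t t)) (gm (sn l t t') (acl N l b t t)) (uc N l b t)))
    {R0 D0 R D1 D' : ℕ} (hR : R0 + D0 + R ≤ D1) (hD' : D1 + ρ ≤ ρ * D') {η Lp : ℝ}
    (hlcl : Lcl (acl N l b t t) D0 η Lp (uc N l b t) (mc N l b t D0))
    {e : ℝ} (he : tn2 (Acx N l ρ b t t t') (fun f' => Ph (wT b N) (mt N t') 1 (lf2 N l ρ f')
      - Pc N l ρ b t t t' (Wc N l b t) f') ≤ e) :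
    VT N (l * ρ) b t' (z * (GC ρ (Ah N l b t t t') (t' * (l : ℝ) ^ 2) : ℂ))
      (dC1 (N / l) ρ (t' * (l : ℝ) ^ 2) c s₀ η₂ ‖z‖ ((2 * π)⁻¹ * (t * (l : ℝ) ^ 2)) d) D'
      (lC1 (N / l) ρ D1 (t' * (l : ℝ) ^ 2) c s₀ η₂ ((2 * π)⁻¹ * (t * (l : ℝ) ^ 2)) Lp
        (lW (N / l) (acl N l b t t) (sn l t t') R0 D0 R η ((2 * π)⁻¹ * (t * (l : ℝ) ^ 2)) Lp))
      ((ρ : ℝ) ^ 2 * Lp)
      (2 * e + (om (wT b N) (mt N t') 1 + (2 * π)⁻¹ * (t * (N : ℝ) ^ 2)) * tq η₂) := by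
  have ht : 0 < t := ht'.trans h1
  have hs0 := sn_pos hl ht' h1
  have hνn := nu_next (N := N) (l := l) hl ht' h1
  set A := acl N l b t t with hA
  set s := sn l t t' with hsd
  set K : ℝ := (2 * π)⁻¹ * (t * (l : ℝ) ^ 2) with hK
  have hAh : Ah N l b t t t' = A * ahat s A := rfl
  have hlρ : l * ρ ∣ N := H340.dvd_lr hl hρ
  have hDh : Dom (Ah N l b t t t') (t' * (l : ℝ) ^ 2) c := by
    rw [hAh, ← hνn]
    exact dom_Aahat hD hs0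
  have hSh : ∀ x y, 0 ≤ (1 - (t' * (l : ℝ) ^ 2)⁻¹ • Ah N l b t t t') x y := by
    rw [hAh, ← hνn]
    exact S_ahat_nonneg hD hs0 hoff hS
  have hKu : ∀ x F, ‖uc N l b t x F‖ ≤ K := fun x F => norm_uc_le hb.le ht hl x F
  have hKm : ∀ x F, ‖mc N l b t D0 x F‖ ≤ K := fun x F => norm_mc_le hb.le ht hl D0 x F
  have hum : ∀ x, Measurable (uc N l b t x) := fun x => (continuous_uc hb.le ht x).measurable
  have hL1 := lcl_window hD hs0 hoff hR hum hKu (fun x => ch_uc hb.le ht x) hlcl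
  have hNn := H340.nf_anw (N := N) (l := l) (ρ := ρ) hb hl hρ ht'
  have eν : t' * ((l * ρ : ℕ) : ℝ) ^ 2 = t' * (l : ℝ) ^ 2 * (ρ : ℝ) ^ 2 := by
    push_cast
    ring
  have hSn' : ∀ x y, 0 ≤ (1 - (t' * (l : ℝ) ^ 2 * (ρ : ℝ) ^ 2)⁻¹ • anw N l ρ b t') x y := by
    intro x y
    have h2 := hSn (tce (Nat.div_div_eq_div_mul N l ρ) x) (tce (Nat.div_div_eq_div_mul N l ρ) y)
    rw [eν] at h2
    refine h2.trans (le_of_eq ?_)
    unfold anw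
    rw [Matrix.sub_apply, Matrix.sub_apply, Matrix.smul_apply, Matrix.smul_apply,
      Matrix.submatrix_apply]
    congr 1
    rw [Matrix.one_apply, Matrix.one_apply]
    simp
  have hle : ∀ k, sym (anw N l ρ b t') k ≤ t' * (l : ℝ) ^ 2 * (ρ : ℝ) ^ 2 := by
    intro k
    unfold anw
    rw [H340.sym_tce, ← eν]
    exact sym_acl_le hb.le hlρ ht' le_rfl _
  have hcell := cell_step1 (n := N / l) hρ hDh hNn hδ hSh hSn' hle hs hs1 hs2 hη₂ hη₂' HS2 hD' hden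
    hL1 (norm_dn_ahat hD hs0 hoff hKu) (norm_lamw_le hD hs0 hoff hKm)
  obtain ⟨hDen, hLcl⟩ := hcell
  -- the functional
  have hdif : Dif (Pc N l ρ b t t t' (Wc N l b t))
      (dn (m2 ρ (Ah N l b t t t')) (Bm ρ (Ah N l b t t t'))
        (dn (ahat s A) (gm s A) (uc N l b t))) :=
    ((dif_Wc hb.le ht hl).step (ahat s A) (gm s A)).step _ _
  have hch : Ch (Pc N l ρ b t t t' (Wc N l b t)) := by
    unfold Pc
    exact ch_Pg (H708.row_m2 hρ (Nf.of_dom hDh)) (ch_Pg (ahat_row A hD.zero) (ch_Wc hb.le ht))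
  have hwm : WM (wT b N) (mt N t') := wm_mt hb.le ht'
  have mPh : Measurable fun f' : V (N / l / ρ) → ℝ =>
      Ph (wT b N) (mt N t') 1 (lf2 N l ρ f') :=
    ((continuous_Ph hwm 1).comp H896.continuous_lf2).measurable
  have bW : ∀ f' : V (N / l / ρ) → ℝ, ‖Pc N l ρ b t t t' (Wc N l b t) f'‖
      ≤ (2 * π)⁻¹ * (t * (N : ℝ) ^ 2) := fun f' =>
    norm_Pg_le (norm_Pg_le (norm_Wc_le hb.le ht hl)) f'
  have hNx : Nf (Acx N l ρ b t t t') := H708.nf_Ac hρ (Nf.of_dom hDh)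
  have he2 : tn2 (anw N l ρ b t') (fun f' => Ph (wT b N) (mt N t') 1 (lf2 N l ρ f')
      - Pc N l ρ b t t t' (Wc N l b t) f')
      ≤ 2 * e + (om (wT b N) (mt N t') 1 + (2 * π)⁻¹ * (t * (N : ℝ) ^ 2)) * tq η₂ := by
    have h4 : √(4 : ℝ) = 2 := by
      rw [show (4 : ℝ) = 2 ^ 2 by norm_num]
      exact Real.sqrt_sq (by norm_num)
    have h5 := tn2_change hNx hNn (κ := 4) hη₂ hη₂' (by norm_num) HS2
      (u := fun f' => Ph (wT b N) (mt N t') 1 (lf2 N l ρ f')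
        - Pc N l ρ b t t t' (Wc N l b t) f') (mPh.sub hdif.m)
      (B := om (wT b N) (mt N t') 1 + (2 * π)⁻¹ * (t * (N : ℝ) ^ 2)) fun f' =>
        (norm_sub_le _ _).trans (add_le_add (H896.norm_Ph_le hwm 1 _) (bW f'))
    rw [h4] at h5
    unfold tq
    linarith
  unfold VT
  rw [eν]
  refine ST.cast (Nat.div_div_eq_div_mul N l ρ) ?_
  refine ⟨Pc N l ρ b t t t' (Wc N l b t), _,
    lamc ρ (Ah N l b t t t') (lamw s A R0 D1 (mc N l b t D0)), hdif, hch, hDen, hLcl, ?_⟩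
  · refine le_trans (le_of_eq ?_) he2
    unfold anw
    refine tn2_congr (fun f' => ?_) _
    rw [H896.lf2_eq hl hρ]
    rfl

end real

end

end Vale.Agent.P159.H889
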