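import Vale.Agent.P159.H889.Vcell
import Vale.Agent.P159.H889.Vlaw
import Vale.Agent.P159.H708.Coarse3

/-!
P159 / H889: one step of the charged sector on abstract cell tori.

* `vwin_den` : the window theorem `vwin` in the form `Den (A * ahat) (ν⁻¹ + s)⁻¹`;
* `cell_step` : change of law, change of cells, change of law, for the deviation and for the local
  approximants, all numbers explicit.
-/

namespace Vale.Agent.P159.H889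

open MeasureTheory ProbabilityTheory Finset Matrix
open Vale.Agent.P159.TM.Spec (V)
open Vale.Agent.P159.H37 (gau gau_sum qf)
open Vale.Agent.P159.H363
open Vale.Agent.P159.H864 (TI sym fc mlt cl up)
open Vale.Agent.P159.H462 (Dom ahat ti_ahat sym_ahat)
open Vale.Agent.P159.H708 (lfM avM m2 Ac Bm Sg)
open Vale.Agent.P159.H963 (CG GC vC)
open scoped Real

noncomputable section

section win

variable {N : ℕ} [NeZero N] {A : Matrix (V N) (V N) ℝ}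

/-- `S ahat = 1 - (ν⁻¹ + s) A ahat` -/
lemma S_ahat {ν c s : ℝ} (h : Dom A ν c) (hs : 0 < s) :
    (1 - ν⁻¹ • A) * ahat s A = 1 - (((ν⁻¹ + s)⁻¹ : ℝ)⁻¹) • (A * ahat s A) := by
  have h1 : ahat s A + s • (A * ahat s A) = 1 := by
    have h2 := mul_eq_one_comm.mp (H462.ahat_mul h hs)
    rw [add_mul, one_mul, smul_mul_assoc] at h2
    exact h2
  rw [inv_inv, sub_mul, one_mul, smul_mul_assoc, add_smul]
  have h3 : ahat s A = 1 - s • (A * ahat s A) := by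
    rw [← h1]
    abel
  calc ahat s A - ν⁻¹ • (A * ahat s A) = (1 - s • (A * ahat s A)) - ν⁻¹ • (A * ahat s A) := by
        rw [← h3]
    _ = _ := by abel

lemma nf_Aahat {ν c s : ℝ} (h : Dom A ν c) (hs : 0 < s) : Nf (A * ahat s A) where
  ti := h.ti.mul (ti_ahat s A)
  pos := fun k hk => by
    rw [H864.sym_mul h.ti (ti_ahat s A), sym_ahat]
    have h1 := h.sym_pos hk
    have h2 : 0 < 1 + s * sym A k := by positivity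
    positivity
  zero := by rw [H864.sym_mul h.ti (ti_ahat s A), h.zero, zero_mul]

/-- rows of the smoothing matrix -/
lemma S_row {ν : ℝ} (hA : Nf A) (hS0 : ∀ x y, 0 ≤ (1 - ν⁻¹ • A) x y) (x : V N) :
    ∑ w, |(1 - ν⁻¹ • A) x w| = 1 := by
  have h1 : ∑ w, |(1 - ν⁻¹ • A) x w| = ∑ w, (1 - ν⁻¹ • A) x w :=
    Finset.sum_congr rfl fun w _ => abs_of_nonneg (hS0 x w)
  have tS : TI (1 - ν⁻¹ • A) := TI.one.sub (hA.ti.smul _)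
  rw [h1, row_sum tS, H864.sym_sub, H864.sym_smul, H864.sym_one, hA.zero]
  ring

lemma ahat_col {ν c s : ℝ} (h : Dom A ν c) (hs : 0 < s) (hoff : ∀ x y, x ≠ y → A x y ≤ 0)
    (x : V N) : ∑ y, |ahat s A y x| = 1 := by
  rw [← ahat_row A h.zero x (s := s)]
  refine Finset.sum_congr rfl fun y _ => ?_
  rw [abs_of_nonneg (ahat_nonneg h hs hoff y x), (ti_ahat s A).sy]

/-- sup bound of the densities after the window -/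
lemma norm_dn_ahat {ν c s : ℝ} (h : Dom A ν c) (hs : 0 < s) (hoff : ∀ x y, x ≠ y → A x y ≤ 0)
    {u : V N → (V N → ℝ) → ℂ} {K : ℝ} (hK : ∀ x F, ‖u x F‖ ≤ K) (x : V N) (F : V N → ℝ) :
    ‖dn (ahat s A) (gm s A) u x F‖ ≤ K := by
  have h1 := norm_dn_le (F0 := ahat s A) (A := gm s A) hK x F
  rw [ahat_col h hs hoff x, one_mul] at h1
  exact h1

/-- `vwin` in the letters of the new level -/
theorem vwin_den {ν c s a : ℝ} {D : ℕ} {r₀ L r γr ρ : ℝ} (hP : Par N A ν c s a D r₀ L r γr ρ)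
    {z : ℂ} (hz : z ≠ 0) {d η ηm e Lp : ℝ} {Ψ W : (V N → ℝ) → ℂ}
    {ψ u lam : V N → (V N → ℝ) → ℂ} (hΨ : Dif Ψ ψ) (hW : Dif W u) (cΨ : Ch Ψ) (cW : Ch W)
    (hψ : Den A ν z d ψ) (hl : Lcl A D η Lp ψ lam) (hu : Cov u) (hcu : ∀ x, Ch (u x))
    (hm : ∀ x, tn2 A (fun F => mainf (1 - ν⁻¹ • A) x F - mainf (1 - ν⁻¹ • A) x (cutx D x F)) ≤ ηm)
    (he : tn2 A (fun F => W F - Ψ F) ≤ e) :
    ∃ κ : ℂ, ‖z‖ * ‖κ‖ ≤ γr * (d + (η + ‖z‖ * ηm)) ∧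
      Den (A * ahat s A) (ν⁻¹ + s)⁻¹
        (z * ((Real.exp (-(2 * π ^ 2 * H363.vv s ν A)) : ℝ) + κ))
        (γr * (π * ρ + 2 / (s * ν)) * (d + (η + ‖z‖ * ηm)) + (η + ‖z‖ * ηm)
          + (2 * π)⁻¹ * (√(s * (N : ℝ) ^ 2))⁻¹ * e)
        (dn (ahat s A) (gm s A) u) := by
  obtain ⟨κ, h1, h2⟩ := vwin hP hz hΨ hW cΨ cW hψ hl hu hm he
  have hs := hP.s_pos
  obtain ⟨K, hK0, hK⟩ := hW.bdx'
  have hrow : ∀ x, ∑ y, ahat s A x y = 1 := ahat_row A hP.dom.zero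
  refine ⟨κ, h1, ⟨fun x => measurable_dn hW.mx x, ⟨K, fun x F => norm_dn_ahat hP.dom hs hP.off hK x F⟩, ?_,
    cov_dn (ti_ahat s A) (ti_gm s A) hu, fun x => ?_⟩⟩
  · intro x f t
    unfold dn
    rw [Finset.mul_sum]
    refine Finset.sum_congr rfl fun y _ => ?_
    rw [ch_Pg hrow (hcu y) f t]
    ring
  · have h3 := h2 x
    rw [S_ahat hP.dom hs] at h3
    unfold tn2
    rw [← cgm_eq_pin hP.dom hs]
    exact h3

end win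

/-! ### the change of cells with the two changes of law -/

variable {n ρ : ℕ} [NeZero n] [NeZero (n / ρ)]

/-- tail term of the change of law with factor `κ = 4` -/
def tq (η : ℝ) : ℝ := tk 4 η

lemma tq_nonneg (η : ℝ) : 0 ≤ tq η := tk_nonneg _ _

/-- relative error of the main function under a change of law -/
def qe (x η : ℝ) : ℝ := η * (1 + 2 * π / √x)

/-- local approximants on coarse cells, numbers from `Dom` -/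
theorem lcl_cell_dom {A : Matrix (V n) (V n) ℝ} {ν c : ℝ} (hρ : ρ ∣ n) (h : Dom A ν c)
    (hδ : 16 * (ρ : ℝ) ^ 2 * ν / c ≤ 1 / 2) {s : ℝ} (hs : (1 - ν⁻¹ • A) 0 0 ≤ s) {D D' : ℕ}
    (hD : D + ρ ≤ ρ * D') {η K Lp : ℝ} {ψ lam : V n → (V n → ℝ) → ℂ}
    (hψm : ∀ x, Measurable (ψ x)) (hK : ∀ x F, ‖ψ x F‖ ≤ K) (hl : Lcl A D η Lp ψ lam) :
    Lcl (Ac ρ A) D' ((ρ : ℝ) ^ 2 * (η + 2 * n * √(16 * (ρ : ℝ) ^ 2 * ν / c * s) * K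
      + Lp * (√(2 * (2 * (D : ℝ) + 1)) * ((ρ : ℝ) ^ 2 * √(c⁻¹ * s)))))
      ((ρ : ℝ) ^ 2 * Lp) (dn (m2 ρ A) (Bm ρ A) ψ) (lamc ρ A lam) := by
  have hn := Nf.of_dom h
  have hc := h.hc
  have hδ0 := H708.delta_nonneg h ρ
  have hs0 := H708.S00_nonneg h
  have hρ0 := H708.rho_pos hρ
  have hK0 : 0 ≤ K := (norm_nonneg _).trans (hK 0 0)
  have hLp := hl.Lp_nonneg
  have e1 : ∀ X, ∑ x, |(m2 ρ A - lfM n ρ) x X|
      ≤ (ρ : ℝ) ^ 2 * (2 * n * √(16 * (ρ : ℝ) ^ 2 * ν / c * s)) := by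
    intro X
    refine (H708.r_col_abs hρ h hδ X).trans ?_
    refine mul_le_mul_of_nonneg_left (mul_le_mul_of_nonneg_left
      (Real.sqrt_le_sqrt (mul_le_mul_of_nonneg_left hs hδ0)) (by positivity)) (by positivity)
  have e2 : ∀ w, ∑ j, ((m2 ρ A - lfM n ρ) * pin (Ac ρ A)) w j ^ 2
      ≤ ((ρ : ℝ) ^ 2 * √(c⁻¹ * s)) ^ 2 := by
    intro w
    have h1 := H708.rvar_le hρ h (cl w : V (n / ρ))
    have h2 : ∑ j, ((m2 ρ A - lfM n ρ) * pin (Ac ρ A)) w j ^ 2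
        ≤ ∑ w' with (cl w' : V (n / ρ)) = cl w,
          ∑ j, (((m2 ρ A - lfM n ρ) * pin (Ac ρ A)) w' j) ^ 2 :=
      Finset.single_le_sum (f := fun w' => ∑ j, (((m2 ρ A - lfM n ρ) * pin (Ac ρ A)) w' j) ^ 2)
        (fun _ _ => Finset.sum_nonneg fun _ _ => sq_nonneg _)
        (Finset.mem_filter.2 ⟨Finset.mem_univ w, rfl⟩)
    refine (h2.trans h1).trans ?_
    rw [mul_pow, Real.sq_sqrt (by
      have : 0 ≤ s := hs0.trans hs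
      positivity)]
    have h3 : c⁻¹ * (1 - ν⁻¹ • A) 0 0 ≤ c⁻¹ * s := mul_le_mul_of_nonneg_left hs (by positivity)
    calc (ρ : ℝ) ^ 2 * ((ρ : ℝ) ^ 2 * (c⁻¹ * (1 - ν⁻¹ • A) 0 0))
        ≤ (ρ : ℝ) ^ 2 * ((ρ : ℝ) ^ 2 * (c⁻¹ * s)) := by gcongr
      _ = _ := by ring
  have h1 := lcl_cell hρ hn hD hψm hK hl e1 (by positivity) e2
  refine ⟨h1.m, h1.bd, h1.ch, h1.cov, h1.loc, h1.lip, fun x => (h1.near x).trans (le_of_eq ?_)⟩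
  ring

/-- change of law with `κ = 4` for the deviation -/
theorem Den.law4 {A₁ A₂ : Matrix (V n) (V n) ℝ} (h₁ : Nf A₁) (h₂ : Nf A₂) {ν η B d : ℝ}
    (hν : 0 < ν) (hη : 0 < η) (hη2 : η ≤ 1 / 2) (hS0 : ∀ x y, 0 ≤ (1 - ν⁻¹ • A₂) x y)
    (hle : ∀ k, sym A₂ k ≤ ν) (hHS : ∑ k, rel A₁ A₂ k ^ 2 ≤ η ^ 2) {z : ℂ}
    {ψ : V n → (V n → ℝ) → ℂ} (h : Den A₁ ν z d ψ)
    (hB : ∀ x F, ‖ψ x F - z * mainf (1 - ν⁻¹ • A₁) x F‖ ≤ B) :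
    Den A₂ ν z (2 * d + B * tq η + ‖z‖ * qe ((n : ℝ) ^ 2 * ν) η) ψ := by
  have h4 : √(4 : ℝ) = 2 := by
    rw [show (4 : ℝ) = 2 ^ 2 by norm_num]
    exact Real.sqrt_sq (by norm_num)
  have h3 := h.law h₁ h₂ (κ := 4) (s := 1) hν hη hη2 (by norm_num) hle hHS
    (fun x => (S_row h₂ hS0 x).le) hB
  refine ⟨h3.m, h3.bd, h3.ch, h3.cov, fun x => (h3.dev x).trans (le_of_eq ?_)⟩
  rw [h4]
  unfold tq qe
  ring

/-- change of law with `κ = 4` for the local approximants -/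
theorem Lcl.law4 {A₁ A₂ : Matrix (V n) (V n) ℝ} (h₁ : Nf A₁) (h₂ : Nf A₂) {η B ηl Lp : ℝ} {D : ℕ}
    (hη : 0 < η) (hη2 : η ≤ 1 / 2) (hHS : ∑ k, rel A₁ A₂ k ^ 2 ≤ η ^ 2)
    {ψ lam : V n → (V n → ℝ) → ℂ} (hψ : ∀ x, Measurable (ψ x)) (h : Lcl A₁ D ηl Lp ψ lam)
    (hB : ∀ x F, ‖ψ x F - lam x F‖ ≤ B) : Lcl A₂ D (2 * ηl + B * tq η) Lp ψ lam := by
  have h4 : √(4 : ℝ) = 2 := by
    rw [show (4 : ℝ) = 2 ^ 2 by norm_num]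
    exact Real.sqrt_sq (by norm_num)
  have h3 := h.law h₁ h₂ (κ := 4) hη hη2 (by norm_num) hHS hψ hB
  rw [h4] at h3
  exact h3

/-- relative error of the main function under the change of cells -/
def gce (n ρ : ℕ) (ν c s : ℝ) : ℝ :=
  4 * π * (ρ * √(c⁻¹ * s)) + 2 * n * √(16 * (ρ : ℝ) ^ 2 * ν / c * s)

lemma mainf_le_one {A : Matrix (V n) (V n) ℝ} {ν : ℝ} (hA : Nf A)
    (hS0 : ∀ x y, 0 ≤ (1 - ν⁻¹ • A) x y) (x : V n) (F : V n → ℝ) :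
    ‖mainf (1 - ν⁻¹ • A) x F‖ ≤ 1 :=
  (norm_mainf_le _ x F).trans (S_row hA hS0 x).le

/-- the numbers of `cell_step` -/
def dCS (n ρ : ℕ) (ν c s η₁ η₂ : ℝ) (nz K d : ℝ) : ℝ :=
  (ρ : ℝ) ^ 2 * (8 * d + nz * (4 * qe ((n : ℝ) ^ 2 * ν) η₁ + 2 * gce n ρ ν c s
    + qe ((n : ℝ) ^ 2 * ν) η₂) + (K + nz) * (4 * tq η₁ + 2 * tq η₂))

def lCS (n ρ D : ℕ) (ν c s η₁ η₂ : ℝ) (K Lp η : ℝ) : ℝ :=
  (ρ : ℝ) ^ 2 * (4 * η + 4 * (n * √(16 * (ρ : ℝ) ^ 2 * ν / c * s)) * K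
    + 2 * (Lp * (√(2 * (2 * (D : ℝ) + 1)) * ((ρ : ℝ) ^ 2 * √(c⁻¹ * s))))
    + K * (4 * tq η₁ + 3 * tq η₂))

/-- **change of law, change of cells, change of law** -/
theorem cell_step {A₁ A' : Matrix (V n) (V n) ℝ} {An : Matrix (V (n / ρ)) (V (n / ρ)) ℝ}
    {ν c s η₁ η₂ : ℝ} (hρ : ρ ∣ n) (h₁ : Nf A₁) (h' : Dom A' ν c) (hn : Nf An)
    (hδ : 16 * (ρ : ℝ) ^ 2 * ν / c ≤ 1 / 2) (hS1 : ∀ x y, 0 ≤ (1 - ν⁻¹ • A₁) x y)
    (hS' : ∀ x y, 0 ≤ (1 - ν⁻¹ • A') x y)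
    (hSn : ∀ x y, 0 ≤ (1 - (ν * (ρ : ℝ) ^ 2)⁻¹ • An) x y)
    (hle : ∀ k, sym An k ≤ ν * (ρ : ℝ) ^ 2) (hs : (1 - ν⁻¹ • A') 0 0 ≤ s)
    (hs1 : 2 * n * (16 * (ρ : ℝ) ^ 2 * ν / c) * √s ≤ 1)
    (hs2 : 2 * n * √(16 * (ρ : ℝ) ^ 2 * ν / c * s) ≤ 1)
    (hη₁ : 0 < η₁) (hη₁' : η₁ ≤ 1 / 2) (HS1 : ∑ k, rel A₁ A' k ^ 2 ≤ η₁ ^ 2)
    (hη₂ : 0 < η₂) (hη₂' : η₂ ≤ 1 / 2) (HS2 : ∑ k, rel (Ac ρ A') An k ^ 2 ≤ η₂ ^ 2)
    {D D' : ℕ} (hD : D + ρ ≤ ρ * D') {z : ℂ} {K d η Lp : ℝ} {ψ lam : V n → (V n → ℝ) → ℂ}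
    (hψ : Den A₁ ν z d ψ) (hl : Lcl A₁ D η Lp ψ lam) (hK : ∀ x F, ‖ψ x F‖ ≤ K)
    (hKl : ∀ x F, ‖lam x F‖ ≤ K) :
    Den An (ν * (ρ : ℝ) ^ 2) (z * (GC ρ A' ν : ℂ)) (dCS n ρ ν c s η₁ η₂ ‖z‖ K d)
        (dn (m2 ρ A') (Bm ρ A') ψ) ∧
      Lcl An D' (lCS n ρ D ν c s η₁ η₂ K Lp η) ((ρ : ℝ) ^ 2 * Lp)
        (dn (m2 ρ A') (Bm ρ A') ψ) (lamc ρ A' lam) := by
  have hN' := Nf.of_dom h'
  have hν := h'.hν
  have hc := h'.hc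
  have hρ0 := H708.rho_pos hρ
  have hδ0 := H708.delta_nonneg h' ρ
  have hs00 := H708.S00_nonneg h'
  have hs0 : 0 ≤ s := hs00.trans hs
  have hK0 : 0 ≤ K := (norm_nonneg _).trans (hK 0 0)
  have hd0 : 0 ≤ d := (tn2_nonneg _ _).trans (hψ.dev 0)
  have hLp := hl.Lp_nonneg
  have hη0 : 0 ≤ η := (tn2_nonneg _ _).trans (hl.near 0)
  have hqe : ∀ η', 0 ≤ η' → 0 ≤ qe ((n : ℝ) ^ 2 * ν) η' := fun η' h0 => by
    unfold qe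
    positivity
  have t1 := tq_nonneg η₁
  have t2 := tq_nonneg η₂
  -- first change of law
  have hB1 : ∀ x F, ‖ψ x F - z * mainf (1 - ν⁻¹ • A₁) x F‖ ≤ K + ‖z‖ := by
    intro x F
    refine (norm_sub_le _ _).trans (add_le_add (hK x F) ?_)
    rw [norm_mul]
    exact mul_le_of_le_one_right (norm_nonneg _) (mainf_le_one h₁ hS1 x F)
  have D1 := hψ.law4 h₁ hN' hν hη₁ hη₁' hS' h'.le HS1 hB1
  have L1 := hl.law4 h₁ hN' hη₁ hη₁' HS1 hψ.m (B := 2 * K) fun x F => by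
    refine (norm_sub_le _ _).trans ?_
    have := add_le_add (hK x F) (hKl x F)
    linarith
  -- change of cells
  have D2 := H708.den_coarse_dom hρ h' hδ hS' hs hs1
    (by have := hqe η₁ hη₁.le
        positivity) D1
  have L2 := lcl_cell_dom hρ h' hδ hs hD hψ.m hK L1
  -- second change of law
  have hAc := H708.nf_Ac hρ hN'
  have hνρ : 0 < ν * (ρ : ℝ) ^ 2 := by positivity
  have hGC0 := H708.GC_pos ρ A' ν
  have hGC1 := H708.GC_le (A := A') (ν := ν) hρ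
  have nzG : ‖z * (GC ρ A' ν : ℂ)‖ ≤ ‖z‖ * (ρ : ℝ) ^ 2 := by
    rw [norm_mul, Complex.norm_real, Real.norm_eq_abs, abs_of_pos hGC0]
    exact mul_le_mul_of_nonneg_left hGC1 (norm_nonneg _)
  have hm2 : ∀ X, ∑ x, |m2 ρ A' x X| ≤ 2 * (ρ : ℝ) ^ 2 := by
    intro X
    have h1 : ∀ x, |m2 ρ A' x X| ≤ |lfM n ρ x X| + |(m2 ρ A' - lfM n ρ) x X| := by
      intro x
      rw [Matrix.sub_apply]
      have := abs_add_le (lfM n ρ x X) (m2 ρ A' x X - lfM n ρ x X)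
      rw [add_sub_cancel] at this
      exact this
    refine (Finset.sum_le_sum fun x _ => h1 x).trans ?_
    rw [Finset.sum_add_distrib]
    have h2 : ∑ x, |lfM n ρ x X| = (ρ : ℝ) ^ 2 := by
      have h3 : ∀ x, |lfM n ρ x X| = if (cl x : V (n / ρ)) = X then 1 else 0 := by
        intro x
        rw [H708.lf_apply hρ]
        split_ifs <;> simp
      simp only [h3]
      rw [← Finset.sum_filter, Finset.sum_const, nsmul_eq_mul, mul_one]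
      exact H864.card_cell hρ X
    have h4 := H708.r_col_abs hρ h' hδ X
    have h5 : (ρ : ℝ) ^ 2 * (2 * n * √(16 * (ρ : ℝ) ^ 2 * ν / c * (1 - ν⁻¹ • A') 0 0))
        ≤ (ρ : ℝ) ^ 2 * 1 := by
      refine mul_le_mul_of_nonneg_left (le_trans ?_ hs2) (by positivity)
      exact mul_le_mul_of_nonneg_left
        (Real.sqrt_le_sqrt (mul_le_mul_of_nonneg_left hs hδ0)) (by positivity)
    rw [h2]
    linarith
  have hKψ : ∀ X F, ‖dn (m2 ρ A') (Bm ρ A') ψ X F‖ ≤ 2 * (ρ : ℝ) ^ 2 * K := fun X F =>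
    (norm_dn_le hK X F).trans (mul_le_mul_of_nonneg_right (hm2 X) hK0)
  have hKlam : ∀ X F, ‖lamc ρ A' lam X F‖ ≤ (ρ : ℝ) ^ 2 * K := by
    intro X F
    unfold lamc
    refine (norm_sum_le _ _).trans ?_
    have h1 := Finset.sum_le_card_nsmul (univ.filter fun x : V n => (cl x : V (n / ρ)) = X)
      (fun x => ‖Pg (lfM n ρ) (Bm ρ A') (lam x) F‖) K fun x _ => norm_Pg_le (hKl x) F
    refine h1.trans (le_of_eq ?_)
    rw [nsmul_eq_mul, H864.card_cell hρ X]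
  have hmc : ∀ X F, ‖mainf (1 - (ν * (ρ : ℝ) ^ 2)⁻¹ • Ac ρ A') X F‖ ≤ 2 := by
    intro X F
    refine (norm_mainf_le _ X F).trans ?_
    have tS : TI (1 - (ν * (ρ : ℝ) ^ 2)⁻¹ • Ac ρ A') := TI.one.sub (hAc.ti.smul _)
    have h1 := H708.ssum_le hρ h' hδ hS' X
    have h2 : 2 * n * (16 * (ρ : ℝ) ^ 2 * ν / c) * √((1 - ν⁻¹ • A') 0 0) ≤ 1 :=
      (mul_le_mul_of_nonneg_left (Real.sqrt_le_sqrt hs) (by positivity)).trans hs1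
    calc ∑ w, |(1 - (ν * (ρ : ℝ) ^ 2)⁻¹ • Ac ρ A') X w|
        = ∑ w, |(1 - (ν * (ρ : ℝ) ^ 2)⁻¹ • Ac ρ A') w X| :=
          Finset.sum_congr rfl fun w _ => by rw [tS.sy X w]
      _ ≤ _ := h1
      _ ≤ 2 := by linarith
  have D3 := D2.law4 hAc hn hνρ hη₂ hη₂' hSn hle HS2
    (B := 2 * (ρ : ℝ) ^ 2 * (K + ‖z‖)) fun X F => by
      refine (norm_sub_le _ _).trans ?_
      rw [norm_mul]
      have a1 := hKψ X F
      have a2 := mul_le_mul nzG (hmc X F) (norm_nonneg _) (by positivity)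
      linarith
  have L3 := L2.law4 hAc hn hη₂ hη₂' HS2 (fun X => measurable_dn hψ.m X)
    (B := 3 * (ρ : ℝ) ^ 2 * K) fun X F => by
      refine (norm_sub_le _ _).trans ?_
      have a1 := hKψ X F
      have a2 := hKlam X F
      linarith
  have en : (((n / ρ : ℕ) : ℝ)) ^ 2 * (ν * (ρ : ℝ) ^ 2) = (n : ℝ) ^ 2 * ν := by
    rw [Nat.cast_div hρ hρ0.ne']
    field_simp
  have hδ2 : 16 * (ρ : ℝ) ^ 2 * ν / c ≤ 1 / 2 := hδ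
  constructor
  · refine ⟨D3.m, D3.bd, D3.ch, D3.cov, fun X => (D3.dev X).trans ?_⟩
    rw [en]
    have q2 := hqe η₂ hη₂.le
    have q1 := hqe η₁ hη₁.le
    have a1 : ‖z * (GC ρ A' ν : ℂ)‖ * qe ((n : ℝ) ^ 2 * ν) η₂
        ≤ ‖z‖ * (ρ : ℝ) ^ 2 * qe ((n : ℝ) ^ 2 * ν) η₂ := mul_le_mul_of_nonneg_right nzG q2
    set δ := 16 * (ρ : ℝ) ^ 2 * ν / c with hδd
    set dd : ℝ := 2 * d + (K + ‖z‖) * tq η₁ + ‖z‖ * qe ((n : ℝ) ^ 2 * ν) η₁ with hdd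
    have hdd0 : 0 ≤ dd := by positivity
    have a2 : (1 + 2 * δ) * dd ≤ 2 * dd := mul_le_mul_of_nonneg_right (by linarith) hdd0
    have a3 : (ρ : ℝ) ^ 2 * ((1 + 2 * δ) * dd) ≤ (ρ : ℝ) ^ 2 * (2 * dd) :=
      mul_le_mul_of_nonneg_left a2 (by positivity)
    unfold dCS gce
    rw [← hδd]
    have e9 : (ρ : ℝ) ^ 2 * (8 * d + ‖z‖ * (4 * qe ((n : ℝ) ^ 2 * ν) η₁
        + 2 * (4 * π * (ρ * √(c⁻¹ * s)) + 2 * n * √(δ * s)) + qe ((n : ℝ) ^ 2 * ν) η₂)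
        + (K + ‖z‖) * (4 * tq η₁ + 2 * tq η₂))
        = 2 * ((ρ : ℝ) ^ 2 * (‖z‖ * (4 * π * (ρ * √(c⁻¹ * s)) + 2 * n * √(δ * s)))
          + (ρ : ℝ) ^ 2 * (2 * dd)) + 2 * (ρ : ℝ) ^ 2 * (K + ‖z‖) * tq η₂
          + ‖z‖ * (ρ : ℝ) ^ 2 * qe ((n : ℝ) ^ 2 * ν) η₂ := by
      rw [hdd]
      ring
    rw [e9, mul_add ((ρ : ℝ) ^ 2)]
    linarith
  · refine ⟨L3.m, L3.bd, L3.ch, L3.cov, L3.loc, L3.lip, fun X => (L3.near X).trans (le_of_eq ?_)⟩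
    unfold lCS
    ring

end

end Vale.Agent.P159.H889
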