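import Vale.Agent.P159.H889.VstepN

/-!
P159 / H889: THE STEP IN NATURAL UNITS WITH THE SHARP SUP BOUNDS of the new state
(`M ^ 2 ν'` for the densities, `t N ^ 2` for the functional: independent of the old bound `Q`).
-/

namespace Vale.Agent.P159.H889

open MeasureTheory ProbabilityTheory Finset Matrix
open Vale.Agent.P159.TM.Spec (V)
open Vale.Agent.P159.TM.SpecC (wT)
open Vale.Agent.P159.H37 (gau gau_sum qf)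
open Vale.Agent.P159.H145 (mt)
open Vale.Agent.P159.H363
open Vale.Agent.P159.H864 (TI sym fc mlt cl up)
open Vale.Agent.P159.H462 (Dom ahat ti_ahat sym_ahat)
open Vale.Agent.P159.H708 (lfM avM m2 Ac Bm Sg)
open Vale.Agent.P159.H963 (CG GC vC)
open Vale.Agent.P159.H896 (Ph om WM Ah Acx Pc lf2 tcf)
open Vale.Agent.P159.H340 (tce anw)
open Vale.Agent.P159.H733.Torg (ip)
open Vale.Agent.P159.H733.Vt (zb lft)
open scoped Real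

noncomputable section

variable {N1 N2 l ρ : ℕ} [NeZero N1] [NeZero N2] [NeZero (N1 / l)] [NeZero (N2 / l)]
  [NeZero (N2 / l / ρ)] [NeZero (N2 / (l * ρ))] {b t t' : ℝ}

/-- **cells, law and functional** in natural units -/
theorem VB.nextM {N : ℕ} [NeZero N] [NeZero (N / l)] [NeZero (N / l / ρ)] [NeZero (N / (l * ρ))]
    (hb : 0 < b) (hl : l ∣ N) (hρ : ρ ∣ N / l) {ν M Q h τ : ℝ} (S : Sz t t' ν M Q h τ l)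
    {B : Matrix (V (N / l)) (V (N / l)) ℝ} {D1 D' : ℕ} {τ0 τq τ' eE ef Y cB : ℝ}
    (hB : Dom B (t * (l : ℝ) ^ 2) cB) (pB : ∀ x y, 0 ≤ (1 - (t * (l : ℝ) ^ 2)⁻¹ • B) x y)
    (hC : CellIn N l ρ b t t' M Q h τ τq τ' τ0 B D1 D' eE ef) (hqq : tq h ≤ τq)
    {zn : ℂ} (hzn : ‖zn‖ ≤ Q ^ 4) {lam : V (N / l) → (V (N / l) → ℝ) → ℂ}
    (hden : Den (B * ahat (sn l t t') B) (ν / M ^ 2) (zn * ((ν / M ^ 2 : ℝ) : ℂ))
      (2 * (ν * Y) + ν / M ^ 2 * τ) (dn (ahat (sn l t t') B) (gm (sn l t t') B) (uc N l b t)))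
    (hlcl : Lcl (B * ahat (sn l t t') B) D1 τ0 (π⁻¹ * ν)
      (dn (ahat (sn l t t') B) (gm (sn l t t') B) (uc N l b t)) lam)
    (hlam : ∀ x F, ‖lam x F‖ ≤ π⁻¹ * ν) :
    VB N (l * ρ) b t' (zn * ((t' * ((l * ρ : ℕ) : ℝ) ^ 2 : ℝ) : ℂ))
      ((16 * M ^ 2 * Y + 40 * (‖zn‖ * h) + 26 * (Q ^ 4 * τ)) * (t' * ((l * ρ : ℕ) : ℝ) ^ 2)) D'
      (τ' * (t' * ((l * ρ : ℕ) : ℝ) ^ 2)) ((ρ : ℝ) ^ 2 * (π⁻¹ * ν))
      (2 * (eE + ef) + 2 * Q ^ 4 * τq) (M ^ 2 * (t' * ((l * ρ : ℕ) : ℝ) ^ 2)) (t * (N : ℝ) ^ 2) := by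
  obtain ⟨h1, ht⟩ := S.t0
  have hl0 := S.l0
  have hν := S.ν0
  have hν' := S.ν'
  have hM := S.hM
  have hMQ := S.hMQ
  have hM0 : 0 < M := by linarith
  have hν'0 : 0 < ν / M ^ 2 := by positivity
  have hQ : 1 ≤ Q := by linarith
  have hπ3 := Real.pi_gt_three
  have hπ0 := Real.pi_pos
  have eν := S.hν
  obtain ⟨c, s₀, n1, n2, n3, n4, n5, n6, n7, n8⟩ := hC.num
  have hρ0 := H708.rho_pos hρ
  have hlρ : l * ρ ∣ N := H340.dvd_lr hl hρ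
  have hKu : (2 * π)⁻¹ * (t * (l : ℝ) ^ 2) ≤ π⁻¹ * ν := by
    rw [← eν, mul_inv]
    have : 0 ≤ π⁻¹ * ν := by positivity
    linarith
  have hnext := VB.nextB (N := N) (ρ := ρ) hb hl hρ S.ht' h1 n1 hC.pA hC.pn n2 n3 n4 n5 hB pB S.hh
    S.hh2 hC.HS1 S.hh S.hh2 hC.HS2 hC.hD' (by rw [hν']; exact hden) (by exact hlcl) hKu hlam hC.eE
    hC.ef
  have hlρ2 := nu_lr S ρ
  have hN2 : (((N / l : ℕ) : ℝ)) ^ 2 * (ν / M ^ 2) = t' * (N : ℝ) ^ 2 := by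
    rw [Nat.cast_div hl hl0.ne', ← hν']
    field_simp
  have nzn : ‖zn * ((ν / M ^ 2 : ℝ) : ℂ)‖ = ‖zn‖ * (ν / M ^ 2) := by
    rw [norm_mul, Complex.norm_real, Real.norm_eq_abs, abs_of_pos hν'0]
  rw [hν'] at n2 n3 n4 n5 n6 n8
  rw [← eν] at n8
  rw [hν', nzn] at hnext
  -- the coefficient
  have hDh : Dom (Ah N l b t t t') (ν / M ^ 2) c := by
    have h9 := dom_Aahat n1 (sn_pos hl S.ht' h1)
    rw [nu_next (N := N) hl S.ht' h1, hν'] at h9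
    exact h9
  have hGC := H708.GC_ge hρ hDh n2
  have hGC1 := H708.GC_le (A := Ah N l b t t t') (ν := ν / M ^ 2) hρ
  have hδz : ‖zn * ((ν / M ^ 2 : ℝ) : ℂ) * (GC ρ (Ah N l b t t t') (ν / M ^ 2) : ℂ)
      - zn * ((t' * ((l * ρ : ℕ) : ℝ) ^ 2 : ℝ) : ℂ)‖ ≤ ‖zn‖ * (ν / M ^ 2) * ((ρ : ℝ) ^ 2 * τ) := by
    rw [hlρ2]
    have e1 : zn * ((ν / M ^ 2 : ℝ) : ℂ) * (GC ρ (Ah N l b t t t') (ν / M ^ 2) : ℂ)
        - zn * ((ν / M ^ 2 * (ρ : ℝ) ^ 2 : ℝ) : ℂ)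
        = zn * ((ν / M ^ 2 : ℝ) : ℂ)
          * ((GC ρ (Ah N l b t t t') (ν / M ^ 2) - (ρ : ℝ) ^ 2 : ℝ) : ℂ) := by
      push_cast
      ring
    rw [e1, norm_mul, nzn, Complex.norm_real, Real.norm_eq_abs, abs_sub_comm,
      abs_of_nonneg (by linarith)]
    refine mul_le_mul_of_nonneg_left ?_ (by positivity)
    have h6 : 2 * π ^ 2 * (32 * (ρ : ℝ) ^ 2 / c * (1 - (ν / M ^ 2)⁻¹ • Ah N l b t t t') 0 0)
        ≤ τ := by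
      refine le_trans ?_ n7
      have hc := hDh.hc
      exact mul_le_mul_of_nonneg_left (mul_le_mul_of_nonneg_left n3 (by positivity))
        (by positivity)
    have h7 := mul_le_mul_of_nonneg_left h6 (sq_nonneg (ρ : ℝ))
    linarith
  have hcoef := SB.coef (H340.nf_acl hb hlρ S.ht' le_rfl) hC.pn hnext hδz
  have hdC := num_dCS (n := N / l) (ρ := ρ) (c := c) (s₀ := s₀) (d1 := ν * Y) (gd := τ) hν hM hMQ
    (by rw [hN2]; exact hC.size) S.hh.le S.hτ (norm_nonneg zn) hzn le_rfl n6 S.hq le_rfl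
  have hlC := num_lCS (n := N / l) (ρ := ρ) (D1 := D1) (c := c) (s₀ := s₀) (τ' := τ') (ηw := τ0)
    hν hM hqq n8
  refine hcoef.mono ?_ le_rfl ?_ le_rfl ?_ ?_ ?_
  · rw [hlρ2]
    refine hdC.trans (le_of_eq ?_)
    rw [mul_div_cancel_left₀ _ hν.ne']
  · rw [hlρ2]
    exact hlC
  · have a1 : (H896.om (wT b N) (mt N t') 1 + (2 * π)⁻¹ * (t * (N : ℝ) ^ 2)) * tq h
        ≤ (2 * Q ^ 4) * τq := by
      have a2 : (2 * π)⁻¹ * (t * (N : ℝ) ^ 2) ≤ 1 * Q ^ 4 := by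
        refine mul_le_mul (inv_le_one_of_one_le₀ (by linarith)) hC.sizeQ (by positivity) zero_le_one
      exact mul_le_mul (by linarith [hC.om]) hqq (tq_nonneg _) (by positivity)
    linarith
  · rw [hlρ2]
    have a4 : 2 * π⁻¹ ≤ 1 := by
      rw [← div_eq_mul_inv, div_le_one hπ0]
      linarith
    have e4 : 2 * (ρ : ℝ) ^ 2 * (π⁻¹ * ν) = (2 * π⁻¹) * (M ^ 2 * (ν / M ^ 2 * (ρ : ℝ) ^ 2)) := by
      field_simp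
    rw [e4]
    have a5 : 0 ≤ M ^ 2 * (ν / M ^ 2 * (ρ : ℝ) ^ 2) := by positivity
    exact mul_le_of_le_one_left a5 a4
  · exact mul_le_of_le_one_left (by positivity) (inv_le_one_of_one_le₀ (by linarith))

/-- **THE STEP OF THE CHARGED SECTOR** in natural units: window on the torus `N1`, state on the torus
`N2`; the coefficient depends on `N1` only -/
theorem VB.stepM (hb : 0 < b) (hl1 : l ∣ N1)
    {ν M Q h τ : ℝ} (S : Sz t t' ν M Q h τ l)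
    {B1 : Matrix (V (N1 / l)) (V (N1 / l)) ℝ} {D : ℕ} {CC γr e e1 Δ : ℝ}
    {z : ℂ} (hz : z ≠ 0) (hzQ : ‖z‖ ≤ Q) {Lp : ℝ}
    (hV : VB N1 l b t (z * (ν : ℂ)) (Δ * ν) D (τ * ν) Lp e (Q ^ 2 * ν) (Q ^ 4)) (he0 : 0 ≤ e)
    (hW : WinIn N1 l b t t' M Q h τ B1 D CC γr e1)
    (hG : GF M (sn l t t') ν B1 ≤ Q ^ 2)
    (hS : M ^ 2 * γr * WX Q h τ ‖z‖ Δ ≤ Q ^ 2) :
    ∃ κ : ℂ, ‖z‖ * ‖κ‖ ≤ M ^ 2 * γr * WX Q h τ ‖z‖ Δ ∧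
      ‖z * ((GF M (sn l t t') ν B1 : ℂ) + κ)‖ ≤ Q ^ 4 ∧
      ∀ (N2 ρ : ℕ) [NeZero N2] [NeZero (N2 / l)] [NeZero (N2 / l / ρ)] [NeZero (N2 / (l * ρ))]
        (_ : l ∣ N2) (_ : ρ ∣ N2 / l) (τ0 τq τ' eE ef : ℝ) (D' R0 D0 D1 R : ℕ)
        (B2 : Matrix (V (N2 / l)) (V (N2 / l)) ℝ), tq h ≤ τq →
        20 * Q ^ 4 * τ0 ≤ ν / M ^ 2 * τ →
        TorIn N1 N2 l b t t' τ0 B1 B2 R0 D0 D1 R →
        CellIn N2 l ρ b t t' M Q h τ τq τ' τ0 B2 D1 D' eE ef →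
        VB N2 (l * ρ) b t'
        (z * ((GF M (sn l t t') ν B1 : ℂ) + κ) * ((t' * ((l * ρ : ℕ) : ℝ) ^ 2 : ℝ) : ℂ))
        ((16 * M ^ 2 * (CC * WX Q h τ ‖z‖ Δ + 7 * (Q ^ 4 * τ) + 2 * e + e1)
          + 40 * (‖z * ((GF M (sn l t t') ν B1 : ℂ) + κ)‖ * h) + 26 * (Q ^ 4 * τ))
          * (t' * ((l * ρ : ℕ) : ℝ) ^ 2)) D'
        (τ' * (t' * ((l * ρ : ℕ) : ℝ) ^ 2)) ((ρ : ℝ) ^ 2 * (π⁻¹ * ν))
        (2 * (eE + ef) + 2 * Q ^ 4 * τq) (M ^ 2 * (t' * ((l * ρ : ℕ) : ℝ) ^ 2))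
        (t * (N2 : ℝ) ^ 2) := by
  obtain ⟨κ, k1, k2, k3⟩ := VB.winN hb hl1 S hz hzQ hV he0 hW hG hS
  refine ⟨κ, k1, k2, ?_⟩
  intro N2 ρ _ _ _ _ hl2 hρ τ0 τq τ' eE ef D' R0 D0 D1 R B2 hqq hτ0 hT hC
  obtain ⟨c, a, r₀, L, r, ρp, hP, -⟩ := hW.par
  obtain ⟨lam, k4, k5, k6⟩ := torN hb hl1 hl2 S hτ0 hP.dom hW.p1 k2 k3 hT
  obtain ⟨c2, hD2⟩ := hT.D2
  exact VB.nextM hb hl2 hρ S hD2 hT.p2 hC hqq k2 k4 k5 k6

end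

end Vale.Agent.P159.H889
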