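import Vale.Agent.P159.H889.VstepM
import Vale.Agent.P159.H889.Vcx

/-!
P159 / H889: THE GENERAL STEP OF THE CHARGED SECTOR in the letters of LIST P_up, from the pieces.
-/

namespace Vale.Agent.P159.H889

open MeasureTheory ProbabilityTheory Finset Matrix
open Vale.Agent.P159.TM.H859 (dirE)
open Vale.Agent.P159.TM.Spec (V)
open Vale.Agent.P159.TM.SpecC (wT)
open Vale.Agent.P159.H37 (gau gau_sum qf)
open Vale.Agent.P159.H145 (mt)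
open Vale.Agent.P159.H363
open Vale.Agent.P159.H864 (TI sym fc mlt cl up yt)
open Vale.Agent.P159.H462 (Dom ahat ti_ahat sym_ahat)
open Vale.Agent.P159.H896 (Ph om WM Ah Acx Pc lf2 tcf)
open Vale.Agent.P159.H340 (tce anw)
open Vale.Agent.P159.H733.Torg (ip pz Two)
open Vale.Agent.P159.H733.Vt (zb lft)
open Vale.Agent.P159.H767 (A3)
open Vale.Agent.P159.H972 (tn Good RNG FL)
open scoped Real

noncomputable section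

/-- the size of the law changes -/
def hS (e : ℝ) : ℝ := e ^ (22 / 25 : ℝ)

/-- the size of the tails of the law changes -/
def tQ (e : ℝ) : ℝ := Real.exp (-(e ^ (-(1 / 2) : ℝ)))

/-- the size of the truncations -/
def tA (n s : ℕ) : ℝ := lam n s ^ (1 / 8 : ℝ)

/-- the size of the errors of the torus change -/
def t0 (n s : ℕ) : ℝ := Real.exp (-(4 * Lg n s))

/-- **the pieces of the step** `n -> m` -/
structure Pcs (P : H972.Par) (b a C1 c1 A1 A' : ℝ) (n m s : ℕ) (e e' y E1 : ℝ) : Prop where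
  win : ∀ (r : ℕ) [NeZero (2 ^ r / 2 ^ s)] [NeZero (2 ^ (top P n e) / 2 ^ s)]
    (h : 2 ^ r / 2 ^ s ∣ 2 ^ (top P n e) / 2 ^ s), P.TT n e r → m + P.kE e' ≤ r →
    ∃ CC γr, WinIn (2 ^ r) (2 ^ s) b (tn n) (tn m) (Mw n m) (QP P e) (hS e) (tA n s)
      (Bq b n s r (top P n e) h) (Dc A1 n s) CC γr E1 ∧
      Mw n m ^ 2 * γr ≤ Mw n m ^ (1 / 10 : ℝ) ∧ Mw n m ^ 2 * CC ≤ Mw n m ^ (-(4 / 5) : ℝ)
  gf : ∀ (r : ℕ) [NeZero (2 ^ r / 2 ^ s)] [NeZero (2 ^ (top P n e) / 2 ^ s)]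
    (h : 2 ^ r / 2 ^ s ∣ 2 ^ (top P n e) / 2 ^ s), P.TT n e r → m + P.kE e' ≤ r →
    |Real.log (GF (Mw n m) (sn (2 ^ s) (tn n) (tn m)) (nu n s) (Bq b n s r (top P n e) h)) -
      (2 - π / a) * ((m : ℝ) - n) * Real.log 2| ≤ e ^ (87 / 100 : ℝ)
  tor : ∀ (r r' : ℕ) [NeZero (2 ^ r / 2 ^ s)] [NeZero (2 ^ r' / 2 ^ s)]
    [NeZero (2 ^ (top P n e) / 2 ^ s)]
    (h : 2 ^ r / 2 ^ s ∣ 2 ^ (top P n e) / 2 ^ s) (h' : 2 ^ r' / 2 ^ s ∣ 2 ^ (top P n e) / 2 ^ s),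
    P.TT n e r → m + P.kE e' ≤ r → P.TT n e r' → m + P.kE e' ≤ r' →
    ∃ R0 D0 D1 R : ℕ, TorIn (2 ^ r) (2 ^ r') (2 ^ s) b (tn n) (tn m) (t0 n s)
      (Bq b n s r (top P n e) h) (Bq b n s r' (top P n e) h') R0 D0 D1 R ∧
      (D1 : ℝ) * lam n s ≤ A' * (Mw n m * Lg n s)
  cell : ∀ (r s' D1 : ℕ) (y' : ℝ) [NeZero (2 ^ r / 2 ^ s)] [NeZero (2 ^ (top P n e) / 2 ^ s)]
    [NeZero (2 ^ r / 2 ^ s / 2 ^ (s' - s))] [NeZero (2 ^ r / (2 ^ s * 2 ^ (s' - s)))]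
    (h : 2 ^ r / 2 ^ s ∣ 2 ^ (top P n e) / 2 ^ s), P.TT n e r → m + P.kE e' ≤ r →
    Cx P b C1 c1 m s' e' y' → e ^ (1 / 100 : ℝ) * y ≤ y' → e ^ (1 / 100 : ℝ) * y' ≤ y → s ≤ s' →
    (D1 : ℝ) * lam n s ≤ A' * (Mw n m * Lg n s) →
    CellIn (2 ^ r) (2 ^ s) (2 ^ (s' - s)) b (tn n) (tn m) (Mw n m) (QP P e) (hS e) (tA n s) (tQ e)
      (tA m s') (t0 n s) (Bq b n s r (top P n e) h) D1 (Dc A1 m s') (y * e ^ (9 / 10 : ℝ))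
      (y * (QP P e ^ 4 * hS e))

/-- **the numbers of the step** -/
structure Nm (P : H972.Par) (n m s : ℕ) (e e' y : ℝ) : Prop where
  M32 : 32 ≤ Mw n m ^ (1 / 20 : ℝ)
  MQ : Mw n m ≤ QP P e
  MQ' : Mw n m ≤ QP P e'
  Q20 : 20 ≤ QP P e
  h2 : hS e ≤ 1 / 2
  tqh : tq (hS e) ≤ tA n s
  tqq : tq (hS e) ≤ tQ e
  Qτ : 300 * (QP P e ^ 6 * tA n s) ≤ (e * y) ^ 2
  Qb : 2 * y * e ^ (9 / 10 : ℝ) + 2 * QP P e ^ 4 * tQ e ≤ y * (QP P e ^ 4 * hS e)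
  τ0 : 20 * QP P e ^ 4 * t0 n s ≤ nu n s / Mw n m ^ 2 * tA n s
  sz : ∀ r, TV P m e' r → tn n * ((2 ^ r : ℕ) : ℝ) ^ 2 ≤ QP P e' ^ 4

lemma VB.castl {N l₁ l₂ : ℕ} [NeZero N] [NeZero (N / l₁)] [NeZero (N / l₂)] (h : l₁ = l₂)
    {b t : ℝ} {z : ℂ} {d : ℝ} {D : ℕ} {η Lp e K K' : ℝ} (hv : VB N l₁ b t z d D η Lp e K K') :
    VB N l₂ b t z d D η Lp e K K' := by
  subst h
  exact hv

lemma nz_pow {r s : ℕ} (h : s ≤ r) : NeZero (2 ^ r / 2 ^ s) :=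
  ⟨(Nat.div_pos (Nat.pow_le_pow_right two_pos h) (by positivity)).ne'⟩

lemma pow_div_dvd {r s r' : ℕ} (h : s ≤ r) (h' : r ≤ r') : 2 ^ r / 2 ^ s ∣ 2 ^ r' / 2 ^ s := by
  rw [Nat.pow_div h two_pos, Nat.pow_div (h.trans h') two_pos]
  exact pow_dvd_pow 2 (by omega)

/-- the deviation, real numbers -/
lemma dev_num {M Q CC Δ E E1 zn zn' h τ x : ℝ} (hM : 1 ≤ M) (hM32 : 32 ≤ M ^ (1 / 20 : ℝ))
    (hMQ : M ≤ Q) (hQ : 20 ≤ Q) (hCC : M ^ 2 * CC ≤ M ^ (-(4 / 5) : ℝ)) (hΔ : 0 ≤ Δ) (hE : 0 ≤ E)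
    (hE1 : 0 ≤ E1) (hz : 0 ≤ zn) (hz' : 0 ≤ zn') (hh : 0 ≤ h) (hτ : 0 ≤ τ)
    (hx : 300 * (Q ^ 6 * τ) ≤ x) :
    16 * M ^ 2 * (CC * WX Q h τ zn Δ + 7 * (Q ^ 4 * τ) + 2 * E + E1) + 40 * (zn' * h)
      + 26 * (Q ^ 4 * τ) ≤ M ^ (-(3 / 4) : ℝ) * Δ + Q ^ 3 * (2 * E + E1) + Q ^ 2 * ((zn + zn') * h)
      + x := by
  have hM0 : 0 < M := by linarith
  have hWX0 : 0 ≤ WX Q h τ zn Δ := by unfold WX; positivity
  have hg0 : 0 ≤ M ^ (-(4 / 5) : ℝ) := Real.rpow_nonneg hM0.le _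
  have hg1 : M ^ (-(4 / 5) : ℝ) ≤ 1 := Real.rpow_le_one_of_one_le_of_nonpos hM (by norm_num)
  have a1 : M ^ 2 * (CC * WX Q h τ zn Δ) ≤ M ^ (-(4 / 5) : ℝ) * WX Q h τ zn Δ := by
    rw [← mul_assoc]
    exact mul_le_mul_of_nonneg_right hCC hWX0
  have a2 : 32 * M ^ (-(4 / 5) : ℝ) ≤ M ^ (-(3 / 4) : ℝ) := by
    have e1 : M ^ (-(3 / 4) : ℝ) = M ^ (1 / 20 : ℝ) * M ^ (-(4 / 5) : ℝ) := by
      rw [← Real.rpow_add hM0]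
      norm_num
    rw [e1]
    exact mul_le_mul_of_nonneg_right hM32 hg0
  have a3 : 32 * M ^ (-(4 / 5) : ℝ) * Δ ≤ M ^ (-(3 / 4) : ℝ) * Δ :=
    mul_le_mul_of_nonneg_right a2 hΔ
  have hM2 : M ^ 2 ≤ Q ^ 2 := pow_le_pow_left₀ hM0.le hMQ 2
  have a4 : 16 * M ^ 2 ≤ Q ^ 3 := by
    calc 16 * M ^ 2 ≤ Q * Q ^ 2 := mul_le_mul (by linarith) hM2 (by positivity) (by linarith)
      _ = Q ^ 3 := by ring
  have a5 : 16 * M ^ 2 * (2 * E + E1) ≤ Q ^ 3 * (2 * E + E1) :=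
    mul_le_mul_of_nonneg_right a4 (by positivity)
  have hzh : 0 ≤ zn * h := by positivity
  have hzh' : 0 ≤ zn' * h := by positivity
  have a6 : 128 * (M ^ (-(4 / 5) : ℝ) * (zn * h)) ≤ 128 * (zn * h) :=
    mul_le_mul_of_nonneg_left (mul_le_of_le_one_left hzh hg1) (by norm_num)
  have hQ2 : 400 ≤ Q ^ 2 := by nlinarith
  have hQ4 : Q ^ 2 ≤ Q ^ 6 := pow_le_pow_right₀ (by linarith) (by norm_num)
  have hQ5 : Q ^ 4 ≤ Q ^ 6 := pow_le_pow_right₀ (by linarith) (by norm_num)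
  have a7 : 16 * M ^ 2 * (7 * (Q ^ 4 * τ)) ≤ 112 * (Q ^ 6 * τ) := by
    have : M ^ 2 * (Q ^ 4 * τ) ≤ Q ^ 2 * (Q ^ 4 * τ) :=
      mul_le_mul_of_nonneg_right hM2 (by positivity)
    have e1 : Q ^ 2 * (Q ^ 4 * τ) = Q ^ 6 * τ := by ring
    rw [e1] at this
    linarith
  have a8 : 16 * (M ^ (-(4 / 5) : ℝ) * (7 * (Q ^ 2 * τ))) ≤ 112 * (Q ^ 6 * τ) := by
    have h1 : M ^ (-(4 / 5) : ℝ) * (7 * (Q ^ 2 * τ)) ≤ 7 * (Q ^ 2 * τ) :=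
      mul_le_of_le_one_left (by positivity) hg1
    have h2 : Q ^ 2 * τ ≤ Q ^ 6 * τ := mul_le_mul_of_nonneg_right hQ4 hτ
    linarith
  have a9 : 26 * (Q ^ 4 * τ) ≤ 26 * (Q ^ 6 * τ) :=
    mul_le_mul_of_nonneg_left (mul_le_mul_of_nonneg_right hQ5 hτ) (by norm_num)
  have a10 : 128 * (zn * h) + 40 * (zn' * h) ≤ Q ^ 2 * ((zn + zn') * h) := by
    have h1 : 400 * ((zn + zn') * h) ≤ Q ^ 2 * ((zn + zn') * h) :=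
      mul_le_mul_of_nonneg_right hQ2 (by positivity)
    have h2 : 400 * ((zn + zn') * h) = 400 * (zn * h) + 400 * (zn' * h) := by ring
    linarith
  have e0 : 0 ≤ Q ^ 6 * τ := by positivity
  have e2 : M ^ (-(4 / 5) : ℝ) * WX Q h τ zn Δ = 2 * (M ^ (-(4 / 5) : ℝ) * Δ)
      + 8 * (M ^ (-(4 / 5) : ℝ) * (zn * h)) + M ^ (-(4 / 5) : ℝ) * (7 * (Q ^ 2 * τ)) := by
    unfold WX
    ring
  have e3 : 16 * M ^ 2 * (CC * WX Q h τ zn Δ + 7 * (Q ^ 4 * τ) + 2 * E + E1)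
      = 16 * (M ^ 2 * (CC * WX Q h τ zn Δ)) + 16 * M ^ 2 * (7 * (Q ^ 4 * τ))
        + 16 * M ^ 2 * (2 * E + E1) := by ring
  rw [e3]
  rw [e2] at a1
  linarith

end

end Vale.Agent.P159.H889
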