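import Vale.Agent.P159.H889.Vstp

/-!
P159 / H889: THE GENERAL STEP OF THE CHARGED SECTOR in the letters of LIST P_up: proof.
-/

namespace Vale.Agent.P159.H889

open MeasureTheory ProbabilityTheory Finset Matrix
open Vale.Agent.P159.TM.Spec (V)
open Vale.Agent.P159.TM.SpecC (wT)
open Vale.Agent.P159.H145 (mt)
open Vale.Agent.P159.H363
open Vale.Agent.P159.H972 (tn Good RNG FL)
open scoped Real

noncomputable section

variable {P : H972.Par} {b a C1 c1 A1 A' : ℝ} {n m s : ℕ} {e e' y E1 : ℝ}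

lemma tA_pos (n s : ℕ) : 0 < tA n s := Real.rpow_pos_of_pos (lam_pos n s) _

lemma Mw_log (n m : ℕ) : Real.log (Mw n m) = ((m : ℝ) - n) * Real.log 2 := by
  unfold Mw
  rw [Real.log_div (by positivity) (by positivity), Real.log_pow, Real.log_pow]
  ring

lemma Nm.M1 (hN : Nm P n m s e e' y) : 1 < Mw n m := by
  by_contra hc
  have h1 : Mw n m ^ (1 / 20 : ℝ) ≤ 1 :=
    Real.rpow_le_one (Mw_pos n m).le (not_lt.1 hc) (by norm_num)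
  linarith [hN.M32]

lemma Nm.M2 (hN : Nm P n m s e e' y) : 2 ≤ Mw n m := by
  have h1 := hN.M1
  have h2 : Mw n m ^ (1 / 20 : ℝ) ≤ Mw n m ^ (1 : ℝ) :=
    Real.rpow_le_rpow_of_exponent_le h1.le (by norm_num)
  rw [Real.rpow_one] at h2
  linarith [hN.M32]

lemma Cx.sz (hC : Cx P b C1 c1 n s e y) (hC1 : 0 < C1) (hN : Nm P n m s e e' y) :
    Sz (tn n) (tn m) (nu n s) (Mw n m) (QP P e) (hS e) (tA n s) (2 ^ s) where
  ht' := H972.tn_pos m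
  hM := hN.M2
  hMQ := hN.MQ
  hMt := tn_mul n m
  hν := rfl
  hl := by positivity
  hν1 := by
    rw [nu_eq]
    exact pow_le_one₀ (lam_pos n s).le (hC.lam1 hC1).le
  hh := Real.rpow_pos_of_pos hC.e0 _
  hh2 := hN.h2
  hτ := (tA_pos n s).le
  hq := hN.tqh

/-- bound of the exponent of the window -/
lemma Gexp_le (ha : 1 ≤ a) (ha2 : a ≤ 8 / 5) : 2 - π / a ≤ 1 / 20 := by
  have hpi := Real.pi_gt_d2
  have h1 : 195 / 100 ≤ π / a := by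
    rw [le_div_iff₀ (by linarith)]
    linarith
  linarith

lemma G0_le (ha : 1 ≤ a) (ha2 : a ≤ 8 / 5) (hM : 1 ≤ Mw n m) :
    Real.exp ((2 - π / a) * ((m : ℝ) - n) * Real.log 2) ≤ Mw n m ^ (1 / 20 : ℝ) := by
  rw [Real.rpow_def_of_pos (Mw_pos n m), Mw_log]
  refine Real.exp_le_exp.2 ?_
  have h1 := Gexp_le ha ha2
  have h2 : 0 ≤ ((m : ℝ) - n) * Real.log 2 := by
    rw [← Mw_log]
    exact Real.log_nonneg hM
  have := mul_le_mul_of_nonneg_right h1 h2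
  linarith

/-- the new coefficient -/
lemma coef_num {ζ κ : ℂ} {G g0 W e1 : ℝ} (hG : 0 < G) (hg : |Real.log G - g0| ≤ e1)
    (he1 : e1 ≤ 1) (hκ : ‖ζ‖ * ‖κ‖ ≤ W) :
    ‖ζ * ((G : ℂ) + κ) - ζ * ((Real.exp g0 : ℝ) : ℂ)‖ ≤ W + 2 * ‖ζ‖ * Real.exp g0 * e1 := by
  have h0 : 0 ≤ e1 := (abs_nonneg _).trans hg
  have h1 : |G - Real.exp g0| ≤ Real.exp g0 * (2 * e1) := by
    have e2 : G = Real.exp g0 * Real.exp (Real.log G - g0) := by
      rw [← Real.exp_add, add_sub_cancel, Real.exp_log hG]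
    have e3 : G - Real.exp g0 = Real.exp g0 * (Real.exp (Real.log G - g0) - 1) := by
      rw [mul_sub, ← e2, mul_one]
    rw [e3, abs_mul, abs_of_pos (Real.exp_pos _)]
    refine mul_le_mul_of_nonneg_left ?_ (Real.exp_pos _).le
    exact (Real.abs_exp_sub_one_le (hg.trans he1)).trans (by linarith)
  have e1' : ζ * ((G : ℂ) + κ) - ζ * ((Real.exp g0 : ℝ) : ℂ)
      = ζ * κ + ζ * ((G - Real.exp g0 : ℝ) : ℂ) := by
    push_cast
    ring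
  rw [e1']
  refine (norm_add_le _ _).trans (add_le_add (by rwa [norm_mul]) ?_)
  rw [norm_mul, Complex.norm_real, Real.norm_eq_abs]
  calc ‖ζ‖ * |G - Real.exp g0| ≤ ‖ζ‖ * (Real.exp g0 * (2 * e1)) :=
        mul_le_mul_of_nonneg_left h1 (norm_nonneg _)
    _ = _ := by ring

/-- the state on one torus `2 ^ r` -/
def SV1 (P : H972.Par) (b A1 : ℝ) (n s : ℕ) (e : ℝ) (r : ℕ) (ζ : ℂ) (Δ E : ℝ) : Prop :=
  ∀ [NeZero (2 ^ r / 2 ^ s)], ∃ Lp : ℝ,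
    VB (2 ^ r) (2 ^ s) b (tn n) (ζ * (nu n s : ℂ)) (Δ * nu n s) (Dc A1 n s)
      (lam n s ^ (1 / 8 : ℝ) * nu n s) Lp E (QP P e ^ 2 * nu n s) (QP P e ^ 4)

/-- **THE GENERAL STEP OF THE CHARGED SECTOR**, the old state is used on ONE torus only -/
theorem step_core1 (hb : 0 < b) (hC1 : 0 < C1) (hC : Cx P b C1 c1 n s e y)
    (hN : Nm P n m s e e' y) (hP : Pcs P b a C1 c1 A1 A' n m s e e' y E1)
    (ha : 1 ≤ a) (ha2 : a ≤ 8 / 5)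
    (hnm : n ≤ m) (htt : ∀ r, TV P m e' r → P.TT n e r)
    (htt1 : P.TT n e (m + P.kE e'))
    {ζ : ℂ} {Δ E : ℝ} (hζ : ζ ≠ 0) (hζ1 : ‖ζ‖ ≤ 1) (hΔ2 : Δ ≤ 2) (hE : 0 ≤ E)
    (hSV : SV1 P b A1 n s e (m + P.kE e') ζ Δ E) :
    ∃ ζ' : ℂ, ‖ζ' - ζ * ((Real.exp ((2 - π / a) * ((m : ℝ) - n) * Real.log 2) : ℝ) : ℂ)‖
        ≤ Mw n m ^ (1 / 10 : ℝ) * WX (QP P e) (hS e) (tA n s) ‖ζ‖ Δ
          + 2 * ‖ζ‖ * Real.exp ((2 - π / a) * ((m : ℝ) - n) * Real.log 2) * e ^ (87 / 100 : ℝ) ∧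
      ∀ (s' : ℕ) (y' : ℝ), Cx P b C1 c1 m s' e' y' → e ^ (1 / 100 : ℝ) * y ≤ y' →
        e ^ (1 / 100 : ℝ) * y' ≤ y → s ≤ s' →
        SV P b A1 m s' e' ζ' (Mw n m ^ (-(3 / 4) : ℝ) * Δ + QP P e ^ 3 * (2 * E + E1)
          + QP P e ^ 2 * ((‖ζ‖ + ‖ζ'‖) * hS e) + (e * y) ^ 2) (y * (QP P e ^ 5 * hS e)) := by
  have hsn := hC.sn hC1
  have hM2 := hN.M2
  have hMQ := hN.MQ
  have hQ20 := hN.Q20
  have hM0 : 0 < Mw n m := Mw_pos n m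
  have hQ0 : 0 < QP P e := by linarith
  have hs1 : s ≤ m + P.kE e' := by omega
  have htop1 : m + P.kE e' ≤ top P n e := htt1.2
  have := nz_pow hs1
  have : NeZero (2 ^ (top P n e) / 2 ^ s) := nz_pow (hs1.trans htop1)
  have h1 := pow_div_dvd hs1 htop1
  obtain ⟨CC, γr, hW, g1, g2⟩ := hP.win (m + P.kE e') h1 htt1 le_rfl
  obtain ⟨Lp, hV⟩ := hSV
  have S := hC.sz hC1 hN
  have hgf := hP.gf (m + P.kE e') h1 htt1 le_rfl
  have he1 : e ^ (87 / 100 : ℝ) ≤ 1 :=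
    Real.rpow_le_one hC.e0.le (by linarith [hC.e1]) (by norm_num)
  have hG0 := G0_le (n := n) (m := m) ha ha2 (by linarith)
  have hGp : 0 < GF (Mw n m) (sn (2 ^ s) (tn n) (tn m)) (nu n s)
    (Bq b n s (m + P.kE e') (top P n e) h1) := GF_pos hM0 _
  have hMt : ∀ c : ℝ, c ≤ 1 → Mw n m ^ c ≤ QP P e := by
    intro c hc
    refine le_trans ?_ hMQ
    calc Mw n m ^ c ≤ Mw n m ^ (1 : ℝ) := Real.rpow_le_rpow_of_exponent_le (by linarith) hc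
      _ = _ := Real.rpow_one _
  have hG : GF (Mw n m) (sn (2 ^ s) (tn n) (tn m)) (nu n s)
      (Bq b n s (m + P.kE e') (top P n e) h1) ≤ QP P e ^ 2 := by
    rw [← Real.exp_log hGp]
    have h2 := (abs_le.1 hgf).2
    have h3 : Real.log (GF (Mw n m) (sn (2 ^ s) (tn n) (tn m)) (nu n s)
        (Bq b n s (m + P.kE e') (top P n e) h1)) ≤
        1 + (2 - π / a) * ((m : ℝ) - n) * Real.log 2 := by linarith
    refine (Real.exp_le_exp.2 h3).trans ?_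
    rw [Real.exp_add]
    have h4 : Real.exp 1 ≤ 3 := by linarith [Real.exp_one_lt_d9]
    have h5 := hMt (1 / 20) (by norm_num)
    calc Real.exp 1 * Real.exp ((2 - π / a) * ((m : ℝ) - n) * Real.log 2)
        ≤ QP P e * QP P e := mul_le_mul (by linarith) (hG0.trans h5) (Real.exp_pos _).le hQ0.le
      _ = _ := by ring
  have hτ0 := (tA_pos n s).le
  have hh0 : 0 < hS e := Real.rpow_pos_of_pos hC.e0 _
  have hx0 := hC.x0
  have hx1 : (e * y) ^ 2 ≤ 1 := pow_le_one₀ hx0.le (by linarith [hC.xle, hC.e1])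
  have hQτ := hN.Qτ
  have hWX : WX (QP P e) (hS e) (tA n s) ‖ζ‖ Δ ≤ 9 := by
    unfold WX
    have b1 : ‖ζ‖ * hS e ≤ 1 * (1 / 2) := mul_le_mul hζ1 hN.h2 hh0.le zero_le_one
    have b2 : QP P e ^ 2 * tA n s ≤ QP P e ^ 6 * tA n s :=
      mul_le_mul_of_nonneg_right (pow_le_pow_right₀ (by linarith) (by norm_num)) hτ0
    linarith
  have hΔ0 : 0 ≤ Δ := by
    obtain ⟨Ψ, ψ, lm, -, -, hden, -⟩ := hV.ex
    exact nonneg_of_mul_nonneg_left ((tn2_nonneg _ _).trans (hden.dev 0)) (nu_pos n s)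
  have hWX0 : 0 ≤ WX (QP P e) (hS e) (tA n s) ‖ζ‖ Δ := by
    unfold WX
    have := norm_nonneg ζ
    positivity
  have hκS : Mw n m ^ 2 * γr * WX (QP P e) (hS e) (tA n s) ‖ζ‖ Δ ≤
      Mw n m ^ (1 / 10 : ℝ) * WX (QP P e) (hS e) (tA n s) ‖ζ‖ Δ :=
    mul_le_mul_of_nonneg_right g1 hWX0
  have hS2 : Mw n m ^ 2 * γr * WX (QP P e) (hS e) (tA n s) ‖ζ‖ Δ ≤ QP P e ^ 2 := by
    refine hκS.trans ?_
    calc Mw n m ^ (1 / 10 : ℝ) * WX (QP P e) (hS e) (tA n s) ‖ζ‖ Δ ≤ QP P e * QP P e :=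
          mul_le_mul (hMt _ (by norm_num)) (hWX.trans (by linarith)) hWX0 hQ0.le
      _ = _ := by ring
  obtain ⟨κ, k1, k2, k3⟩ := VB.stepM hb (pow_dvd_pow 2 hs1) S hζ (hζ1.trans (by linarith))
    hV hE hW hG hS2
  refine ⟨ζ * ((GF (Mw n m) (sn (2 ^ s) (tn n) (tn m)) (nu n s)
    (Bq b n s (m + P.kE e') (top P n e) h1) : ℂ) + κ), ?_, ?_⟩
  · exact coef_num hGp hgf he1 (k1.trans hκS)
  · intro s' y' hC' hy hy2 hss r2 hr2 _
    have hs'm := hC'.sn hC1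
    have hmr : m + P.kE e' ≤ r2 := hr2.1
    have htt2 := htt r2 hr2
    have := nz_pow (show s ≤ r2 by omega)
    have e2 : 2 ^ s * 2 ^ (s' - s) = 2 ^ s' := by rw [← pow_add, Nat.add_sub_cancel' hss]
    have : NeZero (2 ^ r2 / (2 ^ s * 2 ^ (s' - s))) := by
      rw [e2]
      exact nz_pow (by omega)
    have : NeZero (2 ^ r2 / 2 ^ s / 2 ^ (s' - s)) := by
      rw [Nat.div_div_eq_div_mul]
      infer_instance
    have h2 := pow_div_dvd (show s ≤ r2 by omega) (htt2.2 : r2 ≤ top P n e)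
    have hρ : 2 ^ (s' - s) ∣ 2 ^ r2 / 2 ^ s := by
      rw [Nat.pow_div (by omega) two_pos]
      exact pow_dvd_pow 2 (by omega)
    obtain ⟨R0, D0, D1, R, hT, hD1⟩ := hP.tor (m + P.kE e') r2 h1 h2 htt1 le_rfl htt2 hmr
    have hCe := hP.cell r2 s' D1 y' h2 htt2 hmr hC' hy hy2 hss hD1
    have k4 := k3 (2 ^ r2) (2 ^ (s' - s)) (pow_dvd_pow 2 (by omega)) hρ (t0 n s) (tQ e) (tA m s')
      (y * e ^ (9 / 10 : ℝ)) (y * (QP P e ^ 4 * hS e)) (Dc A1 m s') R0 D0 D1 R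
      (Bq b n s r2 (top P n e) h2) hN.tqq hN.τ0 hT hCe
    have k5 := VB.castl e2 k4
    rw [e2] at k5
    have hνp := (nu_pos m s').le
    refine ⟨_, SB.mono k5 ?_ le_rfl le_rfl le_rfl ?_ ?_ ?_⟩
    · refine mul_le_mul_of_nonneg_right ?_ hνp
      exact dev_num (by linarith) hN.M32 hMQ hQ20 g2 hΔ0 hE hW.e10 (norm_nonneg _)
        (norm_nonneg _) hh0.le hτ0 hQτ
    · have b1 := hN.Qb
      have b3 : 3 * (QP P e ^ 4 * hS e) ≤ QP P e ^ 5 * hS e := by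
        have : 3 * (QP P e ^ 4 * hS e) ≤ QP P e * (QP P e ^ 4 * hS e) :=
          mul_le_mul_of_nonneg_right (by linarith) (by positivity)
        calc _ ≤ _ := this
          _ = _ := by ring
      have b4 := mul_le_mul_of_nonneg_left b3 hC.y0.le
      linarith
    · exact mul_le_mul_of_nonneg_right (pow_le_pow_left₀ hM0.le hN.MQ' 2) hνp
    · exact hN.sz r2 hr2

/-- **THE GENERAL STEP OF THE CHARGED SECTOR** -/
theorem step_core (hb : 0 < b) (hC1 : 0 < C1) (hC : Cx P b C1 c1 n s e y)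
    (hN : Nm P n m s e e' y) (hP : Pcs P b a C1 c1 A1 A' n m s e e' y E1)
    (ha : 1 ≤ a) (ha2 : a ≤ 8 / 5)
    (hnm : n ≤ m) (htv : TV P n e (m + P.kE e')) (htt : ∀ r, TV P m e' r → P.TT n e r)
    (htt1 : P.TT n e (m + P.kE e'))
    {ζ : ℂ} {Δ E : ℝ} (hζ : ζ ≠ 0) (hζ1 : ‖ζ‖ ≤ 1) (hΔ2 : Δ ≤ 2) (hE : 0 ≤ E)
    (hSV : SV P b A1 n s e ζ Δ E) :
    ∃ ζ' : ℂ, ‖ζ' - ζ * ((Real.exp ((2 - π / a) * ((m : ℝ) - n) * Real.log 2) : ℝ) : ℂ)‖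
        ≤ Mw n m ^ (1 / 10 : ℝ) * WX (QP P e) (hS e) (tA n s) ‖ζ‖ Δ
          + 2 * ‖ζ‖ * Real.exp ((2 - π / a) * ((m : ℝ) - n) * Real.log 2) * e ^ (87 / 100 : ℝ) ∧
      ∀ (s' : ℕ) (y' : ℝ), Cx P b C1 c1 m s' e' y' → e ^ (1 / 100 : ℝ) * y ≤ y' →
        e ^ (1 / 100 : ℝ) * y' ≤ y → s ≤ s' →
        SV P b A1 m s' e' ζ' (Mw n m ^ (-(3 / 4) : ℝ) * Δ + QP P e ^ 3 * (2 * E + E1)
          + QP P e ^ 2 * ((‖ζ‖ + ‖ζ'‖) * hS e) + (e * y) ^ 2) (y * (QP P e ^ 5 * hS e)) :=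
  step_core1 hb hC1 hC hN hP ha ha2 hnm htt htt1 hζ hζ1 hΔ2 hE (hSV _ htv)

end

end Vale.Agent.P159.H889
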