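import Vale.Agent.P159.H889.Vb
import Vale.Agent.P159.H733.Vt5

/-!
P159 / H889: THE STEP OF THE CHARGED SECTOR ON TWO TORI with reference laws `B₁`, `B₂`
(periodizations of one form): window on the torus `N₁` in the law `B₁`, transfer to the torus `N₂`,
change of law `B₂ → acl`, change of cells, change of law to the next level.

* `VB.tor` : (L) + (W) + (T);
* `VB.nextB` : (L) + (C) + (L) + (E).
-/

namespace Vale.Agent.P159.H889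

open MeasureTheory ProbabilityTheory Finset Matrix
open Vale.Agent.P159.TM.Spec (V)
open Vale.Agent.P159.TM.SpecC (wT)
open Vale.Agent.P159.H37 (gau gau_sum qf)
open Vale.Agent.P159.H145 (mt)
open Vale.Agent.P159.H363
open Vale.Agent.P159.H864 (TI sym fc mlt cl up)
open Vale.Agent.P159.H462 (Dom ahat ti_ahat sym_ahat)
open Vale.Agent.P159.H708 (lfM avM m2 Ac Bm Sg)
open Vale.Agent.P159.H963 (CG GC vC)
open Vale.Agent.P159.H896 (Ph om WM Ah Acx Pc lf2 tcf)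
open Vale.Agent.P159.H340 (tce anw)
open Vale.Agent.P159.H733.Torg (ip)
open Vale.Agent.P159.H733.Vt (zb lft)
open scoped Real

noncomputable section

/-! ### sup bounds on the coarse cells -/

section col

variable {n ρ : ℕ} [NeZero n] [NeZero (n / ρ)]

lemma m2_col {A' : Matrix (V n) (V n) ℝ} {ν c s : ℝ} (hρ : ρ ∣ n) (h' : Dom A' ν c)
    (hδ : 16 * (ρ : ℝ) ^ 2 * ν / c ≤ 1 / 2) (hs : (1 - ν⁻¹ • A') 0 0 ≤ s)
    (hs2 : 2 * n * √(16 * (ρ : ℝ) ^ 2 * ν / c * s) ≤ 1) (X : V (n / ρ)) :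
    ∑ x, |m2 ρ A' x X| ≤ 2 * (ρ : ℝ) ^ 2 := by
  have hδ0 := H708.delta_nonneg h' ρ
  have h1 : ∀ x, |m2 ρ A' x X| ≤ |lfM n ρ x X| + |(m2 ρ A' - lfM n ρ) x X| := by
    intro x
    rw [Matrix.sub_apply]
    have := abs_add_le (lfM n ρ x X) (m2 ρ A' x X - lfM n ρ x X)
    rw [add_sub_cancel] at this
    exact this
  refine (Finset.sum_le_sum fun x _ => h1 x).trans ?_
  rw [Finset.sum_add_distrib]
  have h2 : ∑ x, |lfM n ρ x X| = (ρ : ℝ) ^ 2 := by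
    have h3 : ∀ x, |lfM n ρ x X| = if (cl x : V (n / ρ)) = X then 1 else 0 := by
      intro x
      rw [H708.lf_apply hρ]
      split_ifs <;> simp
    simp only [h3]
    rw [← Finset.sum_filter, Finset.sum_const, nsmul_eq_mul, mul_one]
    exact H864.card_cell hρ X
  have h4 := H708.r_col_abs hρ h' hδ X
  have h5 : (ρ : ℝ) ^ 2 * (2 * n * √(16 * (ρ : ℝ) ^ 2 * ν / c * (1 - ν⁻¹ • A') 0 0))
      ≤ (ρ : ℝ) ^ 2 * 1 := by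
    refine mul_le_mul_of_nonneg_left (le_trans ?_ hs2) (by positivity)
    exact mul_le_mul_of_nonneg_left
      (Real.sqrt_le_sqrt (mul_le_mul_of_nonneg_left hs hδ0)) (by positivity)
  rw [h2]
  linarith

lemma norm_lamc_le (hρ : ρ ∣ n) {A' : Matrix (V n) (V n) ℝ} {lam : V n → (V n → ℝ) → ℂ} {K : ℝ}
    (hKl : ∀ x F, ‖lam x F‖ ≤ K) (X : V (n / ρ)) (F : V (n / ρ) → ℝ) :
    ‖lamc ρ A' lam X F‖ ≤ (ρ : ℝ) ^ 2 * K := by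
  unfold lamc
  refine (norm_sum_le _ _).trans ?_
  have h1 := Finset.sum_le_card_nsmul (univ.filter fun x : V n => (cl x : V (n / ρ)) = X)
    (fun x => ‖Pg (lfM n ρ) (Bm ρ A') (lam x) F‖) K fun x _ => norm_Pg_le (hKl x) F
  refine h1.trans (le_of_eq ?_)
  rw [nsmul_eq_mul, H864.card_cell hρ X]

end col

/-- a change of the form survives the window -/
theorem rel_win {n : ℕ} [NeZero n] {A B : Matrix (V n) (V n) ℝ} {ν c ν' c' s : ℝ}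
    (hA : Dom A ν c) (hB : Dom B ν' c') (hs : 0 < s) :
    ∑ k, rel (A * ahat s A) (B * ahat s B) k ^ 2 ≤ ∑ k, rel A B k ^ 2 := by
  refine Finset.sum_le_sum fun k _ => ?_
  by_cases hk : k = 0
  · rw [hk, rel_zero, rel_zero]
  · have ha := Nf.pos (Nf.of_dom hA) k hk
    have hb := Nf.pos (Nf.of_dom hB) k hk
    rw [rel_ne hk, rel_ne hk, H864.sym_mul hA.ti (ti_ahat s A), H864.sym_mul hB.ti (ti_ahat s B),
      sym_ahat, sym_ahat]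
    have e : sym A k * (1 + s * sym A k)⁻¹ / (sym B k * (1 + s * sym B k)⁻¹) - 1
        = (sym A k / sym B k - 1) * (1 + s * sym A k)⁻¹ := by
      have h1 : 0 < 1 + s * sym A k := by positivity
      have h2 : 0 < 1 + s * sym B k := by positivity
      field_simp
      ring
    rw [e, mul_pow]
    refine mul_le_of_le_one_right (sq_nonneg _) ?_
    have h1 : (1 + s * sym A k)⁻¹ ≤ 1 := inv_le_one_of_one_le₀ (by nlinarith)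
    have h0 : 0 ≤ (1 + s * sym A k)⁻¹ := by positivity
    exact pow_le_one₀ h0 h1

/-! ### (L) + (W) + (T) -/

section tor

variable {N1 N2 l : ℕ} [NeZero N1] [NeZero N2] [NeZero (N1 / l)] [NeZero (N2 / l)] {b t t' : ℝ}

/-- deviation after the change of law -/
def dB (n : ℕ) (ν ηb nz K d : ℝ) : ℝ :=
  2 * d + (K + nz) * tq ηb + nz * qe ((n : ℝ) ^ 2 * ν) ηb

/-- **(L) + (W) + (T)**: from the state on the torus `N1` to the densities after the window on the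
torus `N2` -/
theorem VB.tor (hb : 0 < b) (hl1 : l ∣ N1) (hl2 : l ∣ N2) (ht' : 0 < t') (h1 : t' < t)
    {B1 : Matrix (V (N1 / l)) (V (N1 / l)) ℝ} {B2 : Matrix (V (N2 / l)) (V (N2 / l)) ℝ}
    {c c2 a : ℝ} {D : ℕ} {r₀ L r γr ρp : ℝ}
    (hP : Par (N1 / l) B1 (t * (l : ℝ) ^ 2) c (sn l t t') a D r₀ L r γr ρp)
    (hD2 : Dom B2 (t * (l : ℝ) ^ 2) c2)
    (p1 : ∀ x y, 0 ≤ (1 - (t * (l : ℝ) ^ 2)⁻¹ • B1) x y)
    (p2 : ∀ x y, 0 ≤ (1 - (t * (l : ℝ) ^ 2)⁻¹ • B2) x y)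
    (nfA : Nf (acl N1 l b t t)) (pA : ∀ x y, 0 ≤ (1 - (t * (l : ℝ) ^ 2)⁻¹ • acl N1 l b t t) x y)
    {ηb : ℝ} (hηb : 0 < ηb) (hηb2 : ηb ≤ 1 / 2)
    (HSb : ∑ k, rel (acl N1 l b t t) B1 k ^ 2 ≤ ηb ^ 2)
    {z : ℂ} (hz : z ≠ 0) {d η Lp e e1 ηm K K' : ℝ} (hV : VB N1 l b t z d D η Lp e K K')
    (hm : ∀ x, tn2 B1 (fun F => mainf (1 - (t * (l : ℝ) ^ 2)⁻¹ • B1) x F
      - mainf (1 - (t * (l : ℝ) ^ 2)⁻¹ • B1) x (cutx D x F)) ≤ ηm)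
    (he1 : ∀ F, ‖Ph (wT b N1) (mt N1 t) 1 (lf N1 l F) - Wc N1 l b t F‖ ≤ e1)
    {R0 D0 D1 R : ℕ} (hDD : R0 + D0 + R ≤ D1) (hN1 : 4 * D1 < N1 / l) (hN2 : 4 * D1 < N2 / l)
    {ee eK ηn η' κ Km Lp1 η1 r2 : ℝ}
    (he : ∀ ζ ∈ zb (2 * D1), |ahat (sn l t t') B2 0 (ip (N2 / l) ζ)
      - ahat (sn l t t') B1 0 (ip (N1 / l) ζ)| ≤ ee)
    (hK : ∀ ζ ∈ zb (2 * D1), |((pin B2 * (pin B2)ᵀ) 0 (ip (N2 / l) ζ) - (pin B2 * (pin B2)ᵀ) 0 0)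
      - ((pin B1 * (pin B1)ᵀ) 0 (ip (N1 / l) ζ) - (pin B1 * (pin B1)ᵀ) 0 0)| ≤ eK)
    (hη2 : ηn ≤ 1 / 2) (hηe : (1 + sn l t t' * (t * (l : ℝ) ^ 2)) * (2 * D0 + 1) ^ 2 * ee ≤ ηn)
    (hη' : 0 < η') (hη'2 : η' ≤ 1 / 2) (hκ : 1 ≤ κ)
    (hη'e : 3 * (t' * (l : ℝ) ^ 2) * (2 * D1 + 1) ^ 2 * eK ≤ η')
    {mu : V (N1 / l) → (V (N1 / l) → ℝ) → ℂ} (hmu : Lcl B1 D0 η1 Lp1 (uc N1 l b t) mu)
    (hKm : ∀ x F, ‖mu x F‖ ≤ Km) (hS : Lcl B2 D0 r2 Lp1 (uc N2 l b t) (lft D0 mu)) :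
    ∃ κz : ℂ, ‖z‖ * ‖κz‖ ≤ γr * (dB (N1 / l) (t * (l : ℝ) ^ 2) ηb ‖z‖ K d
        + ((2 * η + 2 * K * tq ηb) + ‖z‖ * ηm)) ∧
      Den (B2 * ahat (sn l t t') B2) (t' * (l : ℝ) ^ 2)
        (z * ((Real.exp (-(2 * π ^ 2 * H363.vv (sn l t t') (t * (l : ℝ) ^ 2) B1)) : ℝ) + κz))
        (H733.Vt.dT (t' * (l : ℝ) ^ 2) (B1 * ahat (sn l t t') B1) (B2 * ahat (sn l t t') B2) R0 D1 κ
          η' ‖z * ((Real.exp (-(2 * π ^ 2 * H363.vv (sn l t t') (t * (l : ℝ) ^ 2) B1)) : ℝ) + κz)‖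
          (Km + ‖z * ((Real.exp (-(2 * π ^ 2 * H363.vv (sn l t t') (t * (l : ℝ) ^ 2) B1)) : ℝ)
            + κz)‖)
          (γr * (π * ρp + 2 / (sn l t t' * (t * (l : ℝ) ^ 2)))
              * (dB (N1 / l) (t * (l : ℝ) ^ 2) ηb ‖z‖ K d
                + ((2 * η + 2 * K * tq ηb) + ‖z‖ * ηm))
            + ((2 * η + 2 * K * tq ηb) + ‖z‖ * ηm)
            + (2 * π)⁻¹ * (√(sn l t t' * ((N1 / l : ℕ) : ℝ) ^ 2))⁻¹
              * ((2 * e + (om (wT b N1) (mt N1 t) 1 + K') * tq ηb) + e1))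
          (lW (N1 / l) B1 (sn l t t') R0 D0 R η1 ((2 * π)⁻¹ * (t * (l : ℝ) ^ 2)) Lp1)
          (H733.Vt.rT (sn l t t') B2 R0 D0 D1 R ((2 * π)⁻¹ * (t * (l : ℝ) ^ 2)) Km Lp1 r2 ee ηn)
          ((1 + (sn l t t' * (t * (l : ℝ) ^ 2))⁻¹) * ee))
        (dn (ahat (sn l t t') B2) (gm (sn l t t') B2) (uc N2 l b t)) ∧
      Lcl (B2 * ahat (sn l t t') B2) D1
        (H733.Vt.rT (sn l t t') B2 R0 D0 D1 R ((2 * π)⁻¹ * (t * (l : ℝ) ^ 2)) Km Lp1 r2 ee ηn) Lp1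
        (dn (ahat (sn l t t') B2) (gm (sn l t t') B2) (uc N2 l b t))
        (lft D1 (lamw (sn l t t') B1 R0 D1 mu)) := by
  have ht : 0 < t := ht'.trans h1
  have hs0 := sn_pos hl1 ht' h1
  have hl0 : (0 : ℝ) < l := by exact_mod_cast H864.l_pos hl1
  have hνn := nu_next (N := N1) (l := l) hl1 ht' h1
  have hdom1 := hP.dom
  have hν := hdom1.hν
  have nfB := Nf.of_dom hdom1
  have hwm := wm_mt (N := N1) hb.le ht
  have o2 := H733.Vt.off_of_nn hν p2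
  -- change of law on the first torus
  have hV1 := SB.law4 nfA nfB hν hηb hηb2 pA p1 hdom1.le HSb (measurable_PhF hb.le ht)
    (KΦ := om (wT b N1) (mt N1 t) 1) (fun F => H896.norm_Ph_le hwm 1 _) hV
  -- the window
  obtain ⟨κz, h2, h3⟩ := hV1.win hP (measurable_PhF hb.le ht)
    (KΦ := om (wT b N1) (mt N1 t) 1) (fun F => H896.norm_Ph_le hwm 1 _)
    (dif_Wc hb.le ht hl1) (ch_Wc hb.le ht) (cov_uc hb.le ht hl1) (fun x => ch_uc hb.le ht x) hz hm he1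
  rw [hνn] at h3
  have hKu1 : ∀ x F, ‖uc N1 l b t x F‖ ≤ (2 * π)⁻¹ * (t * (l : ℝ) ^ 2) :=
    fun x F => norm_uc_le hb.le ht hl1 x F
  have hKu2 : ∀ x F, ‖uc N2 l b t x F‖ ≤ (2 * π)⁻¹ * (t * (l : ℝ) ^ 2) :=
    fun x F => norm_uc_le hb.le ht hl2 x F
  have hL1 := lcl_window hdom1 hs0 hP.off hDD
    (fun x => (continuous_uc hb.le ht x).measurable) hKu1 (fun x => ch_uc hb.le ht x) hmu
  -- the other torus
  have hT := H733.Vt.den_win_tor hdom1 hD2 hs0 hP.off o2 p1 p2 hDD hN1 hN2 he hK hη2 hηe hη' hη'2 hκ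
    (by rw [hνn]; exact hη'e)
    (z := z * ((Real.exp (-(2 * π ^ 2 * H363.vv (sn l t t') (t * (l : ℝ) ^ 2) B1)) : ℝ) + κz))
    (H733.Vt.Lcl.self hmu) hKm (by rw [hνn]; exact h3) hL1
    (u2 := uc N2 l b t) (fun x => (continuous_uc hb.le ht x).measurable) hKu2
    (fun x => ch_uc hb.le ht x) (cov_uc hb.le ht hl2) hS
  rw [hνn] at hT
  exact ⟨κz, h2, hT.1, hT.2⟩

end tor

section tor2

variable {N1 N2 l : ℕ} [NeZero N1] [NeZero N2] [NeZero (N1 / l)] [NeZero (N2 / l)] {b t t' : ℝ}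

/-- **(L) + (W)** on the torus `N1` in the law `B1` -/
theorem VB.winB (hb : 0 < b) (hl1 : l ∣ N1) (ht' : 0 < t') (h1 : t' < t)
    {B1 : Matrix (V (N1 / l)) (V (N1 / l)) ℝ} {c a : ℝ} {D : ℕ} {r₀ L r γr ρp : ℝ}
    (hP : Par (N1 / l) B1 (t * (l : ℝ) ^ 2) c (sn l t t') a D r₀ L r γr ρp)
    (p1 : ∀ x y, 0 ≤ (1 - (t * (l : ℝ) ^ 2)⁻¹ • B1) x y)
    (nfA : Nf (acl N1 l b t t)) (pA : ∀ x y, 0 ≤ (1 - (t * (l : ℝ) ^ 2)⁻¹ • acl N1 l b t t) x y)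
    {ηb : ℝ} (hηb : 0 < ηb) (hηb2 : ηb ≤ 1 / 2)
    (HSb : ∑ k, rel (acl N1 l b t t) B1 k ^ 2 ≤ ηb ^ 2)
    {z : ℂ} (hz : z ≠ 0) {d η Lp e e1 ηm K K' : ℝ} (hV : VB N1 l b t z d D η Lp e K K')
    (hm : ∀ x, tn2 B1 (fun F => mainf (1 - (t * (l : ℝ) ^ 2)⁻¹ • B1) x F
      - mainf (1 - (t * (l : ℝ) ^ 2)⁻¹ • B1) x (cutx D x F)) ≤ ηm)
    (he1 : ∀ F, ‖Ph (wT b N1) (mt N1 t) 1 (lf N1 l F) - Wc N1 l b t F‖ ≤ e1) :
    ∃ κz : ℂ, ‖z‖ * ‖κz‖ ≤ γr * (dB (N1 / l) (t * (l : ℝ) ^ 2) ηb ‖z‖ K d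
        + ((2 * η + 2 * K * tq ηb) + ‖z‖ * ηm)) ∧
      Den (B1 * ahat (sn l t t') B1) (t' * (l : ℝ) ^ 2)
        (z * ((Real.exp (-(2 * π ^ 2 * H363.vv (sn l t t') (t * (l : ℝ) ^ 2) B1)) : ℝ) + κz))
        (γr * (π * ρp + 2 / (sn l t t' * (t * (l : ℝ) ^ 2)))
              * (dB (N1 / l) (t * (l : ℝ) ^ 2) ηb ‖z‖ K d
                + ((2 * η + 2 * K * tq ηb) + ‖z‖ * ηm))
            + ((2 * η + 2 * K * tq ηb) + ‖z‖ * ηm)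
            + (2 * π)⁻¹ * (√(sn l t t' * ((N1 / l : ℕ) : ℝ) ^ 2))⁻¹
              * ((2 * e + (om (wT b N1) (mt N1 t) 1 + K') * tq ηb) + e1))
        (dn (ahat (sn l t t') B1) (gm (sn l t t') B1) (uc N1 l b t)) := by
  have ht : 0 < t := ht'.trans h1
  have hνn := nu_next (N := N1) (l := l) hl1 ht' h1
  have hdom1 := hP.dom
  have hν := hdom1.hν
  have nfB := Nf.of_dom hdom1
  have hwm := wm_mt (N := N1) hb.le ht
  have hV1 := SB.law4 nfA nfB hν hηb hηb2 pA p1 hdom1.le HSb (measurable_PhF hb.le ht)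
    (KΦ := om (wT b N1) (mt N1 t) 1) (fun F => H896.norm_Ph_le hwm 1 _) hV
  obtain ⟨κz, h2, h3⟩ := hV1.win hP (measurable_PhF hb.le ht)
    (KΦ := om (wT b N1) (mt N1 t) 1) (fun F => H896.norm_Ph_le hwm 1 _)
    (dif_Wc hb.le ht hl1) (ch_Wc hb.le ht) (cov_uc hb.le ht hl1) (fun x => ch_uc hb.le ht x) hz hm he1
  rw [hνn] at h3
  exact ⟨κz, h2, h3⟩

/-- **(T)** : from the torus `N1` to the torus `N2` after the window, laws `B1`, `B2` -/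
theorem den_torB (hb : 0 < b) (hl1 : l ∣ N1) (hl2 : l ∣ N2) (ht' : 0 < t') (h1 : t' < t)
    {B1 : Matrix (V (N1 / l)) (V (N1 / l)) ℝ} {B2 : Matrix (V (N2 / l)) (V (N2 / l)) ℝ} {c1 c2 : ℝ}
    (hD1 : Dom B1 (t * (l : ℝ) ^ 2) c1) (hD2 : Dom B2 (t * (l : ℝ) ^ 2) c2)
    (p1 : ∀ x y, 0 ≤ (1 - (t * (l : ℝ) ^ 2)⁻¹ • B1) x y)
    (p2 : ∀ x y, 0 ≤ (1 - (t * (l : ℝ) ^ 2)⁻¹ • B2) x y)
    {z : ℂ} {d : ℝ} (hden : Den (B1 * ahat (sn l t t') B1) (t' * (l : ℝ) ^ 2) z d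
      (dn (ahat (sn l t t') B1) (gm (sn l t t') B1) (uc N1 l b t)))
    {R0 D0 D1 R : ℕ} (hDD : R0 + D0 + R ≤ D1) (hN1 : 4 * D1 < N1 / l) (hN2 : 4 * D1 < N2 / l)
    {ee eK ηn η' κ Km Lp1 η1 r2 : ℝ}
    (he : ∀ ζ ∈ zb (2 * D1), |ahat (sn l t t') B2 0 (ip (N2 / l) ζ)
      - ahat (sn l t t') B1 0 (ip (N1 / l) ζ)| ≤ ee)
    (hK : ∀ ζ ∈ zb (2 * D1), |((pin B2 * (pin B2)ᵀ) 0 (ip (N2 / l) ζ) - (pin B2 * (pin B2)ᵀ) 0 0)
      - ((pin B1 * (pin B1)ᵀ) 0 (ip (N1 / l) ζ) - (pin B1 * (pin B1)ᵀ) 0 0)| ≤ eK)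
    (hη2 : ηn ≤ 1 / 2) (hηe : (1 + sn l t t' * (t * (l : ℝ) ^ 2)) * (2 * D0 + 1) ^ 2 * ee ≤ ηn)
    (hη' : 0 < η') (hη'2 : η' ≤ 1 / 2) (hκ : 1 ≤ κ)
    (hη'e : 3 * (t' * (l : ℝ) ^ 2) * (2 * D1 + 1) ^ 2 * eK ≤ η')
    {mu : V (N1 / l) → (V (N1 / l) → ℝ) → ℂ} (hmu : Lcl B1 D0 η1 Lp1 (uc N1 l b t) mu)
    (hKm : ∀ x F, ‖mu x F‖ ≤ Km) (hS : Lcl B2 D0 r2 Lp1 (uc N2 l b t) (lft D0 mu)) :
      Den (B2 * ahat (sn l t t') B2) (t' * (l : ℝ) ^ 2) z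
        (H733.Vt.dT (t' * (l : ℝ) ^ 2) (B1 * ahat (sn l t t') B1) (B2 * ahat (sn l t t') B2) R0 D1 κ
          η' ‖z‖ (Km + ‖z‖) d
          (lW (N1 / l) B1 (sn l t t') R0 D0 R η1 ((2 * π)⁻¹ * (t * (l : ℝ) ^ 2)) Lp1)
          (H733.Vt.rT (sn l t t') B2 R0 D0 D1 R ((2 * π)⁻¹ * (t * (l : ℝ) ^ 2)) Km Lp1 r2 ee ηn)
          ((1 + (sn l t t' * (t * (l : ℝ) ^ 2))⁻¹) * ee))
        (dn (ahat (sn l t t') B2) (gm (sn l t t') B2) (uc N2 l b t)) ∧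
      Lcl (B2 * ahat (sn l t t') B2) D1
        (H733.Vt.rT (sn l t t') B2 R0 D0 D1 R ((2 * π)⁻¹ * (t * (l : ℝ) ^ 2)) Km Lp1 r2 ee ηn) Lp1
        (dn (ahat (sn l t t') B2) (gm (sn l t t') B2) (uc N2 l b t))
        (lft D1 (lamw (sn l t t') B1 R0 D1 mu)) := by
  have ht : 0 < t := ht'.trans h1
  have hs0 := sn_pos hl1 ht' h1
  have hνn := nu_next (N := N1) (l := l) hl1 ht' h1
  have hν := hD1.hν
  have o1 := H733.Vt.off_of_nn hν p1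
  have o2 := H733.Vt.off_of_nn hν p2
  have hKu1 : ∀ x F, ‖uc N1 l b t x F‖ ≤ (2 * π)⁻¹ * (t * (l : ℝ) ^ 2) :=
    fun x F => norm_uc_le hb.le ht hl1 x F
  have hKu2 : ∀ x F, ‖uc N2 l b t x F‖ ≤ (2 * π)⁻¹ * (t * (l : ℝ) ^ 2) :=
    fun x F => norm_uc_le hb.le ht hl2 x F
  have hL1 := lcl_window hD1 hs0 o1 hDD
    (fun x => (continuous_uc hb.le ht x).measurable) hKu1 (fun x => ch_uc hb.le ht x) hmu
  have hT := H733.Vt.den_win_tor hD1 hD2 hs0 o1 o2 p1 p2 hDD hN1 hN2 he hK hη2 hηe hη' hη'2 hκ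
    (by rw [hνn]; exact hη'e) (z := z)
    (H733.Vt.Lcl.self hmu) hKm (by rw [hνn]; exact hden) hL1
    (u2 := uc N2 l b t) (fun x => (continuous_uc hb.le ht x).measurable) hKu2
    (fun x => ch_uc hb.le ht x) (cov_uc hb.le ht hl2) hS
  rw [hνn] at hT
  exact hT

end tor2

/-! ### (L) + (C) + (L) + (E) -/

section next

variable {N l ρ : ℕ} [NeZero N] [NeZero (N / l)] [NeZero (N / l / ρ)] [NeZero (N / (l * ρ))]
  {b t t' : ℝ}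

/-- **(L) + (C) + (L) + (E)**: from the densities after the window in the law `B` to the next state -/
theorem VB.nextB (hb : 0 < b) (hl : l ∣ N) (hρ : ρ ∣ N / l) (ht' : 0 < t') (h1 : t' < t) {c : ℝ}
    (hD : Dom (acl N l b t t) (t * (l : ℝ) ^ 2) c)
    (pA : ∀ x y, 0 ≤ (1 - (t * (l : ℝ) ^ 2)⁻¹ • acl N l b t t) x y)
    (hSn : ∀ x y, 0 ≤ (1 - (t' * ((l * ρ : ℕ) : ℝ) ^ 2)⁻¹ • acl N (l * ρ) b t' t') x y)
    {s₀ : ℝ} (hδ : 16 * (ρ : ℝ) ^ 2 * (t' * (l : ℝ) ^ 2) / c ≤ 1 / 2)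
    (hs : (1 - (t' * (l : ℝ) ^ 2)⁻¹ • Ah N l b t t t') 0 0 ≤ s₀)
    (hs1 : 2 * (N / l : ℕ) * (16 * (ρ : ℝ) ^ 2 * (t' * (l : ℝ) ^ 2) / c) * √s₀ ≤ 1)
    (hs2 : 2 * (N / l : ℕ) * √(16 * (ρ : ℝ) ^ 2 * (t' * (l : ℝ) ^ 2) / c * s₀) ≤ 1)
    {B : Matrix (V (N / l)) (V (N / l)) ℝ} {cB : ℝ} (hB : Dom B (t * (l : ℝ) ^ 2) cB)
    (pB : ∀ x y, 0 ≤ (1 - (t * (l : ℝ) ^ 2)⁻¹ • B) x y)
    {η₁ : ℝ} (hη₁ : 0 < η₁) (hη₁' : η₁ ≤ 1 / 2)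
    (HS1 : ∑ k, rel B (acl N l b t t) k ^ 2 ≤ η₁ ^ 2)
    {η₂ : ℝ} (hη₂ : 0 < η₂) (hη₂' : η₂ ≤ 1 / 2)
    (HS2 : ∑ k, rel (Acx N l ρ b t t t') (anw N l ρ b t') k ^ 2 ≤ η₂ ^ 2)
    {z : ℂ} {d : ℝ} {ηw Lp : ℝ} {D1 D' : ℕ} (hD' : D1 + ρ ≤ ρ * D')
    (hden : Den (B * ahat (sn l t t') B) (t' * (l : ℝ) ^ 2) z d
      (dn (ahat (sn l t t') B) (gm (sn l t t') B) (uc N l b t)))
    {lam : V (N / l) → (V (N / l) → ℝ) → ℂ}
    (hlcl : Lcl (B * ahat (sn l t t') B) D1 ηw Lp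
      (dn (ahat (sn l t t') B) (gm (sn l t t') B) (uc N l b t)) lam)
    {K : ℝ} (hKu : (2 * π)⁻¹ * (t * (l : ℝ) ^ 2) ≤ K) (hKl : ∀ x F, ‖lam x F‖ ≤ K)
    {e ef : ℝ} (he : tn2 (Acx N l ρ b t t t') (fun f' => Ph (wT b N) (mt N t') 1 (lf2 N l ρ f')
      - Pc N l ρ b t t t' (Wc N l b t) f') ≤ e)
    (hef : tn2 (Ah N l b t t t') (fun f => Pg (ahat (sn l t t') (acl N l b t t))
        (gm (sn l t t') (acl N l b t t)) (Wc N l b t) f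
      - Pg (ahat (sn l t t') B) (gm (sn l t t') B) (Wc N l b t) f) ≤ ef) :
    VB N (l * ρ) b t' (z * (GC ρ (Ah N l b t t t') (t' * (l : ℝ) ^ 2) : ℂ))
      (dCS (N / l) ρ (t' * (l : ℝ) ^ 2) c s₀ η₁ η₂ ‖z‖ K d) D'
      (lCS (N / l) ρ D1 (t' * (l : ℝ) ^ 2) c s₀ η₁ η₂ K Lp ηw)
      ((ρ : ℝ) ^ 2 * Lp)
      (2 * (e + ef) + (om (wT b N) (mt N t') 1 + (2 * π)⁻¹ * (t * (N : ℝ) ^ 2)) * tq η₂)
      (2 * (ρ : ℝ) ^ 2 * K) ((2 * π)⁻¹ * (t * (N : ℝ) ^ 2)) := by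
  have ht : 0 < t := ht'.trans h1
  have hs0 := sn_pos hl ht' h1
  have hνn := nu_next (N := N) (l := l) hl ht' h1
  have hν := hD.hν
  set A := acl N l b t t with hA
  set s := sn l t t' with hsd
  have hAh : Ah N l b t t t' = A * ahat s A := rfl
  have hlρ : l * ρ ∣ N := H340.dvd_lr hl hρ
  have hoff : ∀ x y, x ≠ y → A x y ≤ 0 := H733.Vt.off_of_nn hν pA
  have hoffB : ∀ x y, x ≠ y → B x y ≤ 0 := H733.Vt.off_of_nn hν pB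
  have hDh : Dom (Ah N l b t t t') (t' * (l : ℝ) ^ 2) c := by
    rw [hAh, ← hνn]
    exact dom_Aahat hD hs0
  have hDBh : Dom (B * ahat s B) (t' * (l : ℝ) ^ 2) cB := by
    rw [← hνn]
    exact dom_Aahat hB hs0
  have hSh : ∀ x y, 0 ≤ (1 - (t' * (l : ℝ) ^ 2)⁻¹ • Ah N l b t t t') x y := by
    rw [hAh, ← hνn]
    exact S_ahat_nonneg hD hs0 hoff pA
  have hSB : ∀ x y, 0 ≤ (1 - (t' * (l : ℝ) ^ 2)⁻¹ • (B * ahat s B)) x y := by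
    rw [← hνn]
    exact S_ahat_nonneg hB hs0 hoffB pB
  have hKu' : ∀ x F, ‖uc N l b t x F‖ ≤ K := fun x F => (norm_uc_le hb.le ht hl x F).trans hKu
  have hK0 : 0 ≤ K := (norm_nonneg _).trans (hKu' 0 0)
  have hNn := H340.nf_anw (N := N) (l := l) (ρ := ρ) hb hl hρ ht'
  have hρ0 := H708.rho_pos hρ
  have eν : t' * ((l * ρ : ℕ) : ℝ) ^ 2 = t' * (l : ℝ) ^ 2 * (ρ : ℝ) ^ 2 := by
    push_cast
    ring
  have hSn' : ∀ x y, 0 ≤ (1 - (t' * (l : ℝ) ^ 2 * (ρ : ℝ) ^ 2)⁻¹ • anw N l ρ b t') x y := by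
    intro x y
    have h2 := hSn (tce (Nat.div_div_eq_div_mul N l ρ) x) (tce (Nat.div_div_eq_div_mul N l ρ) y)
    rw [eν] at h2
    refine h2.trans (le_of_eq ?_)
    unfold anw
    rw [Matrix.sub_apply, Matrix.sub_apply, Matrix.smul_apply, Matrix.smul_apply,
      Matrix.submatrix_apply]
    congr 1
    rw [Matrix.one_apply, Matrix.one_apply]
    simp
  have hle : ∀ k, sym (anw N l ρ b t') k ≤ t' * (l : ℝ) ^ 2 * (ρ : ℝ) ^ 2 := by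
    intro k
    unfold anw
    rw [H340.sym_tce, ← eν]
    exact sym_acl_le hb.le hlρ ht' le_rfl _
  have hKB : ∀ x F, ‖dn (ahat s B) (gm s B) (uc N l b t) x F‖ ≤ K :=
    norm_dn_ahat hB hs0 hoffB hKu'
  have HS1' : ∑ k, rel (B * ahat s B) (Ah N l b t t t') k ^ 2 ≤ η₁ ^ 2 :=
    (rel_win hB hD hs0).trans HS1
  have hcell := cell_step (n := N / l) hρ (Nf.of_dom hDBh) hDh hNn hδ hSB hSh hSn' hle hs hs1 hs2
    hη₁ hη₁' HS1' hη₂ hη₂' HS2 hD' hden hlcl hKB hKl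
  obtain ⟨hDen, hLcl⟩ := hcell
  -- the functional
  set WB : (V (N / l) → ℝ) → ℂ := Pg (ahat s B) (gm s B) (Wc N l b t) with hWB
  set PB : (V (N / l / ρ) → ℝ) → ℂ := Pg (m2 ρ (Ah N l b t t t')) (Bm ρ (Ah N l b t t t')) WB
    with hPB
  have dWB : Dif WB (dn (ahat s B) (gm s B) (uc N l b t)) := (dif_Wc hb.le ht hl).step _ _
  have hdif : Dif PB (dn (m2 ρ (Ah N l b t t t')) (Bm ρ (Ah N l b t t t'))
      (dn (ahat s B) (gm s B) (uc N l b t))) := dWB.step _ _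
  have hch : Ch PB := ch_Pg (H708.row_m2 hρ (Nf.of_dom hDh))
    (ch_Pg (ahat_row B hB.zero) (ch_Wc hb.le ht))
  have hwm : WM (wT b N) (mt N t') := wm_mt hb.le ht'
  have mPh : Measurable fun f' : V (N / l / ρ) → ℝ =>
      Ph (wT b N) (mt N t') 1 (lf2 N l ρ f') :=
    ((continuous_Ph hwm 1).comp H896.continuous_lf2).measurable
  have bW : ∀ F, ‖Wc N l b t F‖ ≤ (2 * π)⁻¹ * (t * (N : ℝ) ^ 2) := norm_Wc_le hb.le ht hl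
  have bPB : ∀ f', ‖PB f'‖ ≤ (2 * π)⁻¹ * (t * (N : ℝ) ^ 2) :=
    fun f' => norm_Pg_le (norm_Pg_le bW) f'
  have hNx : Nf (Acx N l ρ b t t t') := H708.nf_Ac hρ (Nf.of_dom hDh)
  set WA : (V (N / l) → ℝ) → ℂ := Pg (ahat s A) (gm s A) (Wc N l b t) with hWA
  have mW : Measurable (Wc N l b t) := (continuous_Wc hb.le ht).measurable
  have mWA : Measurable WA := measurable_Pg mW
  have mWB : Measurable WB := measurable_Pg mW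
  have dif2 : tn2 (Acx N l ρ b t t t') (fun f' => Pc N l ρ b t t t' (Wc N l b t) f' - PB f')
      ≤ ef := by
    have hb2 : ∀ F, ‖(fun f => WA f - WB f) F‖ ≤ 2 * ((2 * π)⁻¹ * (t * (N : ℝ) ^ 2)) := by
      intro F
      have := (norm_sub_le (WA F) (WB F)).trans (add_le_add (norm_Pg_le bW F) (norm_Pg_le bW F))
      linarith
    have h2 := n2_Pgc_le hρ (Nf.of_dom hDh) (u := fun f => WA f - WB f) (mWA.sub mWB) hb2
    refine le_trans (le_of_eq ?_) (h2.trans hef)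
    refine tn2_congr (fun f' => ?_) _
    have q := integral_sub (integrable_Pg (F0 := m2 ρ (Ah N l b t t t'))
      (A := Bm ρ (Ah N l b t t t')) mWA (fun F => norm_Pg_le bW F) f')
      (integrable_Pg (F0 := m2 ρ (Ah N l b t t t')) (A := Bm ρ (Ah N l b t t t')) mWB
        (fun F => norm_Pg_le bW F) f')
    exact q.symm
  have he' : tn2 (Acx N l ρ b t t t') (fun f' => Ph (wT b N) (mt N t') 1 (lf2 N l ρ f') - PB f')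
      ≤ e + ef := by
    have e0 : ∀ f', Ph (wT b N) (mt N t') 1 (lf2 N l ρ f') - PB f'
        = (Ph (wT b N) (mt N t') 1 (lf2 N l ρ f') - Pc N l ρ b t t t' (Wc N l b t) f')
          + (Pc N l ρ b t t t' (Wc N l b t) f' - PB f') := fun f' => by ring
    rw [tn2_congr e0]
    have mPc : Measurable (Pc N l ρ b t t t' (Wc N l b t)) := by
      unfold Pc
      exact measurable_Pg mWA
    have bPc : ∀ f', ‖Pc N l ρ b t t t' (Wc N l b t) f'‖ ≤ (2 * π)⁻¹ * (t * (N : ℝ) ^ 2) :=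
      fun f' => norm_Pg_le (norm_Pg_le bW) f'
    exact (tn2_add_le (mPh.sub mPc) (mPc.sub hdif.m)
      (K := om (wT b N) (mt N t') 1 + (2 * π)⁻¹ * (t * (N : ℝ) ^ 2))
      (L := (2 * π)⁻¹ * (t * (N : ℝ) ^ 2) + (2 * π)⁻¹ * (t * (N : ℝ) ^ 2))
      (fun f' => (norm_sub_le _ _).trans (add_le_add (H896.norm_Ph_le hwm 1 _) (bPc f')))
      (fun f' => (norm_sub_le _ _).trans (add_le_add (bPc f') (bPB f'))) _).trans
      (add_le_add he dif2)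
  have he2 : tn2 (anw N l ρ b t') (fun f' => Ph (wT b N) (mt N t') 1 (lf2 N l ρ f') - PB f')
      ≤ 2 * (e + ef) + (om (wT b N) (mt N t') 1 + (2 * π)⁻¹ * (t * (N : ℝ) ^ 2)) * tq η₂ := by
    have h4 : √(4 : ℝ) = 2 := by
      rw [show (4 : ℝ) = 2 ^ 2 by norm_num]
      exact Real.sqrt_sq (by norm_num)
    have h5 := tn2_change hNx hNn (κ := 4) hη₂ hη₂' (by norm_num) HS2
      (u := fun f' => Ph (wT b N) (mt N t') 1 (lf2 N l ρ f') - PB f') (mPh.sub hdif.m)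
      (B := om (wT b N) (mt N t') 1 + (2 * π)⁻¹ * (t * (N : ℝ) ^ 2)) fun f' =>
        (norm_sub_le _ _).trans (add_le_add (H896.norm_Ph_le hwm 1 _) (bPB f'))
    rw [h4] at h5
    unfold tq
    linarith
  unfold VB
  rw [eν]
  refine SB.cast (Nat.div_div_eq_div_mul N l ρ) ?_
  refine ⟨PB, _, lamc ρ (Ah N l b t t t') lam, hdif, hch, hDen, hLcl, ?_, fun X F => ?_,
    fun X F => ?_, bPB⟩
  · refine le_trans (le_of_eq ?_) he2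
    unfold anw
    refine tn2_congr (fun f' => ?_) _
    rw [H896.lf2_eq hl hρ]
    rfl
  · exact (norm_dn_le hKB X F).trans (mul_le_mul_of_nonneg_right (m2_col hρ hDh hδ hs hs2 X) hK0)
  · refine (norm_lamc_le hρ hKl X F).trans ?_
    have : 0 ≤ (ρ : ℝ) ^ 2 * K := by positivity
    linarith

end next

end

end Vale.Agent.P159.H889
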